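import Vale.Agent.P078.General.Tools

/-!
Gluing pavings of orthogonal corners with disjoint colours.
-/

noncomputable section

open scoped InnerProductSpace
open Vale.Agent.P078.Finite

namespace Vale.Agent.P078.General

universe u

variable {H : Type u} [NormedAddCommGroup H] [InnerProductSpace ℂ H] [CompleteSpace H]
variable {M : VonNeumannAlgebra H} {A : StarSubalgebra ℂ (H →L[ℂ] H)}

/-- A block diagonal operator is bounded by the bound on its blocks. -/
theorem norm_orth_add_le {p z X Y : H →L[ℂ] H} (hp : IsStarProjection p) (hz : IsStarProjection z)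
    (hpz : p * z = 0) (hX : p * X = X) (hX' : X * p = X) (hY : z * Y = Y) (hY' : Y * z = Y)
    {K : ℝ} (hXK : ‖X‖ ≤ K) (hYK : ‖Y‖ ≤ K) : ‖X + Y‖ ≤ K := by
  have hK : 0 ≤ K := (norm_nonneg _).trans hXK
  have pyth : ∀ u w : H, ‖p u + z w‖ ^ 2 = ‖p u‖ ^ 2 + ‖z w‖ ^ 2 := by
    intro u w
    have h : ⟪p u, z w⟫_ℂ = 0 := by
      rw [inner_sa hp.isSelfAdjoint]
      change ⟪u, (p * z) w⟫_ℂ = 0
      rw [hpz, zero_apply, inner_zero_right]
    simpa [sq] using norm_add_sq_eq_norm_sq_add_norm_sq_of_inner_eq_zero _ _ h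
  refine ContinuousLinearMap.opNorm_le_bound _ hK fun v => ?_
  refine (pow_le_pow_iff_left₀ (norm_nonneg _) (by positivity) two_ne_zero).1 ?_
  have hsum : ‖p v‖ ^ 2 + ‖z v‖ ^ 2 ≤ ‖v‖ ^ 2 := by
    have hzp : z * p = 0 := by
      have := congrArg star hpz
      rwa [star_mul, star_zero, hp.isSelfAdjoint.star_eq, hz.isSelfAdjoint.star_eq] at this
    have h := pow_le_pow_left₀ (norm_nonneg _) (norm_proj_apply_le (hp.add hz hpz) v) 2
    rw [add_apply, pyth] at h
    exact h
  have e1 : X v = p (X (p v)) := congrArg (fun T : H →L[ℂ] H => T v)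
    (show X = p * (X * p) by rw [hX', hX])
  have e2 : Y v = z (Y (z v)) := congrArg (fun T : H →L[ℂ] H => T v)
    (show Y = z * (Y * z) by rw [hY', hY])
  calc ‖(X + Y) v‖ ^ 2 = ‖p (X (p v))‖ ^ 2 + ‖z (Y (z v))‖ ^ 2 := by
        rw [add_apply, e1, e2, pyth]
    _ ≤ (K * ‖p v‖) ^ 2 + (K * ‖z v‖) ^ 2 := by
        refine add_le_add (pow_le_pow_left₀ (norm_nonneg _) ?_ 2)
          (pow_le_pow_left₀ (norm_nonneg _) ?_ 2)
        · exact (norm_proj_apply_le hp _).trans ((X.le_opNorm _).trans
            (mul_le_mul_of_nonneg_right hXK (norm_nonneg _)))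
        · exact (norm_proj_apply_le hz _).trans ((Y.le_opNorm _).trans
            (mul_le_mul_of_nonneg_right hYK (norm_nonneg _)))
    _ ≤ (K * ‖v‖) ^ 2 := by
        simp only [mul_pow, ← mul_add]
        exact mul_le_mul_of_nonneg_left hsum (sq_nonneg _)

theorem proj_absorb {ι : Type*} [Fintype ι] {g : ι → H →L[ℂ] H} {p : H →L[ℂ] H}
    (hg : ∀ i, IsStarProjection (g i)) (ho : ∀ i j, i ≠ j → g i * g j = 0) (hs : ∑ i, g i = p)
    (i : ι) : p * g i = g i ∧ g i * p = g i := by
  classical
  rw [← hs, Finset.sum_mul, Finset.mul_sum]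
  constructor
  · rw [Finset.sum_eq_single i (fun j _ hj => ho j i hj)
      (fun h => absurd (Finset.mem_univ i) h), (hg i).isIdempotentElem.eq]
  · rw [Finset.sum_eq_single i (fun j _ hj => ho i j hj.symm)
      (fun h => absurd (Finset.mem_univ i) h), (hg i).isIdempotentElem.eq]

/-- Pavings of orthogonal corners, with disjoint colours, give so-paving. -/
theorem soPavableIn_glue {ε : ℝ} {r0 r1 : ℕ} (h0 : 1 ≤ r0) {x : H →L[ℂ] H}
    (h : ∀ (F : Finset H) (δ : ℝ), 0 < δ → ∃ p z : H →L[ℂ] H, p ∈ A ∧ IsStarProjection p ∧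
      z ∈ A ∧ IsStarProjection z ∧ p * z = 0 ∧ (∀ v ∈ F, ‖(1 - p - z) v‖ < δ) ∧
      PavableOn M A p ε r0 x ∧ PavableOn M A z ε r1 x) :
    SoPavableIn M A ε (r0 + r1) x := by
  classical
  intro F δ hδ
  obtain ⟨p, z, hp, hpp, hz, hzp, hpz, hF, h0', h1'⟩ := h F (δ / 3) (by positivity)
  obtain ⟨g, a, q, hg, hgo, hgs, ha, has, han, hpa, hq, hqp, hpq, hqF, hgb⟩ :=
    h0' F (δ / 3) (by positivity)
  obtain ⟨k, b, w, hk, hko, hks, hb, hbs, hbn, hzb, hw, hwp, hzw, hwF, hkb⟩ :=
    h1' F (δ / 3) (by positivity)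
  have hzp0 : z * p = 0 := by
    have := congrArg star hpz
    rwa [star_mul, star_zero, hpp.isSelfAdjoint.star_eq, hzp.isSelfAdjoint.star_eq] at this
  have hgp := proj_absorb (fun i => (hg i).2) hgo hgs
  have hkz := proj_absorb (fun i => (hk i).2) hko hks
  have sa : ∀ {P X : H →L[ℂ] H}, IsSelfAdjoint P → IsSelfAdjoint X → P * X = X → X * P = X := by
    intro P X hP hX h
    have := congrArg star h
    rwa [star_mul, hP.star_eq, hX.star_eq] at this
  have hqp' := sa hpp.isSelfAdjoint hqp.isSelfAdjoint hpq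
  have hwz' := sa hzp.isSelfAdjoint hwp.isSelfAdjoint hzw
  have hap' := sa hpp.isSelfAdjoint has hpa
  have hbz' := sa hzp.isSelfAdjoint hbs hzb
  have crossL : ∀ {X Y : H →L[ℂ] H}, X * p = X → z * Y = Y → X * Y = 0 := by
    intro X Y hX hY
    rw [← hX, ← hY, mul_assoc, ← mul_assoc p, hpz, zero_mul, mul_zero]
  have crossR : ∀ {X Y : H →L[ℂ] H}, X * z = X → p * Y = Y → X * Y = 0 := by
    intro X Y hX hY
    rw [← hX, ← hY, mul_assoc, ← mul_assoc z, hzp0, zero_mul, mul_zero]
  set rest : H →L[ℂ] H := 1 - p - z with hrestdef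
  have hrest : IsStarProjection rest := by
    rw [hrestdef, sub_sub]
    exact (hpp.add hzp hpz).one_sub
  have hrA : rest ∈ A := sub_mem (sub_mem (one_mem A) hp) hz
  have eP : ∀ {X : H →L[ℂ] H}, X * p = X → X * rest = 0 := by
    intro X hX
    rw [← hX, mul_assoc, hrestdef]
    simp [mul_sub, hpp.isIdempotentElem.eq, hpz]
  have eZ : ∀ {X : H →L[ℂ] H}, X * z = X → X * rest = 0 := by
    intro X hX
    rw [← hX, mul_assoc, hrestdef]
    simp [mul_sub, hzp.isIdempotentElem.eq, hzp0]
  have eP' : ∀ {X : H →L[ℂ] H}, p * X = X → rest * X = 0 := by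
    intro X hX
    rw [← hX, ← mul_assoc, hrestdef]
    simp [sub_mul, hpp.isIdempotentElem.eq, hzp0]
  have eZ' : ∀ {X : H →L[ℂ] H}, z * X = X → rest * X = 0 := by
    intro X hX
    rw [← hX, ← mul_assoc, hrestdef]
    simp [sub_mul, hzp.isIdempotentElem.eq, hpz]
  let i0 : Fin r0 := ⟨0, h0⟩
  set g' : Fin r0 → H →L[ℂ] H := fun i => g i + if i = i0 then rest else 0 with hg'
  have hg'p : ∀ i, g' i ∈ A ∧ IsStarProjection (g' i) := by
    intro i
    simp only [hg']
    split_ifs
    · exact ⟨add_mem (hg i).1 hrA, (hg i).2.add hrest (eP (hgp i).2)⟩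
    · rw [add_zero]
      exact hg i
  have hg'o : ∀ i j, i ≠ j → g' i * g' j = 0 := by
    intro i j hij
    simp only [hg']
    split_ifs with a1 a2
    · exact absurd (a1.trans a2.symm) hij
    · simp [add_mul, hgo i j hij, eP' (hgp j).1]
    · simp [mul_add, hgo i j hij, eP (hgp i).2]
    · simp [hgo i j hij]
  have hgk : ∀ i j, g' i * k j = 0 ∧ k j * g' i = 0 := by
    intro i j
    simp only [hg']
    split_ifs
    · constructor
      · simp [add_mul, crossL (hgp i).2 (hkz j).1, eZ' (hkz j).1]
      · simp [mul_add, crossR (hkz j).2 (hgp i).1, eZ (hkz j).2]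
    · rw [add_zero]
      exact ⟨crossL (hgp i).2 (hkz j).1, crossR (hkz j).2 (hgp i).1⟩
  set P : Fin (r0 + r1) → H →L[ℂ] H := Fin.append g' k with hPdef
  have hqw : q * w = 0 := crossL hqp' hzw
  refine ⟨P, a + b, q + w, fun i => ?_, fun i j hij => ?_, ?_, add_mem ha hb, has.add hbs,
    norm_orth_add_le hpp hzp hpz hpa hap' hzb hbz' han hbn, add_mem hq hw, hqp.add hwp hqw,
    fun v hv => ?_, ?_⟩
  · induction i using Fin.addCases <;> simp [hPdef, hg'p, hk]
  · induction i using Fin.addCases with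
    | left i =>
      induction j using Fin.addCases with
      | left j => simpa [hPdef] using hg'o i j (fun h => hij (by rw [h]))
      | right j => simpa [hPdef] using (hgk i j).1
    | right i =>
      induction j using Fin.addCases with
      | left j => simpa [hPdef] using (hgk j i).2
      | right j => simpa [hPdef] using hko i j (fun h => hij (by rw [h]))
  · rw [Fin.sum_univ_add]
    simp only [hPdef, Fin.append_left, Fin.append_right, hg', Finset.sum_add_distrib, hgs, hks,
      Finset.sum_ite_eq', Finset.mem_univ, if_true]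
    rw [hrestdef]
    abel
  · have e : (1 - (q + w)) v = (1 - p - z) v + (p - q) v + (z - w) v := by
      rw [← add_apply, ← add_apply]
      congr 1
      abel
    rw [e]
    refine (norm_add₃_le).trans_lt ?_
    linarith [hF v hv, hqF v hv, hwF v hv]
  · have lq : ∀ i, (q + w) * g' i = q * g i ∧ g' i * (q + w) = g i * q := by
      intro i
      simp only [hg']
      constructor
      · rw [add_mul, mul_add, mul_add, crossR hwz' (hgp i).1]
        split_ifs <;> simp [eP hqp', eZ hwz']
      · rw [mul_add, add_mul, add_mul, crossL (hgp i).2 hzw]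
        split_ifs <;> simp [eP' hpq, eZ' hzw]
    have lw : ∀ j, (q + w) * k j = w * k j ∧ k j * (q + w) = k j * w := by
      intro j
      constructor
      · rw [add_mul, crossL hqp' (hkz j).1, zero_add]
      · rw [mul_add, crossR (hkz j).2 hpq, zero_add]
    have la : (q + w) * (a + b) * (q + w) = q * a * q + w * b * w := by
      simp only [mul_add, add_mul, crossL hqp' hzb, crossR hwz' hpa, zero_mul]
      rw [crossL (show q * a * p = q * a by rw [mul_assoc, hap']) hzw,
        crossR (show w * b * z = w * b by rw [mul_assoc, hbz']) hpq]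
      abel
    have key : (q + w) * (∑ i, P i * x * P i - (a + b)) * (q + w) =
        q * (∑ i, g i * x * g i - a) * q + w * (∑ i, k i * x * k i - b) * w := by
      rw [mul_sub, sub_mul, la, Fin.sum_univ_add]
      simp only [hPdef, Fin.append_left, Fin.append_right]
      have e1 : ∀ i, (q + w) * (g' i * x * g' i) * (q + w) = q * (g i * x * g i) * q := fun i => by
        calc (q + w) * (g' i * x * g' i) * (q + w)
            = ((q + w) * g' i) * x * (g' i * (q + w)) := by simp only [mul_assoc]
          _ = (q * g i) * x * (g i * q) := by rw [(lq i).1, (lq i).2]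
          _ = _ := by simp only [mul_assoc]
      have e2 : ∀ j, (q + w) * (k j * x * k j) * (q + w) = w * (k j * x * k j) * w := fun j => by
        calc (q + w) * (k j * x * k j) * (q + w)
            = ((q + w) * k j) * x * (k j * (q + w)) := by simp only [mul_assoc]
          _ = (w * k j) * x * (k j * w) := by rw [(lw j).1, (lw j).2]
          _ = _ := by simp only [mul_assoc]
      rw [mul_add (q + w), Finset.mul_sum, Finset.mul_sum, add_mul (∑ i, (q + w) * (g' i * x * g' i)),
        Finset.sum_mul, Finset.sum_mul]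
      simp only [e1, e2, mul_sub, sub_mul, Finset.mul_sum, Finset.sum_mul]
      abel
    rw [key]
    refine norm_orth_add_le hpp hzp hpz ?_ ?_ ?_ ?_ hgb hkb
    · rw [← mul_assoc, ← mul_assoc, hpq]
    · rw [mul_assoc, hqp']
    · rw [← mul_assoc, ← mul_assoc, hzw]
    · rw [mul_assoc, hwz']

/-- More colours do not hurt. -/
theorem pavableOn_mono {z : H →L[ℂ] H} {ε : ℝ} {r r' : ℕ} (hrr : r ≤ r') {x : H →L[ℂ] H}
    (h : PavableOn M A z ε r x) : PavableOn M A z ε r' x := by
  obtain ⟨d, rfl⟩ := Nat.exists_eq_add_of_le hrr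
  intro F δ hδ
  obtain ⟨g, a, q, hg, hgo, hgs, ha, has, han, hza, hq, hqp, hzq, hqF, hb⟩ := h F δ hδ
  refine ⟨Fin.append g 0, a, q, fun i => ?_, fun i j hij => ?_, ?_, ha, has, han, hza, hq, hqp,
    hzq, hqF, ?_⟩
  · induction i using Fin.addCases <;> simp [hg, zero_mem, IsStarProjection.zero]
  · induction i using Fin.addCases with
    | left i =>
      induction j using Fin.addCases with
      | left j => simpa using hgo i j (fun h => hij (by rw [h]))
      | right j => simp
    | right i => simp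
  · simpa [Fin.sum_univ_add] using hgs
  · simpa [Fin.sum_univ_add] using hb

/-- More colours do not hurt. -/
theorem soPavableIn_mono {ε : ℝ} {r r' : ℕ} (hrr : r ≤ r') {x : H →L[ℂ] H}
    (h : SoPavableIn M A ε r x) : SoPavableIn M A ε r' x := by
  obtain ⟨d, rfl⟩ := Nat.exists_eq_add_of_le hrr
  intro F δ hδ
  obtain ⟨g, a, q, hg, hgo, hgs, ha, has, han, hq, hqp, hqF, hb⟩ := h F δ hδ
  refine ⟨Fin.append g 0, a, q, fun i => ?_, fun i j hij => ?_, ?_, ha, has, han, hq, hqp,
    hqF, ?_⟩
  · induction i using Fin.addCases <;> simp [hg, zero_mem, IsStarProjection.zero]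
  · induction i using Fin.addCases with
    | left i =>
      induction j using Fin.addCases with
      | left j => simpa using hgo i j (fun h => hij (by rw [h]))
      | right j => simp
    | right i => simp
  · simpa [Fin.sum_univ_add] using hgs
  · simpa [Fin.sum_univ_add] using hb

end Vale.Agent.P078.General
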