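import Vale.Agent.P078.General.Cluster

/-!
Finite weight projections and the corners they give.
-/

noncomputable section

open scoped InnerProductSpace ENNReal NNReal
open Filter Vale.Agent.P078.Finite

namespace Vale.Agent.P078.General

universe u

variable {H : Type u} [NormedAddCommGroup H] [InnerProductSpace ℂ H] [CompleteSpace H]
variable {M : VonNeumannAlgebra H} {A : StarSubalgebra ℂ (H →L[ℂ] H)}
variable {J : Type u} {ξ : J → H}

theorem weight_le_of {x y : H →L[ℂ] H} {K : ℝ} (h : ∀ j, ‖x (ξ j)‖ ≤ K * ‖y (ξ j)‖) :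
    weight ξ x ≤ ENNReal.ofReal (K ^ 2) * weight ξ y := by
  rw [weight, weight, ← ENNReal.tsum_mul_left]
  refine ENNReal.tsum_le_tsum fun j => ?_
  rw [← ENNReal.ofReal_mul (sq_nonneg _), ← mul_pow]
  exact ENNReal.ofReal_le_ofReal (pow_le_pow_left₀ (norm_nonneg _) (h j) 2)

theorem weight_ne_top_of {x y : H →L[ℂ] H} {K : ℝ} (h : ∀ j, ‖x (ξ j)‖ ≤ K * ‖y (ξ j)‖)
    (hy : weight ξ y ≠ ⊤) : weight ξ x ≠ ⊤ :=
  ne_top_of_le_ne_top (ENNReal.mul_ne_top ENNReal.ofReal_ne_top hy) (weight_le_of h)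

theorem weight_zero : weight ξ (0 : H →L[ℂ] H) = 0 := by
  simp [weight]

/-- Multiplying on the right by a projection of `M` does not increase the weight. -/
theorem weight_mul_proj_le (hsym : ∀ x ∈ M, weight ξ (star x) = weight ξ x) {T p : H →L[ℂ] H}
    (hT : T ∈ M) (hp : p ∈ M) (hpp : IsStarProjection p) : weight ξ (T * p) ≤ weight ξ T := by
  rw [← hsym (T * p) (mul_mem hT hp), star_mul, hpp.isSelfAdjoint.star_eq, ← hsym T hT]
  refine le_of_le_of_eq (weight_le_of (K := 1) (y := star T) fun j => ?_) (by simp)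
  rw [one_mul]
  exact norm_proj_apply_le hpp _

/-- The join of two commuting projections. -/
theorem join_spec (hA : IsMasaIn M A) {p q : H →L[ℂ] H} (hp : p ∈ A) (hpp : IsStarProjection p)
    (hq : q ∈ A) (hqp : IsStarProjection q) :
    p + (1 - p) * q ∈ A ∧ IsStarProjection (p + (1 - p) * q) ∧
      (∀ v, ‖(1 - (p + (1 - p) * q)) v‖ ≤ ‖(1 - p) v‖) ∧
      (∀ v, ‖(1 - (p + (1 - p) * q)) v‖ ≤ ‖(1 - q) v‖) ∧
      (weight ξ p ≠ ⊤ → weight ξ q ≠ ⊤ → weight ξ (p + (1 - p) * q) ≠ ⊤) := by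
  have h1 : 1 - p ∈ A := sub_mem (one_mem A) hp
  have hc : (1 - p) * q = q * (1 - p) := masa_comm hA h1 hq
  have h1q : IsStarProjection ((1 - p) * q) := hpp.one_sub.mul hqp hc
  have hpo : p * ((1 - p) * q) = 0 := by rw [← mul_assoc, hpp.mul_one_sub_self, zero_mul]
  have e : 1 - (p + (1 - p) * q) = (1 - p) * (1 - q) := by
    rw [mul_sub, mul_one]
    abel
  refine ⟨add_mem hp (mul_mem h1 hq), hpp.add h1q hpo, fun v => ?_, fun v => ?_, fun hfp hfq => ?_⟩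
  · rw [e, show (1 - p) * (1 - q) = (1 - q) * (1 - p) from
      masa_comm hA h1 (sub_mem (one_mem A) hq)]
    exact norm_proj_apply_le hqp.one_sub _
  · rw [e]
    exact norm_proj_apply_le hpp.one_sub _
  · refine ne_top_of_le_ne_top (ENNReal.add_ne_top.2 ⟨hfp, hfq⟩) ?_
    rw [weight, weight, weight, ← ENNReal.tsum_add]
    refine ENNReal.tsum_le_tsum fun j => ?_
    rw [← ENNReal.ofReal_add (sq_nonneg _) (sq_nonneg _)]
    refine ENNReal.ofReal_le_ofReal ?_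
    have h0 : ⟪p (ξ j), ((1 - p) * q) (ξ j)⟫_ℂ = 0 := by
      rw [inner_sa hpp.isSelfAdjoint]
      change ⟪ξ j, (p * ((1 - p) * q)) (ξ j)⟫_ℂ = 0
      rw [hpo, zero_apply, inner_zero_right]
    have h2 := norm_add_sq_eq_norm_sq_add_norm_sq_of_inner_eq_zero _ _ h0
    have h3 : ‖((1 - p) * q) (ξ j)‖ ≤ ‖q (ξ j)‖ := norm_proj_apply_le hpp.one_sub (q (ξ j))
    have h4 := pow_le_pow_left₀ (norm_nonneg _) h3 2
    rw [add_apply]
    simp only [← sq] at h2
    linarith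

theorem summable_of_weight {x : H →L[ℂ] H} (h : weight ξ x ≠ ⊤) :
    Summable fun j => ‖x (ξ j)‖ ^ 2 :=
  (ENNReal.summable_toReal h).congr fun j => ENNReal.toReal_ofReal (sq_nonneg _)

theorem tsum_sq_eq {x : H →L[ℂ] H} :
    ∑' j, ‖x (ξ j)‖ ^ 2 = (weight ξ x).toReal := by
  rw [weight, ENNReal.tsum_toReal_eq fun j => ENNReal.ofReal_ne_top]
  exact tsum_congr fun j => (ENNReal.toReal_ofReal (sq_nonneg _)).symm

theorem tsum_sq_star (hsym : ∀ x ∈ M, weight ξ (star x) = weight ξ x) {x : H →L[ℂ] H}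
    (hx : x ∈ M) : ∑' j, ‖star x (ξ j)‖ ^ 2 = ∑' j, ‖x (ξ j)‖ ^ 2 := by
  rw [tsum_sq_eq, tsum_sq_eq, hsym x hx]

theorem weight_add_ne_top {x y : H →L[ℂ] H} (hx : weight ξ x ≠ ⊤) (hy : weight ξ y ≠ ⊤) :
    weight ξ (x + y) ≠ ⊤ := by
  refine ne_top_of_le_ne_top (ENNReal.mul_ne_top (ENNReal.ofReal_ne_top (r := 2))
    (ENNReal.add_ne_top.2 ⟨hx, hy⟩)) ?_
  rw [weight, weight, weight, ← ENNReal.tsum_add, ← ENNReal.tsum_mul_left]
  refine ENNReal.tsum_le_tsum fun j => ?_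
  rw [← ENNReal.ofReal_add (sq_nonneg _) (sq_nonneg _), ← ENNReal.ofReal_mul zero_le_two]
  refine ENNReal.ofReal_le_ofReal ?_
  rw [add_apply]
  exact (pow_le_pow_left₀ (norm_nonneg _) (norm_add_le _ _) 2).trans add_sq_le

theorem weight_smul_ne_top {x : H →L[ℂ] H} (c : ℂ) (hx : weight ξ x ≠ ⊤) :
    weight ξ (c • x) ≠ ⊤ :=
  weight_ne_top_of (K := ‖c‖) (fun j => by rw [smul_apply, norm_smul]) hx

/-- The polarised form of the symmetry of the weight. -/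
theorem tsum_inner_swap (hsym : ∀ x ∈ M, weight ξ (star x) = weight ξ x) {u w : H →L[ℂ] H}
    (hu : u ∈ M) (hw : w ∈ M) (hfu : weight ξ u ≠ ⊤) (hfw : weight ξ w ≠ ⊤) :
    ∑' j, ⟪u (ξ j), w (ξ j)⟫_ℂ = ∑' j, ⟪star w (ξ j), star u (ξ j)⟫_ℂ := by
  have hsum : ∀ {a b : H →L[ℂ] H}, weight ξ a ≠ ⊤ → weight ξ b ≠ ⊤ →
      HasSum (fun j => ⟪a (ξ j), b (ξ j)⟫_ℂ)
        ((((∑' j, ‖(a + b) (ξ j)‖ ^ 2 : ℝ) : ℂ) - (∑' j, ‖(a + (-1 : ℂ) • b) (ξ j)‖ ^ 2 : ℝ) +
          (((∑' j, ‖(a + (-Complex.I) • b) (ξ j)‖ ^ 2 : ℝ) : ℂ) -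
            (∑' j, ‖(a + Complex.I • b) (ξ j)‖ ^ 2 : ℝ)) * Complex.I) / 4) := by
    intro a b ha hb
    have hs : ∀ c : ℂ, HasSum (fun j => ((‖(a + c • b) (ξ j)‖ ^ 2 : ℝ) : ℂ))
        ((∑' j, ‖(a + c • b) (ξ j)‖ ^ 2 : ℝ) : ℂ) := fun c =>
      Complex.hasSum_ofReal.2 (summable_of_weight (weight_add_ne_top ha (weight_smul_ne_top c hb))).hasSum
    have h := ((((hs 1).sub (hs (-1))).add (((hs (-Complex.I)).sub (hs Complex.I)).mul_right
      Complex.I)).div_const 4)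
    simp only [one_smul] at h
    refine h.congr_fun fun j => ?_
    rw [inner_eq_sum_norm_sq_div_four (a (ξ j)) (b (ξ j))]
    simp [sub_eq_add_neg]
  have hfw' : weight ξ (star w) ≠ ⊤ := by rwa [hsym w hw]
  have hfu' : weight ξ (star u) ≠ ⊤ := by rwa [hsym u hu]
  rw [(hsum hfu hfw).tsum_eq, (hsum hfw' hfu').tsum_eq]
  have e1 : ∑' j, ‖(star w + star u) (ξ j)‖ ^ 2 = ∑' j, ‖(u + w) (ξ j)‖ ^ 2 := by
    rw [← tsum_sq_star hsym (add_mem hu hw), star_add, add_comm]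
  have e2 : ∑' j, ‖(star w + (-1 : ℂ) • star u) (ξ j)‖ ^ 2 =
      ∑' j, ‖(u + (-1 : ℂ) • w) (ξ j)‖ ^ 2 := by
    rw [← tsum_sq_star hsym (add_mem hu (M.smul_mem hw (-1 : ℂ)))]
    refine tsum_congr fun j => ?_
    rw [show star w + (-1 : ℂ) • star u = -star (u + (-1 : ℂ) • w) by simp [sub_eq_add_neg], neg_apply,
      norm_neg]
  have e3 : ∀ c : ℂ, ‖c‖ = 1 → ∑' j, ‖(star w + c • star u) (ξ j)‖ ^ 2 =
      ∑' j, ‖(u + c • w) (ξ j)‖ ^ 2 := by
    intro c hc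
    rw [← tsum_sq_star hsym (add_mem hu (M.smul_mem hw c))]
    refine tsum_congr fun j => ?_
    have hcc : c * (starRingEnd ℂ) c = 1 := by
      rw [Complex.mul_conj, Complex.normSq_eq_norm_sq, hc]
      norm_num
    rw [show star w + c • star u = c • star (u + c • w) by
      rw [star_add, star_smul, smul_add, smul_smul, Complex.star_def, hcc, one_smul, add_comm],
      smul_apply, norm_smul, hc, one_mul]
  rw [e1, e2, e3 Complex.I Complex.norm_I, e3 (-Complex.I) (by simp)]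

/-- A projection of `A` of finite weight gives a corner with a finite trace. -/
theorem exists_corner (hA : IsMasaIn M A) (hsym : ∀ x ∈ M, weight ξ (star x) = weight ξ x)
    (hsep : ∀ x ∈ M, (∀ j, x (ξ j) = 0) → x = 0) {p : H →L[ℂ] H} (hp : p ∈ A)
    (hpp : IsStarProjection p) (hfin : weight ξ p ≠ ⊤) : ∃ D : Corner M A, D.p = p := by
  classical
  set S : Set J := {j | p (ξ j) ≠ 0} with hS
  have hS' : S.Countable := by
    refine (summable_of_weight hfin).countable_support.mono fun j hj => ?_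
    simpa [hS] using hj
  have : Countable S := hS'.to_subtype
  obtain ⟨f, hf⟩ := exists_injective_nat S
  set ζ : ℕ → H := Function.extend f (fun j => p (ξ j)) 0 with hζ
  have hζf : ∀ j, ζ (f j) = p (ξ j) := fun j => hf.extend_apply _ _ j
  have hζ0 : ∀ n, n ∉ Set.range f → ζ n = 0 := fun n hn =>
    Function.extend_apply' _ _ _ (fun ⟨a, ha⟩ => hn ⟨a, ha⟩)
  have fixr : ∀ {y : H →L[ℂ] H}, p * y * p = y → y * p = y := fun {y} hy => by
    conv_lhs => rw [← hy]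
    rw [mul_assoc (p * y), hpp.isIdempotentElem.eq, hy]
  have fixl : ∀ {y : H →L[ℂ] H}, p * y * p = y → p * y = y := fun {y} hy => by
    conv_lhs => rw [← hy]
    rw [← mul_assoc, ← mul_assoc, hpp.isIdempotentElem.eq, hy]
  have fine : ∀ {y : H →L[ℂ] H}, p * y * p = y → weight ξ y ≠ ⊤ := fun {y} hy =>
    weight_ne_top_of (K := ‖y‖) (fun j => by
      conv_lhs => rw [← fixr hy]
      exact y.le_opNorm (p (ξ j))) hfin
  have reidx : ∀ {x : H →L[ℂ] H}, ∑' n, ⟪ζ n, x (ζ n)⟫_ℂ = ∑' j, ⟪p (ξ j), x (p (ξ j))⟫_ℂ := by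
    intro x
    rw [← hf.tsum_eq (f := fun n => ⟪ζ n, x (ζ n)⟫_ℂ) (fun n hn => by
      by_contra hnr
      exact hn (by simp [hζ0 n hnr]))]
    simp only [hζf]
    refine (tsum_subtype_eq_of_support_subset (f := fun j => ⟪p (ξ j), x (p (ξ j))⟫_ℂ) ?_)
    intro j hj
    by_contra hjS
    simp [hS] at hjS
    exact hj (by simp [hjS])
  refine ⟨⟨p, hp, hpp, hA, ζ, fun n => ?_, ?_, ?_, ?_⟩, rfl⟩
  · by_cases hn : n ∈ Set.range f
    · obtain ⟨j, rfl⟩ := hn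
      rw [hζf, proj_idem_apply hpp]
    · rw [hζ0 n hn, map_zero]
  · rw [← hf.summable_iff (f := fun n => ‖ζ n‖ ^ 2) (fun n hn => by simp [hζ0 n hn])]
    simp only [Function.comp_def, hζf]
    exact (summable_of_weight hfin).subtype _
  · intro x hx y hy hxp hyp
    rw [reidx, reidx]
    have e : ∀ {a b : H →L[ℂ] H}, p * a * p = a → p * b * p = b → ∀ j,
        ⟪p (ξ j), (a * b) (p (ξ j))⟫_ℂ = ⟪star a (ξ j), b (ξ j)⟫_ℂ := by
      intro a b ha hb j
      rw [mul_apply_eq_comp, ContinuousLinearMap.star_eq_adjoint,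
        ContinuousLinearMap.adjoint_inner_left, inner_sa hpp.isSelfAdjoint]
      change ⟪ξ j, ((p * a) * (b * p)) (ξ j)⟫_ℂ = ⟪ξ j, (a * b) (ξ j)⟫_ℂ
      rw [fixl ha, fixr hb]
    rw [tsum_congr (e hxp hyp), tsum_congr (e hyp hxp),
      tsum_inner_swap hsym (star_mem hx) hy (by rw [hsym x hx]; exact fine hxp) (fine hyp),
      star_star]
  · intro x hx hxp h0
    refine hsep x hx fun j => ?_
    rw [← fixr hxp]
    change x (p (ξ j)) = 0
    by_cases hj : j ∈ S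
    · rw [← hζf ⟨j, hj⟩]
      exact h0 _
    · simp [hS] at hj
      rw [hj, map_zero]

end Vale.Agent.P078.General
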