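import Vale.Agent.P078.Basic
import Vale.Agent.P078.General.Weight
import Vale.Agent.P078.Finite.Diagonal

/-!
The algebra of all bounded operators has a semifinite trace given by an orthonormal basis.
-/

noncomputable section

open scoped InnerProductSpace ENNReal NNReal
open Filter Vale.Agent.P078.Finite

namespace Vale.Agent.P078.General

universe u

variable {H : Type u} [NormedAddCommGroup H] [InnerProductSpace ℂ H] [CompleteSpace H]
variable {J : Type u}

theorem tsum_coord_sq (b : HilbertBasis J ℂ H) (v : H) :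
    ∑' i, ENNReal.ofReal (‖⟪b i, v⟫_ℂ‖ ^ 2) = ENNReal.ofReal (‖v‖ ^ 2) := by
  have h : HasSum (fun i => ‖⟪b i, v⟫_ℂ‖ ^ 2) (‖v‖ ^ 2) := by
    have h1 := Complex.hasSum_re (b.hasSum_inner_mul_inner v v)
    rw [show (⟪v, v⟫_ℂ).re = ‖v‖ ^ 2 from inner_self_eq_norm_sq (𝕜 := ℂ) v] at h1
    refine h1.congr_fun fun i => ?_
    rw [← inner_conj_symm v (b i), ← Complex.normSq_eq_conj_mul_self, Complex.ofReal_re,
      Complex.sq_norm]
  rw [← ENNReal.ofReal_tsum_of_nonneg (fun i => sq_nonneg _) h.summable, h.tsum_eq]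

theorem weight_star_basis (b : HilbertBasis J ℂ H) (x : H →L[ℂ] H) :
    weight (fun j => b j) (star x) = weight (fun j => b j) x := by
  simp only [weight]
  calc ∑' j, ENNReal.ofReal (‖star x (b j)‖ ^ 2)
      = ∑' j, ∑' i, ENNReal.ofReal (‖⟪b i, star x (b j)⟫_ℂ‖ ^ 2) :=
        tsum_congr fun j => (tsum_coord_sq b _).symm
    _ = ∑' j, ∑' i, ENNReal.ofReal (‖⟪b j, x (b i)⟫_ℂ‖ ^ 2) :=
        tsum_congr fun j => tsum_congr fun i => by
          rw [ContinuousLinearMap.star_eq_adjoint, ContinuousLinearMap.adjoint_inner_right,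
            ← inner_conj_symm, RCLike.norm_conj]
    _ = ∑' i, ∑' j, ENNReal.ofReal (‖⟪b j, x (b i)⟫_ℂ‖ ^ 2) := ENNReal.tsum_comm
    _ = _ := tsum_congr fun i => tsum_coord_sq b _

theorem allOps_dense (b : HilbertBasis J ℂ H) (F : Finset H) (δ : ℝ) (hδ : 0 < δ) :
    ∃ e ∈ allOps H, IsStarProjection e ∧ weight (fun j => b j) e ≠ ⊤ ∧
      ∀ v ∈ F, ‖(1 - e) v‖ < δ := by
  classical
  have hev : ∀ᶠ s : Finset J in atTop, ∀ v ∈ F, ‖(1 - ∑ k ∈ s, atom b k) v‖ < δ := by
    refine (Finset.eventually_all F).2 fun v _ => ?_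
    filter_upwards [(b.hasSum_repr v).eventually (Metric.ball_mem_nhds v hδ)] with s hs
    rw [sub_apply, one_apply_eq_self, sum_apply]
    simp only [atom_apply]
    rw [dist_eq_norm'] at hs
    simpa [b.repr_apply_apply] using hs
  obtain ⟨s, hs⟩ := hev.exists
  refine ⟨_, mem_allOps _, isStarProjection_sum_atom b s, ?_, hs⟩
  rw [weight, tsum_eq_sum (s := s) fun j hj => ?_]
  · exact ENNReal.sum_ne_top.2 fun j _ => ENNReal.ofReal_ne_top
  · simp only [sum_apply, atom_basis]
    rw [Finset.sum_ite_eq' s j fun _ => b j, if_neg hj]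
    simp

theorem hasSemifiniteTrace_allOps (H : Type u) [NormedAddCommGroup H] [InnerProductSpace ℂ H]
    [CompleteSpace H] : HasSemifiniteTrace (allOps H) := by
  obtain ⟨w, b, -⟩ := exists_hilbertBasis ℂ H
  refine ⟨w, fun j => b j, fun x _ => weight_star_basis b x, fun x _ h => ?_, allOps_dense b⟩
  exact ext_basis b fun j => by rw [h j, zero_apply]

/-- A maximal abelian algebra of operators without minimal projections has no projection of finite
weight against an orthonormal basis. -/
theorem noFiniteProj_of_diffuse (b : HilbertBasis J ℂ H) {A : StarSubalgebra ℂ (H →L[ℂ] H)}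
    (hD : Vale.Agent.P078.IsDiffuse A) : NoFiniteProj (fun j => b j) A := by
  have hge : ∀ (n : ℕ) (p : H →L[ℂ] H), p ∈ A → IsStarProjection p → p ≠ 0 →
      (n : ℝ≥0∞) ≤ weight (fun j => b j) p := by
    intro n
    induction n with
    | zero => intro p _ _ _; simp
    | succ n ih =>
      intro p hp hpp hp0
      obtain ⟨q, hq, hqp, hq0, hqp', hpq⟩ := hD p hp hpp hp0
      have hd : IsStarProjection (p - q) := hqp.sub_of_mul_eq_right hpp hpq
      have hd0 : p - q ≠ 0 := sub_ne_zero.2 (Ne.symm hqp')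
      have h1 : (1 : ℝ≥0∞) ≤ weight (fun j => b j) (p - q) := by
        obtain ⟨v, hv⟩ : ∃ v, (p - q) v ≠ 0 := by
          by_contra hc
          push Not at hc
          exact hd0 (ContinuousLinearMap.ext hc)
        set u : H := (‖(p - q) v‖⁻¹ : ℂ) • (p - q) v with hu
        have hu1 : ‖u‖ = 1 := by
          rw [hu, norm_smul, norm_inv, Complex.norm_real, norm_norm,
            inv_mul_cancel₀ (norm_ne_zero_iff.2 hv)]
        have huf : (p - q) u = u := by rw [hu, map_smul, proj_idem_apply hd]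
        calc (1 : ℝ≥0∞) = ENNReal.ofReal (‖u‖ ^ 2) := by simp [hu1]
          _ = ∑' j, ENNReal.ofReal (‖⟪b j, u⟫_ℂ‖ ^ 2) := (tsum_coord_sq b u).symm
          _ ≤ _ := by
              refine ENNReal.tsum_le_tsum fun j => ENNReal.ofReal_le_ofReal
                (pow_le_pow_left₀ (norm_nonneg _) ?_ 2)
              rw [← huf, ← inner_sa hd.isSelfAdjoint]
              exact (norm_inner_le_norm _ _).trans (by rw [hu1, mul_one])
      have h2 : weight (fun j => b j) q + weight (fun j => b j) (p - q) =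
          weight (fun j => b j) p := by
        simp only [weight]
        rw [← ENNReal.tsum_add]
        refine tsum_congr fun j => ?_
        rw [← ENNReal.ofReal_add (sq_nonneg _) (sq_nonneg _)]
        congr 1
        rw [sq_norm_proj' hqp, sq_norm_proj' hd, sq_norm_proj' hpp, ← Complex.add_re,
          ← inner_add_right]
        simp
      rw [Nat.cast_succ, ← h2]
      exact add_le_add (ih q hq hqp hq0) h1
  intro p hp hpp hf
  by_contra h0
  obtain ⟨n, hn⟩ := ENNReal.exists_nat_gt hf
  exact (hge n p hp hpp h0).not_gt hn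

end Vale.Agent.P078.General
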