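import Vale.Agent.P078.General.Weight

/-!
In a semifinite algebra a maximal abelian algebra splits into finite corners and a part approached
by projections with weakly small pinchings.
-/

noncomputable section

open scoped InnerProductSpace ENNReal NNReal
open Filter Vale.Agent.P078.Finite

namespace Vale.Agent.P078.General

universe u

variable {H : Type u} [NormedAddCommGroup H] [InnerProductSpace ℂ H] [CompleteSpace H]
variable {M : VonNeumannAlgebra H} {A : StarSubalgebra ℂ (H →L[ℂ] H)}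
variable {J : Type u} {ξ : J → H}

/-- Vectors approached by projections of `A` of finite weight. -/
def finiteVectors (hA : IsMasaIn M A) (ξ : J → H) : Submodule ℂ H where
  carrier := {v | ∀ δ : ℝ, 0 < δ → ∃ p ∈ A, IsStarProjection p ∧ weight ξ p ≠ ⊤ ∧ ‖(1 - p) v‖ < δ}
  zero_mem' := fun δ hδ => ⟨0, zero_mem A, IsStarProjection.zero _, by simp [weight_zero],
    by simpa using hδ⟩
  add_mem' := by
    intro v w hv hw δ hδ
    obtain ⟨p, hp, hpp, hpf, hpv⟩ := hv (δ / 2) (half_pos hδ)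
    obtain ⟨q, hq, hqp, hqf, hqw⟩ := hw (δ / 2) (half_pos hδ)
    obtain ⟨h1, h2, h3, h4, h5⟩ := join_spec (ξ := ξ) hA hp hpp hq hqp
    refine ⟨_, h1, h2, h5 hpf hqf, ?_⟩
    rw [map_add]
    refine (norm_add_le _ _).trans_lt ?_
    linarith [h3 v, h4 w]
  smul_mem' := by
    intro c v hv δ hδ
    obtain ⟨p, hp, hpp, hpf, hpv⟩ := hv (δ / (‖c‖ + 1)) (by positivity)
    refine ⟨p, hp, hpp, hpf, ?_⟩
    rw [map_smul, norm_smul]
    rw [lt_div_iff₀ (by positivity)] at hpv
    nlinarith [norm_nonneg ((1 - p) v)]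

theorem finiteVectors_map (hA : IsMasaIn M A) {S : H →L[ℂ] H}
    (hS : ∀ p ∈ A, S * p = p * S) {v : H} (hv : v ∈ finiteVectors hA ξ) :
    S v ∈ finiteVectors hA ξ := by
  intro δ hδ
  obtain ⟨p, hp, hpp, hpf, hpv⟩ := hv (δ / (‖S‖ + 1)) (by positivity)
  refine ⟨p, hp, hpp, hpf, ?_⟩
  have e : (1 - p) (S v) = S ((1 - p) v) := by
    change ((1 - p) * S) v = (S * (1 - p)) v
    rw [sub_mul, mul_sub, hS p hp, one_mul, mul_one]
  rw [e]
  refine (S.le_opNorm _).trans_lt ?_
  rw [lt_div_iff₀ (by positivity)] at hpv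
  nlinarith [norm_nonneg ((1 - p) v)]

theorem isClosed_finiteVectors (hA : IsMasaIn M A) :
    IsClosed (finiteVectors hA ξ : Set H) := by
  refine isClosed_of_closure_subset fun v hv δ hδ => ?_
  obtain ⟨w, hw, hd⟩ := Metric.mem_closure_iff.1 hv (δ / 2) (half_pos hδ)
  obtain ⟨p, hp, hpp, hpf, hpw⟩ := hw (δ / 2) (half_pos hδ)
  refine ⟨p, hp, hpp, hpf, ?_⟩
  have e : (1 - p) v = (1 - p) (v - w) + (1 - p) w := by rw [map_sub]; abel
  rw [e]
  refine (norm_add_le _ _).trans_lt ?_
  rw [dist_eq_norm] at hd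
  linarith [norm_proj_apply_le hpp.one_sub (v - w)]

/-- The supremum of the finite projections of `A`. -/
theorem exists_finite_part (hA : IsMasaIn M A) :
    ∃ p0 ∈ A, IsStarProjection p0 ∧
      (∀ p ∈ A, IsStarProjection p → weight ξ p ≠ ⊤ → p0 * p = p) ∧
      ∀ (F : Finset H) (δ : ℝ), 0 < δ → ∃ p ∈ A, IsStarProjection p ∧ weight ξ p ≠ ⊤ ∧
        ∀ v ∈ F, ‖(p0 - p) v‖ < δ := by
  classical
  set K := finiteVectors hA ξ
  have : CompleteSpace K := (isClosed_finiteVectors hA).completeSpace_coe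
  have hcomm : ∀ S : H →L[ℂ] H, (∀ p ∈ A, S * p = p * S) →
      (∀ p ∈ A, star S * p = p * star S) → S * K.starProjection = K.starProjection * S := by
    intro S h1 h2
    ext v
    change S (K.starProjection v) = K.starProjection (S v)
    symm
    refine Submodule.eq_starProjection_of_mem_orthogonal
      (finiteVectors_map hA h1 (K.starProjection_apply_mem v)) ?_
    rw [Submodule.mem_orthogonal']
    intro w hw
    rw [← map_sub, ← ContinuousLinearMap.adjoint_inner_right, ← ContinuousLinearMap.star_eq_adjoint]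
    exact Submodule.starProjection_inner_eq_zero v _ (finiteVectors_map hA h2 hw)
  have hM : K.starProjection ∈ M := mem_of_comm fun s hs => hcomm s
    (fun p hp => (VonNeumannAlgebra.mem_commutant_iff.1 hs p (hA.1 p hp)).symm)
    (fun p hp => (VonNeumannAlgebra.mem_commutant_iff.1 (star_mem hs) p (hA.1 p hp)).symm)
  have hA0 : K.starProjection ∈ A := (hA.2 _ hM).2 fun a ha => (hcomm a
    (fun p hp => masa_comm hA ha hp) (fun p hp => masa_comm hA (star_mem ha) hp)).symm
  have habs : ∀ p ∈ A, IsStarProjection p → weight ξ p ≠ ⊤ → K.starProjection * p = p := by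
    intro p hp hpp hpf
    ext v
    refine Submodule.starProjection_eq_self_iff.2 fun δ hδ => ⟨p, hp, hpp, hpf, ?_⟩
    change ‖p v - p (p v)‖ < δ
    rw [proj_idem_apply hpp, sub_self, norm_zero]
    exact hδ
  refine ⟨_, hA0, isStarProjection_starProjection, habs, fun F δ hδ => ?_⟩
  induction F using Finset.induction with
  | empty => exact ⟨0, zero_mem A, IsStarProjection.zero _, by simp [weight_zero], by simp⟩
  | @insert v F _ ih =>
    obtain ⟨p, hp, hpp, hpf, hpF⟩ := ih
    obtain ⟨q, hq, hqp, hqf, hqv⟩ := (K.starProjection_apply_mem v) δ hδ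
    obtain ⟨h1, h2, h3, h4, h5⟩ := join_spec (ξ := ξ) hA hp hpp hq hqp
    refine ⟨_, h1, h2, h5 hpf hqf, fun w hw => ?_⟩
    have e : ∀ r ∈ A, IsStarProjection r → weight ξ r ≠ ⊤ →
        (K.starProjection - r) w = (1 - r) (K.starProjection w) := by
      intro r hr hrp hrf
      change _ = ((1 - r) * K.starProjection) w
      rw [sub_mul, one_mul, masa_comm hA hr hA0, habs r hr hrp hrf]
    rw [e _ h1 h2 (h5 hpf hqf)]
    rcases Finset.mem_insert.1 hw with rfl | hw'
    · exact (h4 _).trans_lt hqv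
    · refine (h3 _).trans_lt ?_
      rw [← e p hp hpp hpf]
      exact hpF w hw'

/-- The weak cluster points of the pinchings of a finite projection off the finite part vanish. -/
theorem exists_small_pinch (hA : IsMasaIn M A) (hsym : ∀ x ∈ M, weight ξ (star x) = weight ξ x)
    {p0 : H →L[ℂ] H} (hp0 : p0 ∈ A)
    (hp0f : ∀ p ∈ A, IsStarProjection p → weight ξ p ≠ ⊤ → p0 * p = p) {e : H →L[ℂ] H}
    (he : e ∈ M) (hep : IsStarProjection e) (hef : weight ξ e ≠ ⊤) (he0 : e * p0 = 0)
    (F : Finset H) {η : ℝ} (hη : 0 < η) :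
    ∃ s : Cells A, ∀ v ∈ F, ∑ i, ‖e (s.c i v)‖ ^ 2 < η := by
  have : (atTop : Filter (Cells A)).NeBot := Cells.atTop_neBot hA
  obtain ⟨a, ha, has, -, hlim⟩ :=
    exists_cluster hA (Ultrafilter.of atTop) (Ultrafilter.of_le _) he hep.isSelfAdjoint
  set U := Ultrafilter.of (atTop : Filter (Cells A))
  have hreal : ∀ v, Tendsto (fun s : Cells A => ∑ i, ‖e (s.c i v)‖ ^ 2) U
      (nhds (⟪v, a v⟫_ℂ).re) := fun v =>
    ((Complex.continuous_re.tendsto _).comp (hlim v v)).congr fun s => by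
      simp [Cells.inner_pinch_proj s hep, ← Complex.ofReal_pow]
  have hsq : ∀ v, ‖a v‖ ^ 2 ≤ (⟪v, a v⟫_ℂ).re := by
    intro v
    have hS : ∀ s : Cells A, ‖s.pinch e v‖ ^ 2 ≤ ∑ i, ‖e (s.c i v)‖ ^ 2 := fun s => by
      rw [Cells.pinch_apply, s.sq_norm_sum fun i => e (s.c i v)]
      exact Finset.sum_le_sum fun i _ =>
        pow_le_pow_left₀ (norm_nonneg _) (norm_proj_apply_le (s.proj i) _) 2
    have h0 : 0 ≤ (⟪v, a v⟫_ℂ).re := ge_of_tendsto (hreal v)
      (Eventually.of_forall fun s => Finset.sum_nonneg fun i _ => sq_nonneg _)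
    have h1 : ‖⟪a v, a v⟫_ℂ‖ ≤ ‖a v‖ * Real.sqrt (⟪v, a v⟫_ℂ).re := by
      refine le_of_tendsto_of_tendsto ((hlim (a v) v).norm)
        (((hreal v).sqrt).const_mul ‖a v‖) (Eventually.of_forall fun s => ?_)
      exact (norm_inner_le_norm _ _).trans (mul_le_mul_of_nonneg_left
        (Real.le_sqrt_of_sq_le (hS s)) (norm_nonneg _))
    rw [inner_self_eq_norm_sq_to_K, norm_pow] at h1
    simp only [RCLike.norm_ofReal, abs_norm] at h1
    rcases (norm_nonneg (a v)).eq_or_lt with h2 | h2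
    · rw [← h2]
      simpa using h0
    · have h3 : ‖a v‖ ≤ Real.sqrt (⟪v, a v⟫_ℂ).re := le_of_mul_le_mul_left (by linarith) h2
      calc ‖a v‖ ^ 2 ≤ Real.sqrt (⟪v, a v⟫_ℂ).re ^ 2 := pow_le_pow_left₀ (norm_nonneg _) h3 2
        _ = _ := Real.sq_sqrt h0
  have hbd : ∀ (s : Cells A) (G : Finset J),
      ENNReal.ofReal (∑ j ∈ G, ∑ i, ‖e (s.c i (ξ j))‖ ^ 2) ≤ weight ξ e := by
    intro s G
    rw [ENNReal.ofReal_sum_of_nonneg fun j _ => Finset.sum_nonneg fun i _ => sq_nonneg _]
    calc ∑ j ∈ G, ENNReal.ofReal (∑ i, ‖e (s.c i (ξ j))‖ ^ 2)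
        = ∑ i, ∑ j ∈ G, ENNReal.ofReal (‖(e * s.c i) (ξ j)‖ ^ 2) := by
          rw [Finset.sum_comm]
          exact Finset.sum_congr rfl fun j _ =>
            ENNReal.ofReal_sum_of_nonneg fun i _ => sq_nonneg _
      _ ≤ ∑ i, weight ξ (e * s.c i) := Finset.sum_le_sum fun i _ => ENNReal.sum_le_tsum G
      _ = ∑ i, weight ξ (s.c i * e) := Finset.sum_congr rfl fun i _ => by
          rw [← hsym (e * s.c i) (mul_mem he (Cells.c_mem_M hA s i)), star_mul,
            hep.isSelfAdjoint.star_eq, (s.proj i).isSelfAdjoint.star_eq]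
      _ = weight ξ e := by
          simp only [weight]
          rw [← Summable.tsum_finsetSum fun i _ => ENNReal.summable]
          refine tsum_congr fun j => ?_
          rw [← ENNReal.ofReal_sum_of_nonneg fun i _ => sq_nonneg _]
          exact congrArg ENNReal.ofReal (s.sum_sq (e (ξ j)))
  have hw : weight ξ a ≠ ⊤ := by
    refine ne_top_of_le_ne_top hef ?_
    rw [weight, ENNReal.tsum_eq_iSup_sum]
    refine iSup_le fun G => ?_
    rw [← ENNReal.ofReal_sum_of_nonneg fun j _ => sq_nonneg _]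
    refine (ENNReal.ofReal_le_ofReal (Finset.sum_le_sum fun j _ => hsq (ξ j))).trans ?_
    exact le_of_tendsto (ENNReal.tendsto_ofReal (tendsto_finsetSum G fun j _ => hreal (ξ j)))
      (Eventually.of_forall fun s => hbd s G)
  have hoff : ∀ v, a (p0 v) = 0 := by
    intro v
    refine ext_inner_left ℂ fun u => ?_
    rw [inner_zero_right]
    refine tendsto_nhds_unique (hlim u (p0 v)) ((tendsto_const_nhds (x := (0 : ℂ))).congr fun s => ?_)
    rw [Cells.inner_pinch]
    refine (Finset.sum_eq_zero fun i _ => ?_).symm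
    have : e (s.c i (p0 v)) = (e * (p0 * s.c i)) v := by
      rw [masa_comm hA hp0 (s.mem i)]
      rfl
    rw [this, ← mul_assoc, he0, zero_mul, zero_apply, inner_zero_right]
  have ha0 : a = 0 := by
    refine norm_le_zero_iff.1 (le_of_forall_pos_le_add fun θ hθ => ?_)
    rw [zero_add]
    obtain ⟨q, hqM, hqp, hqc, -, hq1, hq2, -⟩ := exists_cut (hA.1 a ha) has hθ
    have hqA : q ∈ A := (hA.2 q hqM).2 fun c hc =>
      (hqc c (masa_comm hA hc ha) (masa_comm hA (star_mem hc) ha)).symm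
    have hfin : weight ξ (1 - q) ≠ ⊤ := weight_ne_top_of (K := θ⁻¹) (fun j => by
      rw [inv_mul_eq_div, le_div_iff₀ hθ, mul_comm]
      exact hq2 (ξ j)) hw
    have h1 : a * (1 - q) = 0 := by
      ext v
      rw [zero_apply, mul_apply_eq_comp,
        show (1 - q) v = p0 ((1 - q) v) from (congrArg (fun T : H →L[ℂ] H => T v)
          (hp0f _ (sub_mem (one_mem A) hqA) hqp.one_sub hfin)).symm]
      exact hoff _
    rw [mul_sub, mul_one, sub_eq_zero] at h1
    rw [h1]
    exact hq1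
  have hev : ∀ᶠ s in (U : Filter (Cells A)), ∀ v ∈ F, ∑ i, ‖e (s.c i v)‖ ^ 2 < η :=
    F.eventually_all.2 fun v _ => (hreal v).eventually (eventually_lt_nhds (by simpa [ha0] using hη))
  exact hev.exists

/-- Semifinite algebras split into finite corners and a singular part. -/
theorem semifinite_split (hA : IsMasaIn M A) (hsym : ∀ x ∈ M, weight ξ (star x) = weight ξ x)
    (hsep : ∀ x ∈ M, (∀ j, x (ξ j) = 0) → x = 0)
    (hdense : ∀ (F : Finset H) (δ : ℝ), 0 < δ →
      ∃ e ∈ M, IsStarProjection e ∧ weight ξ e ≠ ⊤ ∧ ∀ v ∈ F, ‖(1 - e) v‖ < δ) :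
    ∃ z ∈ A, IsStarProjection z ∧ SingularApprox M A z ∧ (NoFiniteProj ξ A → z = 1) ∧
      ∀ (F : Finset H) (δ : ℝ), 0 < δ →
        ∃ D : Corner M A, D.p * z = 0 ∧ ∀ v ∈ F, ‖(1 - D.p - z) v‖ < δ := by
  classical
  obtain ⟨p0, hp0, hp0p, hp0f, hp0d⟩ := exists_finite_part (ξ := ξ) hA
  set z : H →L[ℂ] H := 1 - p0 with hz
  have hzA : z ∈ A := sub_mem (one_mem A) hp0
  have hzp : IsStarProjection z := hp0p.one_sub
  have hzM : z ∈ M := hA.1 z hzA
  refine ⟨z, hzA, hzp, fun F δ η hδ hη => ?_, fun hN => ?_, fun F δ hδ => ?_⟩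
  · obtain ⟨f, hf, hfp, hff, hfF⟩ := hdense (F.image z) (δ / 4) (by positivity)
    set T := z * f * z with hT
    have hTM : T ∈ M := mul_mem (mul_mem hzM hf) hzM
    have hTs : IsSelfAdjoint T := by
      rw [IsSelfAdjoint, hT, star_mul, star_mul, hzp.isSelfAdjoint.star_eq,
        hfp.isSelfAdjoint.star_eq, mul_assoc]
    obtain ⟨q, hqM, hqp, hqc, hqk, hq1, hq2, -⟩ :=
      exists_cut hTM hTs (show (0 : ℝ) < 1 / 2 by norm_num)
    set e : H →L[ℂ] H := 1 - q with he
    have heM : e ∈ M := sub_mem (one_mem _) hqM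
    have hep : IsStarProjection e := hqp.one_sub
    have hTf : weight ξ T ≠ ⊤ := by
      refine weight_ne_top_of (K := 1) (y := f * z) (fun j => ?_)
        (ne_top_of_le_ne_top hff (weight_mul_proj_le hsym hf hzM hzp))
      rw [one_mul]
      exact norm_proj_apply_le hzp _
    have hef : weight ξ e ≠ ⊤ := weight_ne_top_of (K := 2) (fun j => by
      have := hq2 (ξ j)
      linarith) hTf
    have he0 : e * p0 = 0 := by
      ext v
      rw [zero_apply, mul_apply_eq_comp, he, sub_apply, one_apply_eq_self, sub_eq_zero]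
      refine (hqk _ ?_).symm
      change (z * f * z * p0) v = 0
      rw [mul_assoc (z * f), hp0p.one_sub_mul_self, mul_zero, zero_apply]
    have hez : e * z = e := by rw [hz, mul_sub, mul_one, he0, sub_zero]
    have hze : z * e = e := by
      have := congrArg star hez
      rwa [star_mul, hzp.isSelfAdjoint.star_eq, hep.isSelfAdjoint.star_eq] at this
    refine ⟨e, heM, hep, hze, fun v hv => ?_, exists_small_pinch hA hsym hp0 hp0f heM hep hef he0 F hη⟩
    set w := z v with hw
    have hzw : z w = w := proj_idem_apply hzp v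
    have hzev : (z - e) v = q w := by
      have : e v = e w := congrArg (fun S : H →L[ℂ] H => S v) hez.symm
      rw [sub_apply, this, ← hw, he, sub_apply, one_apply_eq_self, sub_sub_cancel]
    rw [hzev]
    have h1 : ‖w - T w‖ ≤ δ / 4 := by
      have e1 : w - T w = z ((1 - f) w) := by
        change w - z (f (z w)) = z (w - f w)
        rw [map_sub, hzw]
      rw [e1]
      exact (norm_proj_apply_le hzp _).trans (hfF w (Finset.mem_image_of_mem z hv)).le
    have h2 : q (T w) = (T * q) (q w) := by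
      change (q * T) w = ((T * q) * q) w
      rw [mul_assoc T, hqp.isIdempotentElem.eq, hqc T rfl (by rw [hTs.star_eq])]
    have h3 : ‖q (T w)‖ ≤ 1 / 2 * ‖q w‖ := by
      rw [h2]
      exact ((T * q).le_opNorm _).trans (mul_le_mul_of_nonneg_right hq1 (norm_nonneg _))
    have h4 : ‖q w‖ ≤ ‖w - T w‖ + ‖q (T w)‖ := by
      calc ‖q w‖ = ‖q (w - T w) + q (T w)‖ := by rw [map_sub, sub_add_cancel]
        _ ≤ ‖q (w - T w)‖ + ‖q (T w)‖ := norm_add_le _ _
        _ ≤ _ := add_le_add (norm_proj_apply_le hqp _) le_rfl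
    linarith
  · have h0 : p0 = 0 := by
      ext v
      rw [zero_apply, ← norm_le_zero_iff]
      refine le_of_forall_pos_le_add fun θ hθ => ?_
      obtain ⟨p, hp, hpp, hpf, hpv⟩ := hp0d {v} θ hθ
      have h := hpv v (Finset.mem_singleton_self v)
      rw [hN p hp hpp hpf, sub_zero] at h
      linarith
    rw [hz, h0, sub_zero]
  · obtain ⟨p, hp, hpp, hpf, hpF⟩ := hp0d F δ hδ
    obtain ⟨D, hD⟩ := exists_corner hA hsym hsep hp hpp hpf
    refine ⟨D, ?_, fun v hv => ?_⟩
    · rw [hD, hz, mul_sub, mul_one, masa_comm hA hp hp0, hp0f p hp hpp hpf, sub_self]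
    · rw [hD, hz, show (1 : H →L[ℂ] H) - p - (1 - p0) = p0 - p by abel]
      exact hpF v hv

end Vale.Agent.P078.General
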