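import Vale.Agent.P078.Colour

/-!
Averages over independent choices for vectors in an inner product space.
-/

noncomputable section

open scoped InnerProductSpace
open Vale.Agent.P078

namespace Vale.Agent.P078.General

universe u

variable {E : Type u} [NormedAddCommGroup E] [InnerProductSpace ℂ E]

theorem sum_sq_shift_vec {n : ℕ} (T : E) (X : Fin n → E) (h : ∑ j, X j = 0) :
    ∑ j, ‖T + X j‖ ^ 2 = (n : ℝ) * ‖T‖ ^ 2 + ∑ j, ‖X j‖ ^ 2 := by
  simp only [norm_add_sq (𝕜 := ℂ), Finset.sum_add_distrib, ← Finset.mul_sum, ← map_sum,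
    ← inner_sum, h, inner_zero_right, map_zero, mul_zero, add_zero, Finset.sum_const,
    Finset.card_univ, Fintype.card_fin, nsmul_eq_mul]

/-- Independent centred choices are orthogonal on average. -/
theorem sum_choice_sq {k : ℕ} : ∀ {m : ℕ} (z : Fin m → Fin k → E), (∀ l, ∑ j, z l j = 0) →
    (k : ℝ) * ∑ f : Fin m → Fin k, ‖∑ l, z l (f l)‖ ^ 2 =
      (k : ℝ) ^ m * ∑ l, ∑ j, ‖z l j‖ ^ 2
  | 0, z, _ => by simp
  | m + 1, z, h => by
    rw [← (Fin.consEquiv fun _ => Fin k).sum_comp, Fintype.sum_prod_type, Finset.sum_comm]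
    simp only [Fin.consEquiv_apply, Fin.sum_univ_succ, Fin.cons_zero, Fin.cons_succ]
    have ih := sum_choice_sq (fun l => z l.succ) fun l => h l.succ
    have key : ∀ f : Fin m → Fin k, ∑ j, ‖z 0 j + ∑ l, z l.succ (f l)‖ ^ 2
        = (k : ℝ) * ‖∑ l, z l.succ (f l)‖ ^ 2 + ∑ j, ‖z 0 j‖ ^ 2 := by
      intro f
      simp only [add_comm (z 0 _)]
      exact sum_sq_shift_vec _ _ (h 0)
    simp only [key, Finset.sum_add_distrib, ← Finset.mul_sum, Finset.sum_const, Finset.card_univ,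
      Fintype.card_fun, Fintype.card_fin, nsmul_eq_mul, Nat.cast_pow]
    rw [mul_add, ih, pow_succ]
    ring

/-- A choice as good as the average, for finitely many systems at once. -/
theorem exists_choice {k m : ℕ} (hk : 0 < k) {ι : Type*} [Fintype ι]
    (z : ι → Fin m → Fin k → E) (h : ∀ i l, ∑ j, z i l j = 0) :
    ∃ f : Fin m → Fin k,
      (k : ℝ) * ∑ i, ‖∑ l, z i l (f l)‖ ^ 2 ≤ ∑ i, ∑ l, ∑ j, ‖z i l j‖ ^ 2 := by
  have : Nonempty (Fin k) := ⟨⟨0, hk⟩⟩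
  have hsum : ∑ f : Fin m → Fin k, (k : ℝ) * ∑ i, ‖∑ l, z i l (f l)‖ ^ 2
      = ∑ _f : Fin m → Fin k, ∑ i, ∑ l, ∑ j, ‖z i l j‖ ^ 2 := by
    rw [← Finset.mul_sum, Finset.sum_comm, Finset.mul_sum,
      Finset.sum_congr rfl fun i _ => sum_choice_sq (z i) (h i), ← Finset.mul_sum]
    simp
  obtain ⟨f, -, hf⟩ := Finset.exists_le_of_sum_le Finset.univ_nonempty hsum.le
  exact ⟨f, hf⟩

theorem sum_cen_smul {r : ℕ} (hr : 0 < r) (c : Fin r) (w : E) :
    ∑ d, cen r c d • w = 0 := by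
  rw [← Finset.sum_smul, sum_cen hr, zero_smul]

/-- The centred same-colour sum off the diagonal. -/
def offVec {r m : ℕ} (G : Fin m → Fin m → E) (f : Fin m → Fin r) : E :=
  ∑ k, ∑ l, if k = l then 0 else cen r (f k) (f l) • G k l

theorem offVec_bound {r : ℕ} (hr : 0 < r) : ∀ {m : ℕ} (G : Fin m → Fin m → E),
    ∑ f : Fin m → Fin r, ‖offVec G f‖ ^ 2 ≤ 2 * (r : ℝ) ^ m * ∑ k, ∑ l, ‖G k l‖ ^ 2
  | 0, G => by simp [offVec]
  | m + 1, G => by
    rw [← (Fin.consEquiv fun _ => Fin r).sum_comp, Fintype.sum_prod_type, Finset.sum_comm]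
    set w : Fin m → E := fun l => G 0 l.succ + G l.succ 0 with hw
    set T : (Fin m → Fin r) → E := fun f => offVec (fun k l => G k.succ l.succ) f with hT
    have e : ∀ (c : Fin r) (f : Fin m → Fin r),
        offVec G (Fin.consEquiv (fun _ => Fin r) (c, f)) = T f + ∑ l, cen r c (f l) • w l := by
      intro c f
      have hsym : ∀ d, cen r d c = cen r c d := fun d => by simp only [cen, eq_comm]
      simp only [offVec, hT, Fin.consEquiv_apply, Fin.sum_univ_succ, Fin.cons_zero, Fin.cons_succ,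
        (Fin.succ_ne_zero _).symm, Fin.succ_ne_zero, Fin.succ_inj, if_true, if_false, hw, smul_add,
        Finset.sum_add_distrib, hsym]
      abel
    simp only [e]
    have key : ∀ f : Fin m → Fin r, ∑ c, ‖T f + ∑ l, cen r c (f l) • w l‖ ^ 2
        = (r : ℝ) * ‖T f‖ ^ 2 + ∑ c, ‖∑ l, cen r c (f l) • w l‖ ^ 2 := by
      intro f
      refine sum_sq_shift_vec _ _ ?_
      rw [Finset.sum_comm]
      simp [← Finset.sum_smul, sum_cen' hr]
    simp only [key, Finset.sum_add_distrib, ← Finset.mul_sum]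
    have hlin : ∑ f : Fin m → Fin r, ∑ c, ‖∑ l, cen r c (f l) • w l‖ ^ 2
        ≤ (r : ℝ) ^ m * ∑ l, ‖w l‖ ^ 2 := by
      refine le_of_mul_le_mul_left ?_ (Nat.cast_pos.2 hr : (0 : ℝ) < r)
      rw [Finset.sum_comm, Finset.mul_sum, Finset.sum_congr rfl fun c _ =>
        sum_choice_sq (fun l d => cen r c d • w l) fun l => sum_cen_smul hr c (w l),
        ← Finset.mul_sum, Finset.sum_comm]
      rw [← mul_left_comm ((r : ℝ) ^ m)]
      refine mul_le_mul_of_nonneg_left ?_ (by positivity)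
      rw [Finset.mul_sum]
      refine Finset.sum_le_sum fun l _ => ?_
      simp only [norm_smul, mul_pow, Real.norm_eq_abs, sq_abs, ← Finset.sum_mul]
      refine mul_le_mul_of_nonneg_right ?_ (sq_nonneg _)
      refine (Finset.sum_le_sum fun c _ => sum_cen_sq hr c).trans ?_
      simp
    have h1 := mul_le_mul_of_nonneg_left (offVec_bound hr fun k l => G k.succ l.succ)
      (Nat.cast_nonneg (α := ℝ) r)
    have h3 : ∑ l, ‖w l‖ ^ 2
        ≤ 2 * ∑ l : Fin m, ‖G 0 l.succ‖ ^ 2 + 2 * ∑ l : Fin m, ‖G l.succ 0‖ ^ 2 := by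
      simp only [Finset.mul_sum, ← Finset.sum_add_distrib]
      refine Finset.sum_le_sum fun l _ => ?_
      refine (pow_le_pow_left₀ (norm_nonneg _) (norm_add_le _ _) 2).trans ?_
      nlinarith [sq_nonneg (‖G 0 l.succ‖ - ‖G l.succ 0‖)]
    have h4 : ∑ l, ‖w l‖ ^ 2 + 2 * ∑ k : Fin m, ∑ l : Fin m, ‖G k.succ l.succ‖ ^ 2
        ≤ 2 * ∑ k, ∑ l, ‖G k l‖ ^ 2 := by
      simp only [Fin.sum_univ_succ, Finset.sum_add_distrib]
      linarith [sq_nonneg ‖G 0 0‖]
    have hr1 : (1 : ℝ) ≤ r := by exact_mod_cast hr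
    have hpow : (r : ℝ) ^ m ≤ (r : ℝ) ^ (m + 1) := pow_le_pow_right₀ hr1 (Nat.le_succ m)
    have hw0 : 0 ≤ ∑ l, ‖w l‖ ^ 2 := Finset.sum_nonneg fun l _ => sq_nonneg _
    have h5 := mul_le_mul_of_nonneg_left h4 (pow_nonneg (Nat.cast_nonneg (α := ℝ) r) (m + 1))
    rw [pow_succ (r : ℝ) m] at h5 hpow ⊢
    nlinarith [mul_le_mul_of_nonneg_right hpow hw0]

/-- A colouring good for finitely many arrays at once. -/
theorem exists_colour_vec {r m : ℕ} (hr : 0 < r) {ι : Type*} [Fintype ι]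
    (G : ι → Fin m → Fin m → E) :
    ∃ f : Fin m → Fin r,
      ∑ i, ‖offVec (G i) f‖ ^ 2 ≤ 2 * ∑ i, ∑ k, ∑ l, ‖G i k l‖ ^ 2 := by
  have : Nonempty (Fin r) := ⟨⟨0, hr⟩⟩
  have h : ∑ f : Fin m → Fin r, ∑ i, ‖offVec (G i) f‖ ^ 2
      ≤ ∑ _f : Fin m → Fin r, 2 * ∑ i, ∑ k, ∑ l, ‖G i k l‖ ^ 2 := by
    rw [Finset.sum_comm]
    refine (Finset.sum_le_sum fun i _ => offVec_bound hr (G i)).trans (le_of_eq ?_)
    simp [Finset.mul_sum]
    ring_nf
  obtain ⟨f, -, hf⟩ := Finset.exists_le_of_sum_le Finset.univ_nonempty h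
  exact ⟨f, hf⟩

end Vale.Agent.P078.General
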