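import Vale.Agent.P078.General.Cluster
import Vale.Agent.P078.General.Average

/-!
So-paving of singular corners with about `2 / ε` pieces.
-/

noncomputable section

open scoped InnerProductSpace ENNReal NNReal
open Filter Vale.Agent.P078 Vale.Agent.P078.Finite

namespace Vale.Agent.P078.General

universe u

variable {H : Type u} [NormedAddCommGroup H] [InnerProductSpace ℂ H] [CompleteSpace H]
variable {M : VonNeumannAlgebra H} {A : StarSubalgebra ℂ (H →L[ℂ] H)}

/-- `e` is small on every cell of `s`. -/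
def SmallOn (e : H →L[ℂ] H) (s : Cells A) (c : ℝ) : Prop :=
  ∀ i w, ‖e (s.c i w)‖ ^ 2 ≤ c * ‖s.c i w‖ ^ 2

theorem SmallOn.mono {e : H →L[ℂ] H} {s t : Cells A} {c : ℝ} (h : SmallOn e s c) (hst : s ≤ t) :
    SmallOn e t c := by
  intro j w
  obtain ⟨i, hi⟩ := hst j
  rw [← hi]
  exact h i (t.c j w)

/-- Shrinking a singular projection until it is small on all cells of a partition. -/
theorem exists_smallOn (hA : IsMasaIn M A) {z : H →L[ℂ] H} (hz : z ∈ A)
    (hzp : IsStarProjection z) (h : SingularApprox M A z) (F : Finset H) {δ c : ℝ} (hδ : 0 < δ)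
    (hc : 0 < c) :
    ∃ e ∈ M, IsStarProjection e ∧ z * e = e ∧ (∀ v ∈ F, ‖(z - e) v‖ < δ) ∧
      ∃ s : Cells A, SmallOn e s c := by
  classical
  set η := c ^ 2 with hη
  have hη0 : 0 < η := pow_pos hc 2
  set ζ := (η * δ / 4) ^ 2 with hζ
  have hζ0 : 0 < ζ := by positivity
  obtain ⟨e, heM, hep, hze, hev, s, hs⟩ :=
    h (F ∪ F.image z) (min (δ / 2) (Real.sqrt (ζ / 4))) (ζ / 4)
      (lt_min (half_pos hδ) (Real.sqrt_pos.2 (by positivity))) (by positivity)
  have hez : e * z = e := by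
    have h1 := congrArg star hze
    rwa [star_mul, hep.isSelfAdjoint.star_eq, hzp.isSelfAdjoint.star_eq] at h1
  set B : Fin s.n → H →L[ℂ] H := fun i => e * s.c i * e with hB
  have hBs : ∀ i, IsSelfAdjoint (B i) := fun i =>
    isSelfAdjoint_ryr hep.isSelfAdjoint (s.proj i).isSelfAdjoint
  set K : H →L[ℂ] H := ∑ i, B i * B i with hK
  have hBM : ∀ i, B i ∈ M := fun i => mul_mem (mul_mem heM (Cells.c_mem_M hA s i)) heM
  have hKs : IsSelfAdjoint K := by
    rw [IsSelfAdjoint, hK, star_sum]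
    exact Finset.sum_congr rfl fun i _ => by rw [star_mul, (hBs i).star_eq]
  have hKM : K ∈ M := sum_mem fun i _ => mul_mem (hBM i) (hBM i)
  have hKv : ∀ u w, ⟪u, K w⟫_ℂ = ∑ i, ⟪B i u, B i w⟫_ℂ := fun u w => by
    rw [hK, sum_apply, inner_sum]
    exact Finset.sum_congr rfl fun i _ => (inner_sa (hBs i) _ _).symm
  have hBnorm : ∀ w, ∑ i, ‖B i w‖ ^ 2 ≤ ‖w‖ ^ 2 := by
    intro w
    refine le_trans (Finset.sum_le_sum fun i _ => pow_le_pow_left₀ (norm_nonneg _)
      (norm_proj_apply_le hep (s.c i (e w))) 2) ?_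
    rw [s.sum_sq]
    exact pow_le_pow_left₀ (norm_nonneg _) (norm_proj_apply_le hep _) 2
  have hKsq : ∀ w, ‖K w‖ ^ 2 ≤ ∑ i, ‖B i w‖ ^ 2 := by
    intro w
    have h1 : ‖K w‖ ^ 2 ≤ ∑ i, ‖B i (K w)‖ * ‖B i w‖ := by
      have h2 : ‖K w‖ ^ 2 = (⟪K w, K w⟫_ℂ).re := (inner_self_eq_norm_sq (𝕜 := ℂ) (K w)).symm
      rw [h2, hKv, Complex.re_sum]
      exact Finset.sum_le_sum fun i _ =>
        (Complex.re_le_norm _).trans (norm_inner_le_norm _ _)
    have h3 := Finset.sum_mul_sq_le_sq_mul_sq Finset.univ (fun i => ‖B i (K w)‖) fun i => ‖B i w‖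
    have h4 : ‖K w‖ ^ 2 * ‖K w‖ ^ 2 ≤ ‖K w‖ ^ 2 * ∑ i, ‖B i w‖ ^ 2 :=
      calc ‖K w‖ ^ 2 * ‖K w‖ ^ 2
          ≤ (∑ i, ‖B i (K w)‖ * ‖B i w‖) * ∑ i, ‖B i (K w)‖ * ‖B i w‖ :=
            mul_le_mul h1 h1 (sq_nonneg _)
              (Finset.sum_nonneg fun i _ => mul_nonneg (norm_nonneg _) (norm_nonneg _))
        _ ≤ (∑ i, ‖B i (K w)‖ ^ 2) * ∑ i, ‖B i w‖ ^ 2 := by rwa [← sq]
        _ ≤ _ := mul_le_mul_of_nonneg_right (hBnorm _) (Finset.sum_nonneg fun i _ => sq_nonneg _)
    rcases (sq_nonneg ‖K w‖).eq_or_lt with h0 | h0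
    · rw [← h0]
      exact Finset.sum_nonneg fun i _ => sq_nonneg _
    · exact le_of_mul_le_mul_left h4 h0
  obtain ⟨q, hqM, hqp, hqc, -, hq1, hq2, -⟩ := exists_cut hKM hKs hη0
  have heK : e * K = K * e := by
    have e1 : e * K = K := by
      simp only [hK, hB, Finset.mul_sum, ← mul_assoc, hep.isIdempotentElem.eq]
    have e2 : K * e = K := by
      simp only [hK, hB, Finset.sum_mul, mul_assoc, hep.isIdempotentElem.eq]
    rw [e1, e2]
  have heq : e * q = q * e := hqc e heK (by rw [hep.isSelfAdjoint.star_eq]; exact heK)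
  refine ⟨e * q, mul_mem heM hqM, hep.mul hqp heq, by rw [← mul_assoc, hze], fun v hv => ?_,
    s, fun i w => ?_⟩
  · have hzv : z (z v) = z v := proj_idem_apply hzp v
    have hd := (hev _ (Finset.mem_union_left _ hv)).trans_le (min_le_right _ _)
    have h1 : ∑ i, ‖B i v‖ ^ 2 ≤ ζ := by
      have hi : ∀ i, B i v = e (s.c i (z v)) - e (s.c i ((z - e) v)) := fun i => by
        change e (s.c i (e v)) = _
        rw [← map_sub, ← map_sub, sub_apply, sub_sub_cancel]
      calc ∑ i, ‖B i v‖ ^ 2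
          ≤ ∑ i, (2 * ‖e (s.c i (z v))‖ ^ 2 + 2 * ‖s.c i ((z - e) v)‖ ^ 2) := by
            refine Finset.sum_le_sum fun i _ => ?_
            rw [hi]
            refine (pow_le_pow_left₀ (norm_nonneg _) (norm_sub_le _ _) 2).trans ?_
            nlinarith [sq_nonneg (‖e (s.c i (z v))‖ - ‖e (s.c i ((z - e) v))‖),
              pow_le_pow_left₀ (norm_nonneg _)
                (norm_proj_apply_le hep (s.c i ((z - e) v))) 2]
        _ ≤ 2 * (ζ / 4) + 2 * (ζ / 4) := by
            rw [Finset.sum_add_distrib, ← Finset.mul_sum, ← Finset.mul_sum, s.sum_sq]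
            gcongr
            · exact (hs _ (Finset.mem_union_right _ (Finset.mem_image_of_mem z hv))).le
            · exact ((sq_lt_sq₀ (norm_nonneg _) (Real.sqrt_nonneg _)).2 hd).le.trans_eq
                (Real.sq_sqrt (by positivity))
        _ = ζ := by ring
    have h2 : ‖(1 - q) (e v)‖ ≤ δ / 4 := by
      refine le_of_mul_le_mul_left ((hq2 (e v)).trans ?_) hη0
      have h3 : K (e v) = K v := by
        change (K * e) v = K v
        simp only [hK, hB, Finset.sum_mul, mul_assoc, hep.isIdempotentElem.eq]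
      rw [h3]
      refine (pow_le_pow_iff_left₀ (norm_nonneg _) (by positivity) two_ne_zero).1 ?_
      refine (hKsq v).trans (h1.trans_eq ?_)
      rw [hζ]
      ring
    have e3 : (z - e * q) v = (z - e) v + (1 - q) (e v) := by
      rw [heq]
      change z v - q (e v) = z v - e v + (e v - q (e v))
      abel
    rw [e3]
    have := (hev _ (Finset.mem_union_left _ hv)).trans_le (min_le_left _ _)
    linarith [norm_add_le ((z - e) v) ((1 - q) (e v))]
  · set E := e * q
    have hEp : IsStarProjection E := hep.mul hqp heq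
    have hb := s.proj i
    have h1 : ‖E * s.c i * E‖ ≤ c := by
      refine ContinuousLinearMap.opNorm_le_bound _ hc.le fun u => ?_
      have e4 : (E * s.c i * E) u = E (B i (q u)) := by
        change (E * s.c i * (e * q)) u = (E * B i * q) u
        congr 1
        simp only [hB, ← mul_assoc]
        rw [show E * e = E by simp only [E]; rw [mul_assoc, ← heq, ← mul_assoc,
          hep.isIdempotentElem.eq]]
      rw [e4]
      refine (norm_proj_apply_le hEp _).trans ?_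
      refine (pow_le_pow_iff_left₀ (norm_nonneg _) (by positivity) two_ne_zero).1 ?_
      refine (Finset.single_le_sum (fun j _ => sq_nonneg ‖B j (q u)‖) (Finset.mem_univ i)).trans ?_
      have h5 : ∑ j, ‖B j (q u)‖ ^ 2 = (⟪q u, K (q u)⟫_ℂ).re := by
        rw [hKv, Complex.re_sum]
        exact Finset.sum_congr rfl fun j _ => (inner_self_eq_norm_sq (𝕜 := ℂ) _).symm
      rw [h5, mul_pow, ← hη]
      refine (Complex.re_le_norm _).trans ((norm_inner_le_norm _ _).trans ?_)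
      calc ‖q u‖ * ‖K (q u)‖ ≤ ‖u‖ * (η * ‖u‖) :=
            mul_le_mul (norm_proj_apply_le hqp u) (((K * q).le_opNorm u).trans
              (mul_le_mul_of_nonneg_right hq1 (norm_nonneg _))) (norm_nonneg _) (norm_nonneg _)
        _ = η * ‖u‖ ^ 2 := by ring
    set y := s.c i w
    have hy : s.c i y = y := proj_idem_apply hb w
    calc ‖E y‖ ^ 2 = ‖(E * s.c i) y‖ ^ 2 := by
          change ‖E y‖ ^ 2 = ‖E (s.c i y)‖ ^ 2
          rw [hy]
      _ ≤ (‖E * s.c i‖ * ‖y‖) ^ 2 :=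
          pow_le_pow_left₀ (norm_nonneg _) ((E * s.c i).le_opNorm y) 2
      _ ≤ c * ‖y‖ ^ 2 := by
          rw [mul_pow]
          refine mul_le_mul_of_nonneg_right ?_ (sq_nonneg _)
          have h6 : ‖(E * s.c i) * star (E * s.c i)‖ = ‖E * s.c i‖ * ‖E * s.c i‖ :=
            CStarRing.norm_self_mul_star
          rw [star_mul, hEp.isSelfAdjoint.star_eq, hb.isSelfAdjoint.star_eq, ← mul_assoc,
            mul_assoc E (s.c i), hb.isIdempotentElem.eq] at h6
          rw [sq, ← h6]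
          exact h1

/-- A cell of `s` cut by a cell of the partition chosen inside it. -/
def selCell (s : Cells A) (w : Fin s.n → Cells A) (p : (i : Fin s.n) × Fin (w i).n) :
    H →L[ℂ] H :=
  s.c p.1 * (w p.1).c p.2

/-- Choosing a partition inside each cell of `s`. -/
def select (hA : IsMasaIn M A) (s : Cells A) (w : Fin s.n → Cells A) : Cells A where
  n := ∑ i, (w i).n
  c := fun m => selCell s w (finSigmaFinEquiv.symm m)
  mem := fun m => mul_mem (s.mem _) ((w _).mem _)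
  proj := fun m => (s.proj _).mul ((w _).proj _) (masa_comm hA (s.mem _) ((w _).mem _))
  orth := by
    intro m m' h
    obtain ⟨⟨i, j⟩, rfl⟩ := finSigmaFinEquiv.surjective m
    obtain ⟨⟨i', j'⟩, rfl⟩ := finSigmaFinEquiv.surjective m'
    simp only [Equiv.symm_apply_apply]
    simp only [selCell]
    rw [mul_assoc, ← mul_assoc ((w i).c j), masa_comm hA ((w i).mem j) (s.mem i'),
      mul_assoc (s.c i'), ← mul_assoc]
    rcases eq_or_ne i i' with rfl | hne
    · rw [(w i).orth j j' (fun e => h (by rw [e])), mul_zero]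
    · rw [s.orth i i' hne, zero_mul]
  sum_eq := by
    rw [← finSigmaFinEquiv.sum_comp, Fintype.sum_sigma]
    simp only [Equiv.symm_apply_apply]
    simp only [selCell, ← Finset.mul_sum, (w _).sum_eq, mul_one, s.sum_eq]

theorem le_select (hA : IsMasaIn M A) (s : Cells A) (w : Fin s.n → Cells A) :
    s ≤ select hA s w := fun m =>
  ⟨(finSigmaFinEquiv.symm m).1, by
    change s.c _ * (s.c _ * _) = s.c _ * _
    rw [← mul_assoc, (s.proj _).isIdempotentElem.eq]⟩

theorem pinch_select (hA : IsMasaIn M A) (s : Cells A) (w : Fin s.n → Cells A)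
    (hw : ∀ i, s ≤ w i) (x : H →L[ℂ] H) :
    (select hA s w).pinch x = ∑ i, s.c i * (w i).pinch x := by
  rw [Cells.pinch]
  change ∑ m : Fin (∑ i, (w i).n), _ = _
  rw [← finSigmaFinEquiv.sum_comp, Fintype.sum_sigma]
  simp only [select, Equiv.symm_apply_apply]
  simp only [selCell]
  refine Finset.sum_congr rfl fun i _ => ?_
  have e : s.c i * (w i).pinch x = s.c i * ((w i).pinch x * s.c i) := by
    rw [← Cells.pinch_comm_c hA (hw i) i x, ← mul_assoc, (s.proj i).isIdempotentElem.eq]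
  rw [e, Cells.pinch, Finset.sum_mul, Finset.mul_sum]
  refine Finset.sum_congr rfl fun j _ => ?_
  simp only [mul_assoc]
  rw [masa_comm hA ((w i).mem j) (s.mem i)]

/-- Finitely many late pinchings have a small sum of deviations from a cluster point. -/
theorem exists_average (U : Ultrafilter (Cells A)) (hU : (U : Filter (Cells A)) ≤ atTop)
    {x a : H →L[ℂ] H} (ha : ‖a‖ ≤ ‖x‖)
    (hlim : ∀ v w, Tendsto (fun s : Cells A => ⟪v, s.pinch x w⟫_ℂ) U (nhds ⟪v, a w⟫_ℂ))
    (s₀ : Cells A) {ι : Type*} [Fintype ι] (u : ι → H) : ∀ N : ℕ,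
    ∃ s : Fin N → Cells A, (∀ k, s₀ ≤ s k) ∧
      ∑ i, ‖∑ k, ((s k).pinch x - a) (u i)‖ ^ 2 ≤
        (N : ℝ) * (4 * ‖x‖ ^ 2 * ∑ i, ‖u i‖ ^ 2 + 1)
  | 0 => ⟨Fin.elim0, fun k => k.elim0, by simp⟩
  | N + 1 => by
    obtain ⟨s, hs, hb⟩ := exists_average U hU ha hlim s₀ u N
    set S : ι → H := fun i => ∑ k, ((s k).pinch x - a) (u i) with hS
    have h0 : Tendsto (fun t : Cells A => ∑ i, ‖⟪S i, (t.pinch x - a) (u i)⟫_ℂ‖) U (nhds 0) := by
      rw [show (0 : ℝ) = ∑ _i : ι, (0 : ℝ) by simp]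
      refine tendsto_finsetSum _ fun i _ => ?_
      simp only [sub_apply, inner_sub_right]
      exact tendsto_iff_norm_sub_tendsto_zero.1 (hlim (S i) (u i))
    have hge : ∀ᶠ t in (U : Filter (Cells A)), s₀ ≤ t := hU (eventually_ge_atTop s₀)
    obtain ⟨t, ht0, ht⟩ := (hge.and
      (h0.eventually (eventually_le_nhds (by norm_num : (0 : ℝ) < 1 / 2)))).exists
    refine ⟨Fin.snoc s t, Fin.forall_fin_succ'.2 ⟨fun k => by rw [Fin.snoc_castSucc]; exact hs k,
      by rw [Fin.snoc_last]; exact ht0⟩, ?_⟩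
    simp only [Fin.sum_univ_castSucc, Fin.snoc_castSucc, Fin.snoc_last]
    have hstep : ∀ i, ‖S i + (t.pinch x - a) (u i)‖ ^ 2 ≤
        ‖S i‖ ^ 2 + 2 * ‖⟪S i, (t.pinch x - a) (u i)⟫_ℂ‖ + 4 * ‖x‖ ^ 2 * ‖u i‖ ^ 2 := by
      intro i
      rw [norm_add_sq (𝕜 := ℂ)]
      have h1 : RCLike.re ⟪S i, (t.pinch x - a) (u i)⟫_ℂ ≤ ‖⟪S i, (t.pinch x - a) (u i)⟫_ℂ‖ :=
        Complex.re_le_norm _
      have h2 : ‖(t.pinch x - a) (u i)‖ ≤ 2 * ‖x‖ * ‖u i‖ :=
        ((t.pinch x - a).le_opNorm _).trans (mul_le_mul_of_nonneg_right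
          ((norm_sub_le _ _).trans (by linarith [t.norm_pinch_le x])) (norm_nonneg _))
      have h3 := pow_le_pow_left₀ (norm_nonneg _) h2 2
      nlinarith
    refine (Finset.sum_le_sum fun i _ => hstep i).trans ?_
    rw [Finset.sum_add_distrib, Finset.sum_add_distrib, ← Finset.mul_sum, ← Finset.mul_sum]
    rw [Nat.cast_add, Nat.cast_one]
    linarith

theorem sum_sq_centred {E : Type*} [NormedAddCommGroup E] [InnerProductSpace ℂ E] {N : ℕ}
    (hN : 0 < N) (X : Fin N → E) :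
    ∑ k, (X k - (N : ℝ)⁻¹ • ∑ j, X j) = 0 ∧
      ∑ k, ‖X k - (N : ℝ)⁻¹ • ∑ j, X j‖ ^ 2 ≤ ∑ k, ‖X k‖ ^ 2 := by
  set m := (N : ℝ)⁻¹ • ∑ j, X j with hm
  have h0 : ∑ k, (X k - m) = 0 := by
    rw [Finset.sum_sub_distrib, Finset.sum_const, Finset.card_univ, Fintype.card_fin,
      ← Nat.cast_smul_eq_nsmul ℝ, hm, smul_smul, mul_inv_cancel₀ (by positivity), one_smul,
      sub_self]
  refine ⟨h0, ?_⟩
  have h1 := sum_sq_shift_vec m (fun k => X k - m) h0
  simp only [add_sub_cancel] at h1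
  rw [h1]
  exact le_add_of_nonneg_left (by positivity)

theorem sum_sq_add_le {E : Type*} [SeminormedAddCommGroup E] {ι : Type*} [Fintype ι]
    (a b : ι → E) :
    ∑ i, ‖a i + b i‖ ^ 2 ≤ 2 * ∑ i, ‖a i‖ ^ 2 + 2 * ∑ i, ‖b i‖ ^ 2 := by
  simp only [Finset.mul_sum, ← Finset.sum_add_distrib]
  refine Finset.sum_le_sum fun i _ => ?_
  refine (pow_le_pow_left₀ (norm_nonneg _) (norm_add_le _ _) 2).trans ?_
  nlinarith [sq_nonneg (‖a i‖ - ‖b i‖)]

/-- A partition finer than `s₀` whose pinching is close to the cluster point after compression. -/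
theorem exists_close (hA : IsMasaIn M A) (U : Ultrafilter (Cells A))
    (hU : (U : Filter (Cells A)) ≤ atTop) {x a : H →L[ℂ] H} (haA : a ∈ A) (ha : ‖a‖ ≤ ‖x‖)
    (hlim : ∀ v w, Tendsto (fun s : Cells A => ⟪v, s.pinch x w⟫_ℂ) U (nhds ⟪v, a w⟫_ℂ))
    {e : H →L[ℂ] H} (he : IsStarProjection e) {s₀ : Cells A} {c : ℝ} (hc : 0 ≤ c)
    (hsm : SmallOn e s₀ c) {ι : Type*} [Fintype ι] (u : ι → H) {N : ℕ} (hN : 0 < N) :
    ∃ t : Cells A, s₀ ≤ t ∧ ∑ i, ‖e ((t.pinch x - a) (u i))‖ ^ 2 ≤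
      2 * (c * (4 * ‖x‖ ^ 2 * ∑ i, ‖u i‖ ^ 2)) +
        2 * ((4 * ‖x‖ ^ 2 * ∑ i, ‖u i‖ ^ 2 + 1) / N) := by
  obtain ⟨s, hs, hb⟩ := exists_average U hU ha hlim s₀ u N
  set X : ι → Fin s₀.n → Fin N → H := fun i l k => e (s₀.c l (((s k).pinch x - a) (u i))) with hX
  set m : ι → Fin s₀.n → H := fun i l => (N : ℝ)⁻¹ • ∑ j, X i l j with hm
  obtain ⟨f, hf⟩ := exists_choice hN (fun i l k => X i l k - m i l)
    fun i l => (sum_sq_centred hN (X i l)).1
  refine ⟨select hA s₀ fun l => s (f l), le_select hA _ _, ?_⟩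
  set G : ι → H := fun i => ∑ l, (X i l (f l) - m i l) with hG
  set Mn : ι → H := fun i => ∑ l, m i l with hMn
  have e1 : ∀ i, e (((select hA s₀ fun l => s (f l)).pinch x - a) (u i)) = G i + Mn i := by
    intro i
    rw [pinch_select hA s₀ _ (fun l => hs (f l))]
    simp only [hG, hMn, Finset.sum_sub_distrib, sub_add_cancel]
    simp only [hX]
    rw [← map_sum]
    congr 1
    simp only [sub_apply, map_sub, Finset.sum_sub_distrib]
    rw [sum_apply, s₀.sum_apply_eq]
    rfl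
  have hD : ∀ k i, ‖((s k).pinch x - a) (u i)‖ ^ 2 ≤ 4 * ‖x‖ ^ 2 * ‖u i‖ ^ 2 := by
    intro k i
    refine (pow_le_pow_left₀ (norm_nonneg _) ((((s k).pinch x - a).le_opNorm _).trans
      (mul_le_mul_of_nonneg_right ((norm_sub_le _ _).trans
        (add_le_add ((s k).norm_pinch_le x) ha)) (norm_nonneg _))) 2).trans (le_of_eq ?_)
    ring
  have hN0 : (0 : ℝ) < N := Nat.cast_pos.2 hN
  have hG2 : ∑ i, ‖G i‖ ^ 2 ≤ c * (4 * ‖x‖ ^ 2 * ∑ i, ‖u i‖ ^ 2) := by
    refine le_of_mul_le_mul_left (hf.trans ?_) hN0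
    calc ∑ i, ∑ l, ∑ k, ‖X i l k - m i l‖ ^ 2
        ≤ ∑ i, ∑ l, ∑ k, ‖X i l k‖ ^ 2 :=
          Finset.sum_le_sum fun i _ => Finset.sum_le_sum fun l _ => (sum_sq_centred hN (X i l)).2
      _ ≤ ∑ i, ∑ k : Fin N, c * (4 * ‖x‖ ^ 2 * ‖u i‖ ^ 2) := by
          refine Finset.sum_le_sum fun i _ => ?_
          rw [Finset.sum_comm]
          refine Finset.sum_le_sum fun k _ => (Finset.sum_le_sum fun l _ => hsm l _).trans ?_
          rw [← Finset.mul_sum, s₀.sum_sq]
          exact mul_le_mul_of_nonneg_left (hD k i) hc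
      _ = _ := by simp [Finset.mul_sum, mul_assoc]
  have hM2 : ∑ i, ‖Mn i‖ ^ 2 ≤ (4 * ‖x‖ ^ 2 * ∑ i, ‖u i‖ ^ 2 + 1) / N := by
    calc ∑ i, ‖Mn i‖ ^ 2
        ≤ ∑ i, (N : ℝ)⁻¹ ^ 2 * ‖∑ k, ((s k).pinch x - a) (u i)‖ ^ 2 := by
          refine Finset.sum_le_sum fun i _ => ?_
          have e2 : Mn i = (N : ℝ)⁻¹ • e (∑ k, ((s k).pinch x - a) (u i)) := by
            simp only [hMn, hm, hX, ← Finset.smul_sum]
            rw [Finset.sum_comm, map_sum]
            congr 1
            refine Finset.sum_congr rfl fun k _ => ?_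
            rw [← map_sum, s₀.sum_apply_eq]
          rw [e2, norm_smul, mul_pow, Real.norm_eq_abs, sq_abs]
          exact mul_le_mul_of_nonneg_left
            (pow_le_pow_left₀ (norm_nonneg _) (norm_proj_apply_le he _) 2) (sq_nonneg _)
      _ ≤ (N : ℝ)⁻¹ ^ 2 * ((N : ℝ) * (4 * ‖x‖ ^ 2 * ∑ i, ‖u i‖ ^ 2 + 1)) := by
          rw [← Finset.mul_sum]
          exact mul_le_mul_of_nonneg_left hb (sq_nonneg _)
      _ = _ := by field_simp
  simp only [e1]
  exact (sum_sq_add_le G Mn).trans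
    (add_le_add (mul_le_mul_of_nonneg_left hG2 two_pos.le)
      (mul_le_mul_of_nonneg_left hM2 two_pos.le))

theorem pavableOn_zero {z : H →L[ℂ] H} (hz : z ∈ A) (hzp : IsStarProjection z) (hzM : z ∈ M) {ε : ℝ} {r : ℕ}
    (hr : 0 < r) : PavableOn M A z ε r 0 := by
  intro F δ hδ
  refine ⟨fun i => if i = ⟨0, hr⟩ then z else 0, 0, z, fun i => ?_, fun i j hij => ?_, ?_,
    zero_mem A, IsSelfAdjoint.zero _, le_rfl, mul_zero z, hzM, hzp, hzp.isIdempotentElem,
    fun v _ => by simpa using hδ, by simp⟩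
  · dsimp only
    split_ifs
    exacts [⟨hz, hzp⟩, ⟨zero_mem A, IsStarProjection.zero _⟩]
  · dsimp only
    split_ifs with h1 h2 <;> simp_all
  · simp

theorem sum_ite_colour {R : Type*} [AddCommMonoid R] {r m : ℕ} (f : Fin m → Fin r) (d : Fin m → R) :
    ∑ i, ∑ j, (if f j = i then d j else 0) = ∑ j, d j := by
  rw [Finset.sum_comm]
  simp

/-- Pieces of `z` made from the cells of `t` and a colouring. -/
theorem colour_pieces (hA : IsMasaIn M A) {z : H →L[ℂ] H} (hz : z ∈ A) (hzp : IsStarProjection z)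
    (t : Cells A) {r : ℕ} (f : Fin t.n → Fin r) {g : Fin r → H →L[ℂ] H}
    (hg : g = fun i => ∑ j, if f j = i then z * t.c j else 0) :
    (∀ i, g i ∈ A) ∧ (∀ i, IsStarProjection (g i)) ∧ (∀ i j, i ≠ j → g i * g j = 0) ∧
      ∑ i, g i = z := by
  classical
  have hcomm : ∀ j, z * t.c j = t.c j * z := fun j => masa_comm hA hz (t.mem j)
  set d : Fin t.n → H →L[ℂ] H := fun j => z * t.c j with hd
  have hdA : ∀ j, d j ∈ A := fun j => mul_mem hz (t.mem j)
  have hdp : ∀ j, IsStarProjection (d j) := fun j => hzp.mul (t.proj j) (hcomm j)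
  have hdo : ∀ j k, j ≠ k → d j * d k = 0 := fun j k hjk => by
    simp only [hd]
    rw [mul_assoc z, ← mul_assoc (t.c j), ← hcomm j, mul_assoc z, t.orth j k hjk, mul_zero, mul_zero]
  subst hg
  set g : Fin r → H →L[ℂ] H := fun i => ∑ j, if f j = i then d j else 0 with hg
  have hgA : ∀ i, g i ∈ A := fun i => sum_mem fun j _ => by
    split_ifs
    exacts [hdA j, zero_mem A]
  have hgmul : ∀ i i', g i * g i' = if i = i' then g i else 0 := by
    intro i i'
    simp only [hg, Finset.sum_mul, Finset.mul_sum]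
    have : ∀ j k, ((if f j = i then d j else 0) * if f k = i' then d k else 0)
        = if j = k then (if f j = i ∧ f j = i' then d j else 0) else 0 := by
      intro j k
      by_cases hjk : j = k
      · subst hjk
        by_cases h1 : f j = i <;> by_cases h2 : f j = i' <;>
          simp [h1, h2, (hdp j).isIdempotentElem.eq]
      · by_cases h1 : f j = i <;> by_cases h2 : f k = i' <;> simp [h1, h2, hjk, hdo j k hjk]
    simp only [this, Finset.sum_ite_eq, Finset.sum_ite_eq', Finset.mem_univ, if_true]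
    split_ifs with hii
    · subst hii; simp
    · refine Finset.sum_eq_zero fun k _ => if_neg ?_
      rintro ⟨h1, h2⟩
      exact hii (h1.symm.trans h2)
  have hgP : ∀ i, IsStarProjection (g i) := fun i =>
    ⟨by simpa [IsIdempotentElem] using hgmul i i, by
      simp only [IsSelfAdjoint, hg, star_sum]
      exact Finset.sum_congr rfl fun j _ => by split_ifs <;> simp [(hdp j).isSelfAdjoint.star_eq]⟩
  have hgsum : ∑ i, g i = z := by
    simp only [hg]
    rw [sum_ite_colour, hd, ← Finset.mul_sum, t.sum_eq, mul_one]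
  exact ⟨hgA, hgP, fun i j hij => by rw [hgmul, if_neg hij], hgsum⟩

/-- The error of a colouring after compression by `e`. -/
theorem colour_apply (hA : IsMasaIn M A) {z : H →L[ℂ] H} (hz : z ∈ A) {e : H →L[ℂ] H}
    (hez : e * z = e) (x a : H →L[ℂ] H) (t : Cells A) {r : ℕ} (f : Fin t.n → Fin r)
    {g : Fin r → H →L[ℂ] H} (hg : g = fun i => ∑ j, if f j = i then z * t.c j else 0)
    {v : H} (hv : z v = v) :
    e ((∑ i, g i * x * g i - z * a - ((1 / r : ℝ) : ℂ) • (x - a)) v) =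
      (1 - ((1 / r : ℝ) : ℂ)) • e ((t.pinch x - a) v) +
        offVec (fun j k => e (t.c j (x (t.c k v)))) f := by
  classical
  have hcomm : ∀ j, z * t.c j = t.c j * z := fun j => masa_comm hA hz (t.mem j)
  subst hg
  set d : Fin t.n → H →L[ℂ] H := fun j => z * t.c j with hd
  set g : Fin r → H →L[ℂ] H := fun i => ∑ j, if f j = i then d j else 0 with hg
  set T := ∑ i, g i * x * g i with hT
  set rc : ℂ := ((1 / r : ℝ) : ℂ) with hrc
  set G : Fin t.n → Fin t.n → H := fun j k => e (t.c j (x (t.c k v))) with hGdef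
  have hzt : ∀ j, z (t.c j v) = t.c j v := fun j => by
    change (z * t.c j) v = _
    rw [hcomm]
    change t.c j (z v) = _
    rw [hv]
  have hezt : ∀ j w, e (z (t.c j w)) = e (t.c j w) := fun j w =>
    congrArg (fun S : H →L[ℂ] H => S (t.c j w)) hez
  have hTe : e (T v) = ∑ j, ∑ k, if f j = f k then G j k else 0 := by
    simp only [hT, hg, Finset.sum_mul, Finset.mul_sum, ite_mul, mul_ite, zero_mul, mul_zero]
    rw [Finset.sum_comm (γ := Fin t.n)]
    simp only [sum_apply, map_sum]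
    rw [Finset.sum_comm]
    refine Finset.sum_congr rfl fun k _ => ?_
    rw [Finset.sum_eq_single (f k)]
    · simp only [if_true]
      rw [sum_apply, map_sum]
      refine Finset.sum_congr rfl fun j _ => ?_
      split_ifs with hjk
      · simp only [hd, hGdef, mul_apply_eq_comp]
        rw [hezt, hzt]
      · simp
    · intro b _ hb
      simp [Ne.symm hb]
    · exact fun hh => absurd (Finset.mem_univ _) hh
  have hd1 : e (t.pinch x v) = ∑ j, G j j := by
    rw [Cells.pinch_apply, map_sum]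
  have hd2 : e (x v) = ∑ j, ∑ k, G j k := by
    simp only [hGdef, ← map_sum, t.sum_apply_eq]
  have hoff : offVec G f = ∑ j, ∑ k, ((if f j = f k then G j k else 0)
      - rc • G j k - (1 - rc) • (if j = k then G j k else 0)) := by
    simp only [offVec]
    refine Finset.sum_congr rfl fun j _ => Finset.sum_congr rfl fun k _ => ?_
    by_cases hjk : j = k
    · subst hjk
      simp [sub_smul]
    · rw [if_neg hjk, if_neg hjk, smul_zero, sub_zero]
      rw [hrc, Complex.coe_smul, cen, sub_smul]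
      split_ifs <;> simp
  rw [hoff]
  simp only [Finset.sum_sub_distrib, ← Finset.smul_sum, Finset.sum_ite_eq, Finset.mem_univ,
    if_true]
  rw [← hTe, ← hd1, ← hd2]
  simp only [sub_apply, map_sub, smul_apply, map_smul, smul_sub, sub_smul, one_smul,
    mul_apply_eq_comp]
  rw [show e (z (a v)) = e (a v) from congrArg (fun S : H →L[ℂ] H => S (a v)) hez]
  abel

/-- Cutting the error of a compression. -/
theorem exists_cut_conj {z e B D Y : H →L[ℂ] H} (heM : e ∈ M) (hep : IsStarProjection e)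
    (hzp : IsStarProjection z) (hze : z * e = e) (hYM : Y ∈ M) (hYs : IsSelfAdjoint Y) {θ : ℝ}
    (hθ : 0 < θ) {rc : ℂ} (hY : Y = e * (B - rc • D) * e) :
    ∃ q ∈ M, IsStarProjection q ∧ z * q = q ∧
      (∀ v, ‖(z - q) v‖ ≤ ‖(z - e) v‖ + ‖Y v‖ / θ) ∧ ‖q * B * q‖ ≤ θ + ‖rc‖ * ‖D‖ := by
  obtain ⟨q, hqM, hqp, hqc, -, hq1, hq2, -⟩ := exists_cut hYM hYs hθ
  have hee := hep.isIdempotentElem.eq
  have heY : e * Y = Y := by rw [hY, ← mul_assoc, ← mul_assoc, hee]
  have hYe : Y * e = Y := by rw [hY, mul_assoc, hee]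
  have heq : e * q = q * e :=
    hqc e (by rw [heY, hYe]) (by rw [hep.isSelfAdjoint.star_eq, heY, hYe])
  refine ⟨e * q, mul_mem heM hqM, hep.mul hqp heq, by rw [← mul_assoc, hze], fun v => ?_, ?_⟩
  · have e3 : (z - e * q) v = (z - e) v + (1 - q) (e v) := by
      rw [heq]
      change z v - q (e v) = z v - e v + (e v - q (e v))
      abel
    rw [e3]
    refine (norm_add_le _ _).trans (add_le_add le_rfl ?_)
    rw [le_div_iff₀ hθ, mul_comm]
    refine (hq2 (e v)).trans_eq ?_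
    exact congrArg (fun S : H →L[ℂ] H => ‖S v‖) hYe
  · set Q := e * q with hQ
    have hQp : IsStarProjection Q := hep.mul hqp heq
    have hQ1 : ‖Q‖ ≤ 1 := norm_starProjection_le_one hQp
    have hQe : Q * e = Q := by rw [hQ, mul_assoc, ← heq, ← mul_assoc, hee]
    have heQ : e * Q = Q := by rw [hQ, ← mul_assoc, hee]
    have e4 : Q * B * Q = Q * (Y * q * e) + rc • (Q * D * Q) := by
      have e5 : Q * (Y * q * e) = Q * (B - rc • D) * Q := by
        rw [mul_assoc Y, ← heq]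
        simp only [hY, mul_assoc]
        rw [heQ, ← mul_assoc Q e, hQe]
      rw [e5]
      simp only [mul_sub, sub_mul, mul_smul_comm, smul_mul_assoc]
      abel
    have hsub : ∀ S : H →L[ℂ] H, ‖Q * S * Q‖ ≤ ‖S‖ := fun S =>
      ((norm_mul_le _ _).trans (mul_le_of_le_one_right (norm_nonneg _) hQ1)).trans
        ((norm_mul_le _ _).trans (mul_le_of_le_one_left (norm_nonneg _) hQ1))
    rw [e4]
    refine (norm_add_le _ _).trans (add_le_add ?_ ?_)
    · refine (norm_mul_le _ _).trans ((mul_le_of_le_one_left (norm_nonneg _) hQ1).trans ?_)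
      exact (norm_mul_le _ _).trans
        ((mul_le_of_le_one_right (norm_nonneg _) (norm_starProjection_le_one hep)).trans hq1)
    · rw [norm_smul]
      exact mul_le_mul_of_nonneg_left (hsub D) (norm_nonneg _)

/-- A colouring with small error on finitely many vectors. -/
theorem exists_pieces (hA : IsMasaIn M A) {z : H →L[ℂ] H} (hz : z ∈ A) (hzp : IsStarProjection z)
    {e : H →L[ℂ] H} (hep : IsStarProjection e) (hez : e * z = e) {s₀ : Cells A} {c : ℝ}
    (hc : 0 ≤ c) (hsm : SmallOn e s₀ c) (U : Ultrafilter (Cells A))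
    (hU : (U : Filter (Cells A)) ≤ atTop) {x a : H →L[ℂ] H} (haA : a ∈ A) (han : ‖a‖ ≤ ‖x‖)
    (hlim : ∀ v w, Tendsto (fun s : Cells A => ⟪v, s.pinch x w⟫_ℂ) U (nhds ⟪v, a w⟫_ℂ))
    {r N : ℕ} (hr : 0 < r) (hN : 0 < N) {ι : Type*} [Fintype ι] (u : ι → H)
    (hzu : ∀ i, z (u i) = u i) {K : ℝ} (hK : 4 * ‖x‖ ^ 2 * ∑ i, ‖u i‖ ^ 2 ≤ K) :
    ∃ g : Fin r → H →L[ℂ] H, (∀ i, g i ∈ A) ∧ (∀ i, IsStarProjection (g i)) ∧
      (∀ i j, i ≠ j → g i * g j = 0) ∧ ∑ i, g i = z ∧
      ∑ i, ‖e ((∑ l, g l * x * g l - z * a - ((1 / r : ℝ) : ℂ) • (x - a)) (u i))‖ ^ 2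
        ≤ 8 * (c * K) + 4 * ((K + 1) / N) := by
  classical
  obtain ⟨t, hst, hclose⟩ := exists_close hA U hU haA han hlim hep hc hsm u hN
  have hsmt := hsm.mono hst
  obtain ⟨f, hf⟩ := exists_colour_vec (r := r) hr
    (fun i j k => e (t.c j (x (t.c k (u i)))))
  obtain ⟨hgA, hgP, hgo, hgsum⟩ := colour_pieces hA hz hzp t f rfl
  refine ⟨_, hgA, hgP, hgo, hgsum, ?_⟩
  simp only [fun i => colour_apply hA hz hez x a t f rfl (hzu i)]
  refine (sum_sq_add_le _ _).trans ?_
  have h1 : ∑ i, ‖(1 - ((1 / r : ℝ) : ℂ)) • e ((t.pinch x - a) (u i))‖ ^ 2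
      ≤ 2 * (c * K) + 2 * ((K + 1) / N) := by
    refine le_trans (Finset.sum_le_sum fun i _ => pow_le_pow_left₀ (norm_nonneg _)
      ((norm_smul_le _ _).trans (mul_le_of_le_one_left (norm_nonneg _) ?_)) 2)
      (hclose.trans (by gcongr))
    rw [← Complex.ofReal_one, ← Complex.ofReal_sub, Complex.norm_real, Real.norm_eq_abs, abs_le]
    have : (1 : ℝ) / r ≤ 1 := by
      rw [div_le_one (by exact_mod_cast hr)]
      exact_mod_cast hr
    have : (0 : ℝ) ≤ 1 / r := by positivity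
    constructor <;> linarith
  have h2 : ∑ i, ∑ j, ∑ k, ‖e (t.c j (x (t.c k (u i))))‖ ^ 2 ≤ c * K := by
    calc ∑ i, ∑ j, ∑ k, ‖e (t.c j (x (t.c k (u i))))‖ ^ 2
        ≤ ∑ i, ∑ k, c * ‖x (t.c k (u i))‖ ^ 2 := by
          refine Finset.sum_le_sum fun i _ => ?_
          rw [Finset.sum_comm]
          refine Finset.sum_le_sum fun k _ => (Finset.sum_le_sum fun j _ => hsmt j _).trans ?_
          rw [← Finset.mul_sum, t.sum_sq]
      _ ≤ ∑ i, c * (‖x‖ ^ 2 * ‖u i‖ ^ 2) := by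
          refine Finset.sum_le_sum fun i _ => ?_
          rw [← t.sum_sq (u i), Finset.mul_sum, Finset.mul_sum]
          refine Finset.sum_le_sum fun k _ => mul_le_mul_of_nonneg_left ?_ hc
          rw [← mul_pow]
          exact pow_le_pow_left₀ (norm_nonneg _) (x.le_opNorm _) 2
      _ ≤ c * K := by
          rw [← Finset.mul_sum, ← Finset.mul_sum]
          refine mul_le_mul_of_nonneg_left (le_trans ?_ hK) hc
          exact mul_le_mul_of_nonneg_right (le_mul_of_one_le_left (sq_nonneg _) (by norm_num))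
            (Finset.sum_nonneg fun i _ => sq_nonneg _)
  linarith

/-- A singular corner paves with more than `2 / ε` pieces. -/
theorem pavableOn_of_singular (hA : IsMasaIn M A) {z : H →L[ℂ] H} (hz : z ∈ A)
    (hzp : IsStarProjection z) (h : SingularApprox M A z) {ε : ℝ} (hε : 0 < ε) {r : ℕ}
    (hr : 2 / ε < r) {x : H →L[ℂ] H} (hxM : x ∈ M) (hx : IsSelfAdjoint x) :
    PavableOn M A z ε r x := by
  classical
  have hr0 : (0 : ℝ) < r := lt_trans (by positivity) hr
  have hrn : 0 < r := by exact_mod_cast hr0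
  have hzM : z ∈ M := hA.1 z hz
  rcases (norm_nonneg x).eq_or_lt with hx0 | hx0
  · rw [norm_eq_zero.1 hx0.symm]
    exact pavableOn_zero hz hzp hzM hrn
  intro F δ hδ
  set θ := (ε - 2 / r) * ‖x‖ with hθdef
  have hθ : 0 < θ := by
    refine mul_pos ?_ hx0
    rw [sub_pos, div_lt_iff₀ hr0]
    rw [div_lt_iff₀ hε] at hr
    linarith
  set K := 4 * ‖x‖ ^ 2 * ∑ v : F, ‖(v : H)‖ ^ 2 with hKdef
  have hK : 0 ≤ K := by positivity
  set β := (θ * (δ / 3)) ^ 2 with hβdef
  have hβ : 0 < β := by positivity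
  set c := β / (16 * (K + 1)) with hcdef
  have hc : 0 < c := by positivity
  obtain ⟨N, hN⟩ := exists_nat_gt (8 * (K + 1) / β)
  have hN0 : (0 : ℝ) < N := lt_trans (by positivity) hN
  have hNn : 0 < N := by exact_mod_cast hN0
  obtain ⟨e, heM, hep, hze, hev, s₀, hsm⟩ := exists_smallOn hA hz hzp h F (show 0 < δ / 3 by positivity) hc
  have hez : e * z = e := by
    have h1 := congrArg star hze
    rwa [star_mul, hep.isSelfAdjoint.star_eq, hzp.isSelfAdjoint.star_eq] at h1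
  have := Cells.atTop_neBot hA
  obtain ⟨a, haA, has, han, hlim⟩ :=
    exists_cluster hA (Ultrafilter.of (atTop : Filter (Cells A))) (Ultrafilter.of_le _) hxM hx
  set u : F → H := fun v => e (v : H) with hu
  have hzu : ∀ i, z (u i) = u i := fun i => congrArg (fun T : H →L[ℂ] H => T (i : H)) hze
  have huK : 4 * ‖x‖ ^ 2 * ∑ i, ‖u i‖ ^ 2 ≤ K :=
    mul_le_mul_of_nonneg_left (Finset.sum_le_sum fun i _ =>
      pow_le_pow_left₀ (norm_nonneg _) (norm_proj_apply_le hep _) 2) (by positivity)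
  obtain ⟨g, hgA, hgP, hgo, hgsum, hsum⟩ :=
    exists_pieces hA hz hzp hep hez hc.le hsm _ (Ultrafilter.of_le _) haA han hlim hrn hNn u hzu huK
  set T := ∑ i, g i * x * g i with hT
  have hTM : T ∈ M := sum_mem fun i _ => mul_mem (mul_mem (hA.1 _ (hgA i)) hxM) (hA.1 _ (hgA i))
  have hTs : IsSelfAdjoint T := by
    rw [IsSelfAdjoint, hT, star_sum]
    exact Finset.sum_congr rfl fun i _ => by
      rw [star_mul, star_mul, (hgP i).isSelfAdjoint.star_eq, hx.star_eq, mul_assoc]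
  have hzas : IsSelfAdjoint (z * a) := by
    rw [IsSelfAdjoint, star_mul, has.star_eq, hzp.isSelfAdjoint.star_eq, masa_comm hA hz haA]
  set rc : ℂ := ((1 / r : ℝ) : ℂ) with hrc
  set Y := e * (T - z * a - rc • (x - a)) * e with hY
  have hYM : Y ∈ M := mul_mem (mul_mem heM (sub_mem (sub_mem hTM (mul_mem hzM (hA.1 a haA)))
    (M.toStarSubalgebra.smul_mem (sub_mem hxM (hA.1 a haA)) _))) heM
  have hYs : IsSelfAdjoint Y := isSelfAdjoint_ryr hep.isSelfAdjoint
    ((hTs.sub hzas).sub (IsSelfAdjoint.smul (Complex.conj_ofReal _) (hx.sub has)))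
  have h1 : ∑ i : F, ‖Y (i : H)‖ ^ 2 ≤ 8 * (c * K) + 4 * ((K + 1) / N) := hsum
  have hY' : Y = e * (T - z * a - rc • (x - a)) * e := hY
  clear_value Y
  clear hsum hY
  have hYv : ∀ v ∈ F, ‖Y v‖ < θ * (δ / 3) := by
    intro v hv
    refine (pow_lt_pow_iff_left₀ (norm_nonneg _) (by positivity) two_ne_zero).1 ?_
    rw [← hβdef]
    have h0 : ‖Y v‖ ^ 2 ≤ ∑ i : F, ‖Y (i : H)‖ ^ 2 :=
      Finset.single_le_sum (f := fun i : F => ‖Y (i : H)‖ ^ 2) (fun i _ => sq_nonneg _)
        (Finset.mem_univ (⟨v, hv⟩ : F))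
    refine lt_of_le_of_lt (h0.trans h1) ?_
    have hcK : c * K ≤ β / 16 := by
      rw [hcdef, div_mul_eq_mul_div, div_le_div_iff₀ (by positivity) (by norm_num)]
      nlinarith
    have hKN : (K + 1) / N < β / 8 := by
      rw [div_lt_iff₀ hN0]
      rw [div_lt_iff₀ hβ] at hN
      linarith
    linarith
  obtain ⟨q, hqM, hqp, hqe, hqv, hqn⟩ := exists_cut_conj (z := z) (B := T - z * a) heM hep
    hzp hze hYM hYs hθ (rc := rc) (D := x - a) hY'
  refine ⟨g, z * a, q, fun i => ⟨hgA i, hgP i⟩, hgo, hgsum, mul_mem hz haA, hzas, ?_,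
    by rw [← mul_assoc, hzp.isIdempotentElem.eq], hqM, hqp, hqe, fun v hv => ?_, ?_⟩
  · refine (norm_mul_le z a).trans ((mul_le_of_le_one_left (norm_nonneg _) ?_).trans han)
    exact norm_starProjection_le_one hzp
  · refine (hqv v).trans_lt ?_
    have h2 : ‖Y v‖ / θ < δ / 3 := by
      rw [div_lt_iff₀ hθ, mul_comm]
      exact hYv v hv
    linarith [hev v hv]
  · refine hqn.trans ?_
    rw [hrc, Complex.norm_real, Real.norm_of_nonneg (by positivity)]
    calc θ + 1 / r * ‖x - a‖ ≤ θ + 1 / r * (2 * ‖x‖) :=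
          add_le_add le_rfl (mul_le_mul_of_nonneg_left
            ((norm_sub_le x a).trans (by linarith)) (by positivity))
      _ = ε * ‖x‖ := by rw [hθdef]; ring

end Vale.Agent.P078.General
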