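import Vale.Agent.P078.General.CornerPave
import Vale.Agent.P078.General.Glue
import Vale.Agent.P078.General.Semifinite
import Vale.Agent.P078.General.Singular
import Vale.Agent.P078.General.Operators
import Vale.Agent.P078.Finite.Main
import Vale.Agent.P078.Finite.Public
import Vale.Agent.P078.Main

/-!
So-paving of all maximal abelian algebras of semifinite algebras, of those without finite corners,
and of all bounded operators.
-/

noncomputable section

open scoped InnerProductSpace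
open Vale.Agent.P078.Finite

namespace Vale.Agent.P078.General

universe u

variable {H : Type u} [NormedAddCommGroup H] [InnerProductSpace ℂ H] [CompleteSpace H]
variable {M : VonNeumannAlgebra H} {A : StarSubalgebra ℂ (H →L[ℂ] H)}

theorem soPavableIn_of_one_le {ε : ℝ} (hε : 1 ≤ ε) {r : ℕ} (hr : 1 ≤ r) (x : H →L[ℂ] H) :
    SoPavableIn M A ε r x := by
  intro F δ hδ
  let i0 : Fin r := ⟨0, hr⟩
  refine ⟨fun i => if i = i0 then 1 else 0, 0, 1, fun i => ?_, fun i j hij => ?_, ?_,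
    zero_mem A, IsSelfAdjoint.zero _, by simp, one_mem _, IsStarProjection.one _,
    fun v _ => by simpa using hδ, ?_⟩
  · dsimp only
    split_ifs
    exacts [⟨one_mem A, IsStarProjection.one _⟩, ⟨zero_mem A, IsStarProjection.zero _⟩]
  · dsimp only
    split_ifs with h1 h2 <;> simp_all
  · simp
  · simpa using le_mul_of_one_le_left (norm_nonneg x) hε

/-- A singular maximal abelian algebra paves with more than `2 / ε` pieces. -/
theorem soPavableIn_of_singular (hA : IsMasaIn M A) (h : SingularApprox M A 1) {ε : ℝ} (hε : 0 < ε)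
    {r : ℕ} (hr : 2 / ε < r) {x : H →L[ℂ] H} (hxM : x ∈ M) (hx : IsSelfAdjoint x) :
    SoPavableIn M A ε r x := by
  intro F δ hδ
  obtain ⟨g, a, q, h1, h2, h3, h4, h5, h6, -, h7, h8, -, h9, h10⟩ :=
    pavableOn_of_singular hA (one_mem A) (IsStarProjection.one _) h hε hr hxM hx F δ hδ
  exact ⟨g, a, q, h1, h2, h3, h4, h5, h6, h7, h8, h9, h10⟩

/-- Diffuse maximal abelian algebras of all bounded operators are singular. -/
theorem singularApprox_of_diffuse (hA : IsMasaIn (allOps H) A)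
    (hD : Vale.Agent.P078.IsDiffuse A) : SingularApprox (allOps H) A 1 := by
  obtain ⟨w, b, -⟩ := exists_hilbertBasis ℂ H
  obtain ⟨z, -, -, hz, hz1, -⟩ := semifinite_split (ξ := fun j => b j) hA
    (fun x _ => weight_star_basis b x)
    (fun x _ h => ext_basis b fun j => by rw [h j, zero_apply]) (allOps_dense b)
  rw [hz1 (noFiniteProj_of_diffuse b hD)] at hz
  exact hz

/-- The so-paving constant for semifinite algebras. -/
def gRate (C0 : ℝ) : ℝ := 4 * C0 ^ 2 + 5

theorem gRate_pos (C0 : ℝ) : 0 < gRate C0 := by unfold gRate; positivity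

theorem split_count {C0 ε : ℝ} (hε : 0 < ε) (hε1 : ε < 1) {r : ℕ}
    (hr : gRate C0 / ε ^ 2 ≤ r) :
    ∃ r0 r1 : ℕ, r = r0 + r1 ∧ 1 ≤ r0 ∧ 4 * C0 ^ 2 ≤ ε ^ 2 * r0 ∧ 2 / ε < r1 := by
  have h2 : (⌊2 / ε⌋₊ : ℝ) + 1 ≤ 3 / ε ^ 2 := by
    have h0 : (⌊2 / ε⌋₊ : ℝ) ≤ 2 / ε := Nat.floor_le (by positivity)
    refine (add_le_add h0 le_rfl).trans ?_
    rw [div_add_one hε.ne', div_le_div_iff₀ hε (by positivity)]
    nlinarith [mul_pos hε hε]
  set r1 := ⌊2 / ε⌋₊ + 1
  have hr1 : (r1 : ℝ) ≤ 3 / ε ^ 2 := by push_cast [r1]; exact h2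
  have e : gRate C0 / ε ^ 2 = (4 * C0 ^ 2 + 2) / ε ^ 2 + 3 / ε ^ 2 := by
    rw [gRate, ← add_div]
    congr 1
    ring
  have hle : r1 ≤ r := by
    have : (0 : ℝ) ≤ (4 * C0 ^ 2 + 2) / ε ^ 2 := by positivity
    exact_mod_cast (by linarith : (r1 : ℝ) ≤ r)
  have h3 : (4 * C0 ^ 2 + 2) / ε ^ 2 ≤ ((r - r1 : ℕ) : ℝ) := by
    rw [Nat.cast_sub hle]
    linarith
  refine ⟨r - r1, r1, (Nat.sub_add_cancel hle).symm, ?_, ?_, ?_⟩
  · exact_mod_cast (lt_of_lt_of_le (by positivity) h3 : (0 : ℝ) < ((r - r1 : ℕ) : ℝ))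
  · rw [div_le_iff₀ (by positivity)] at h3
    linarith
  · push_cast [r1]
    exact Nat.lt_floor_add_one _

/-- Every maximal abelian algebra of a semifinite algebra has the quadratic so-paving bound. -/
theorem pavesWith_semifinite {C0 : ℝ} (h : Paving.{u} C0) (hA : IsMasaIn M A)
    (hM : HasSemifiniteTrace M) : PavesWith (gRate C0) M A := by
  intro ε hε r hr x hxM hx
  rcases le_or_gt 1 ε with hε1 | hε1
  · exact soPavableIn_of_one_le hε1 (one_le_of_bound (gRate_pos C0) hε hr) x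
  obtain ⟨J, ξ, hsym, hsep, hdense⟩ := hM
  obtain ⟨r0, r1, rfl, h0, hC, h1⟩ := split_count hε hε1 hr
  obtain ⟨z, hz, hzp, hzs, -, hD⟩ := semifinite_split hA hsym hsep hdense
  refine soPavableIn_glue h0 fun F δ hδ => ?_
  obtain ⟨D, hDz, hDF⟩ := hD F δ hδ
  exact ⟨D.p, z, D.hp, D.hproj, hz, hzp, hDz, hDF, pavableOn_of_corner h D hε h0 hC hxM hx,
    pavableOn_of_singular hA hz hzp hzs hε h1 hxM hx⟩

theorem pavesWith_mono {C C' : ℝ} (hCC : C ≤ C') (h : PavesWith C M A) : PavesWith C' M A :=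
  fun ε hε r hr x hxM hx =>
    h ε hε r ((div_le_div_of_nonneg_right hCC (sq_nonneg ε)).trans hr) x hxM hx

end Vale.Agent.P078.General
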