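import Vale.Agent.P078.General.Split
import Vale.Agent.P078.General.Glue
import Vale.Agent.P078.General.Singular

/-!
So-paving of all maximal abelian algebras reduces to corners with central functionals.
-/

noncomputable section

open Vale.Agent.P078.Finite

namespace Vale.Agent.P078.General

universe u

variable {H : Type u} [NormedAddCommGroup H] [InnerProductSpace ℂ H] [CompleteSpace H]
variable {M : VonNeumannAlgebra H} {A : StarSubalgebra ℂ (H →L[ℂ] H)}

/-- Paving of the corners with central functionals gives so-paving, with fewer than `2 / ε + 1`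
pieces more. -/
theorem soPavableIn_of_stateCorners (hA : IsMasaIn M A) {ε : ℝ} (hε : 0 < ε) {r0 r1 : ℕ}
    (h0 : 1 ≤ r0) (h1 : 2 / ε < r1) {x : H →L[ℂ] H} (hxM : x ∈ M) (hx : IsSelfAdjoint x)
    (h : ∀ D : StateCorner M A, PavableOn M A D.p ε r0 x) : SoPavableIn M A ε (r0 + r1) x := by
  obtain ⟨z, hz, hzp, -, hzs, hcor⟩ := exists_central_split hA
  refine soPavableIn_glue h0 fun F δ hδ => ?_
  obtain ⟨D, hDz, hDF⟩ := hcor F δ hδ
  exact ⟨D.p, z, D.hp, D.hproj, hz, hzp, hDz, hDF, h D,
    pavableOn_of_singular hA hz hzp hzs hε h1 hxM hx⟩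

end Vale.Agent.P078.General
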