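import Vale.Agent.P078.General.Centred
import Vale.Agent.P078.General.Weight

/-!
Splitting a maximal abelian algebra into corners with faithful normal central functionals and a
part approached by projections with small pinchings.
-/

noncomputable section

open scoped InnerProductSpace
open Filter Vale.Agent.P078.Finite

namespace Vale.Agent.P078.General

universe u

variable {H : Type u} [NormedAddCommGroup H] [InnerProductSpace ℂ H] [CompleteSpace H]

/-- A projection `p` of `A` with a faithful normal functional on `p M p` centralised by `A`, given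
by a sequence of vectors. -/
structure StateCorner (M : VonNeumannAlgebra H) (A : StarSubalgebra ℂ (H →L[ℂ] H)) where
  p : H →L[ℂ] H
  hp : p ∈ A
  hproj : IsStarProjection p
  masa : IsMasaIn M A
  ξ : ℕ → H
  hξ : ∀ n, p (ξ n) = ξ n
  hsum : Summable (fun n => ‖ξ n‖ ^ 2)
  hcen : ∀ a ∈ A, ∀ x ∈ M, ∑' n, ⟪ξ n, (a * x) (ξ n)⟫_ℂ = ∑' n, ⟪ξ n, (x * a) (ξ n)⟫_ℂ
  hsep : ∀ x ∈ M, p * x * p = x → (∀ n, x (ξ n) = 0) → x = 0

/-- `p` supports a faithful normal central functional given by vectors. -/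
def Carried (M : VonNeumannAlgebra H) (A : StarSubalgebra ℂ (H →L[ℂ] H))
    (p : H →L[ℂ] H) : Prop :=
  ∃ (J : Type u) (ξ : J → H), (∀ j, p (ξ j) = ξ j) ∧ Summable (fun j => ‖ξ j‖ ^ 2) ∧
    (∀ a ∈ A, ∀ x ∈ M, ∑' j, ⟪ξ j, (a * x) (ξ j)⟫_ℂ = ∑' j, ⟪ξ j, (x * a) (ξ j)⟫_ℂ) ∧
    ∀ x ∈ M, p * x * p = x → (∀ j, x (ξ j) = 0) → x = 0

variable {M : VonNeumannAlgebra H} {A : StarSubalgebra ℂ (H →L[ℂ] H)}

theorem summable_inner_of_sq {J : Type*} {ξ : J → H} (h : Summable fun j => ‖ξ j‖ ^ 2)
    (x : H →L[ℂ] H) : Summable fun j => ⟪ξ j, x (ξ j)⟫_ℂ :=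
  (h.mul_left ‖x‖).of_norm_bounded fun v => (norm_inner_le_norm _ _).trans (by
    refine (mul_le_mul_of_nonneg_left (x.le_opNorm _) (norm_nonneg _)).trans (le_of_eq ?_)
    ring)

theorem carried_zero (M : VonNeumannAlgebra H) (A : StarSubalgebra ℂ (H →L[ℂ] H)) :
    Carried M A 0 :=
  ⟨PEmpty, fun j => j.elim, fun j => j.elim, summable_empty, fun a _ x _ => by simp,
    fun x _ h _ => by rw [← h]; simp⟩

theorem carried_join (hA : IsMasaIn M A) {p q : H →L[ℂ] H} (hp : p ∈ A)
    (hpp : IsStarProjection p) (hq : q ∈ A) (hqp : IsStarProjection q) (h1 : Carried M A p)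
    (h2 : Carried M A q) : Carried M A (p + (1 - p) * q) := by
  obtain ⟨J, ξ, hξ, hs, hc, hsep⟩ := h1
  obtain ⟨J', η, hη, hs', hc', hsep'⟩ := h2
  set r := 1 - p with hr
  have hrA : r ∈ A := sub_mem (one_mem A) hp
  have hrM : r ∈ M := hA.1 r hrA
  have hrp : IsStarProjection r := hpp.one_sub
  have hcm : r * q = q * r := masa_comm hA hrA hq
  have hp' : IsStarProjection (r * q) := hrp.mul hqp hcm
  have hpo : p * (r * q) = 0 := by rw [← mul_assoc, hpp.mul_one_sub_self, zero_mul]
  set P := p + r * q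
  have hsr : Summable fun j => ‖r (η j)‖ ^ 2 :=
    hs'.of_nonneg_of_le (fun j => sq_nonneg _)
      fun j => pow_le_pow_left₀ (norm_nonneg _) (norm_proj_apply_le hrp _) 2
  have hfix1 : ∀ j, P (ξ j) = ξ j := fun j => by
    change p (ξ j) + (r * q) (ξ j) = ξ j
    rw [hξ, hcm, ← hξ j]
    change _ + q ((r * p) (ξ j)) = _
    rw [hpp.one_sub_mul_self, zero_apply, map_zero, add_zero]
  have hfix2 : ∀ j, P (r (η j)) = r (η j) := fun j => by
    change (p * r) (η j) + r (q (r (η j))) = r (η j)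
    rw [hpp.mul_one_sub_self, zero_apply, zero_add]
    change r ((q * r) (η j)) = _
    rw [← hcm, mul_apply_eq_comp, hη, proj_idem_apply hrp]
  refine ⟨J ⊕ J', Sum.elim ξ fun j => r (η j), ?_, ?_, fun a ha x hx => ?_, fun x hx hxf h0 => ?_⟩
  · rintro (j | j)
    exacts [hfix1 j, hfix2 j]
  · exact (HasSum.sum (f := fun i => ‖Sum.elim ξ (fun j => r (η j)) i‖ ^ 2)
      (a := ∑' j, ‖ξ j‖ ^ 2) (b := ∑' j, ‖r (η j)‖ ^ 2) hs.hasSum hsr.hasSum).summable
  · have hval : ∀ y : H →L[ℂ] H, ∑' j, ⟪Sum.elim ξ (fun j => r (η j)) j,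
        y (Sum.elim ξ (fun j => r (η j)) j)⟫_ℂ =
        ∑' j, ⟪ξ j, y (ξ j)⟫_ℂ + ∑' j, ⟪η j, (r * y * r) (η j)⟫_ℂ := fun y => by
      have e : ∀ j, ⟪r (η j), y (r (η j))⟫_ℂ = ⟪η j, (r * y * r) (η j)⟫_ℂ := fun j => by
        rw [inner_sa hrp.isSelfAdjoint]
        rfl
      refine (HasSum.sum (f := fun j => ⟪Sum.elim ξ (fun j => r (η j)) j,
        y (Sum.elim ξ (fun j => r (η j)) j)⟫_ℂ) (summable_inner_of_sq hs y).hasSum ?_).tsum_eq
      simp only [Function.comp_def, Sum.elim_inr, e]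
      exact (summable_inner_of_sq hs' _).hasSum
    rw [hval, hval, hc a ha x hx]
    congr 1
    have e1 : r * (a * x) * r = a * (r * x * r) := by
      rw [← mul_assoc r, masa_comm hA hrA ha]
      simp only [mul_assoc]
    have e2 : r * (x * a) * r = r * x * r * a := by
      rw [mul_assoc r (x * a), mul_assoc x, masa_comm hA ha hrA]
      simp only [mul_assoc]
    rw [e1, e2]
    exact hc' a ha _ (mul_mem (mul_mem hrM hx) hrM)
  · have hPp : IsStarProjection P := hpp.add hp' hpo
    have hxP : x * P = x := by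
      conv_lhs => rw [← hxf]
      rw [mul_assoc (P * x), hPp.isIdempotentElem.eq, hxf]
    have kill : ∀ (c : H →L[ℂ] H), c ∈ M → IsStarProjection c →
        (∀ Y ∈ M, c * Y * c = Y → star (x * c) * (x * c) = Y → Y = 0) → x * c = 0 := by
      intro c hcM hcp h
      refine CStarRing.star_mul_self_eq_zero_iff _ |>.1 (h _
        (mul_mem (star_mem (mul_mem hx hcM)) (mul_mem hx hcM)) ?_ rfl)
      simp only [star_mul, hcp.isSelfAdjoint.star_eq, mul_assoc, hcp.isIdempotentElem.eq]
      rw [← mul_assoc c c, hcp.isIdempotentElem.eq]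
    have h1' : x * p = 0 := kill p (hA.1 p hp) hpp fun Y hY hYf e => hsep Y hY hYf fun j => by
      rw [← e, mul_apply_eq_comp, mul_apply_eq_comp, hξ,
        show x (ξ j) = 0 from h0 (Sum.inl j), map_zero]
    have h2' : x * (r * q) = 0 := kill _ (hA.1 _ (mul_mem hrA hq)) hp' fun Y hY hYf e =>
      hsep' Y hY (by
        rw [← hYf]
        have l : q * (r * q) = r * q := by
          rw [hcm, ← mul_assoc, hqp.isIdempotentElem.eq]
        have l' : r * q * q = r * q := by rw [mul_assoc, hqp.isIdempotentElem.eq]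
        calc q * (r * q * Y * (r * q)) * q = (q * (r * q)) * Y * ((r * q) * q) := by
              simp only [mul_assoc]
          _ = _ := by rw [l, l']) fun j => by
        rw [← e, mul_apply_eq_comp, mul_apply_eq_comp, mul_apply_eq_comp, hη,
          show x (r (η j)) = 0 from h0 (Sum.inr j), map_zero]
    rw [← hxP, mul_add, h1', h2', add_zero]

/-- A positive normal central functional is carried by a projection of `A`. -/
theorem exists_support (hA : IsMasaIn M A) (Λ : NormalPos M)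
    (hc : ∀ a ∈ A, IsStarProjection a → ∀ x ∈ M, Λ.L (a * x) = Λ.L (x * a)) :
    ∃ P ∈ A, IsStarProjection P ∧ Carried M A P ∧
      ∀ y ∈ M, y * P = 0 → Λ.L (star y * y) = 0 := by
  obtain ⟨J, ξ, hs, hrep⟩ := Λ.exists_repr
  set K0 : Submodule ℂ H := Submodule.span ℂ {v | ∃ t ∈ M.commutant, ∃ j, t (ξ j) = v}
  set K := K0.topologicalClosure
  have : CompleteSpace K := K0.isClosed_topologicalClosure.completeSpace_coe
  set P := K.starProjection
  have hinvK : ∀ S : H →L[ℂ] H, (∀ v ∈ K0, S v ∈ K) → ∀ v ∈ K, S v ∈ K := by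
    intro S hS v hv
    have hsub : K0 ≤ Submodule.comap (S : H →ₗ[ℂ] H) K := fun w hw => hS w hw
    exact K0.topologicalClosure_minimal hsub
      (K0.isClosed_topologicalClosure.preimage S.continuous) hv
  have hcomm : ∀ S : H →L[ℂ] H, (∀ v ∈ K, S v ∈ K) → (∀ v ∈ K, star S v ∈ K) → S * P = P * S := by
    intro S h1 h2
    ext v
    change S (P v) = P (S v)
    symm
    refine Submodule.eq_starProjection_of_mem_orthogonal (h1 _ (K.starProjection_apply_mem v)) ?_
    rw [Submodule.mem_orthogonal']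
    intro w hw
    rw [← map_sub, ← ContinuousLinearMap.adjoint_inner_right, ← ContinuousLinearMap.star_eq_adjoint]
    exact Submodule.starProjection_inner_eq_zero v _ (h2 w hw)
  have hmemK : ∀ t ∈ M.commutant, ∀ j, t (ξ j) ∈ K := fun t ht j =>
    K0.le_topologicalClosure (Submodule.subset_span ⟨t, ht, j, rfl⟩)
  have hξK : ∀ j, ξ j ∈ K := fun j => hmemK 1 (one_mem _) j
  have hM' : ∀ s ∈ M.commutant, ∀ v ∈ K, s v ∈ K := fun s hs' => hinvK s fun v hv => by
    induction hv using Submodule.span_induction with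
    | mem w hw =>
      obtain ⟨t, ht, j, rfl⟩ := hw
      exact hmemK (s * t) (mul_mem hs' ht) j
    | zero => simp
    | add a b _ _ ha hb => rw [map_add]; exact K.add_mem ha hb
    | smul c a _ ha => rw [map_smul]; exact K.smul_mem c ha
  have hPM : P ∈ M := mem_of_comm fun s hs' => hcomm s (hM' s hs') (hM' _ (star_mem hs'))
  have hPp : IsStarProjection P := isStarProjection_starProjection
  have hfix : ∀ j, P (ξ j) = ξ j := fun j => Submodule.starProjection_eq_self_iff.2 (hξK j)
  have hq : ∀ y ∈ M, Λ.q y = ∑' j, ‖y (ξ j)‖ ^ 2 := fun y hy => by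
    have h := Complex.hasSum_re (hrep _ (mul_mem (star_mem hy) hy))
    refine (h.tsum_eq.symm.trans (tsum_congr fun j => ?_))
    rw [inner_star_mul]
    exact inner_self_eq_norm_sq (𝕜 := ℂ) (y (ξ j))
  have hsumy : ∀ y : H →L[ℂ] H, Summable fun j => ‖y (ξ j)‖ ^ 2 := fun y =>
    (hs.mul_left (‖y‖ ^ 2)).of_nonneg_of_le (fun j => sq_nonneg _) fun j => by
      rw [← mul_pow]
      exact pow_le_pow_left₀ (norm_nonneg _) (y.le_opNorm _) 2
  have hzero : ∀ y ∈ M, y * P = 0 → ∀ j, y (ξ j) = 0 := fun y _ hyP j => by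
    rw [← hfix j]
    exact congrArg (fun T : H →L[ℂ] H => T (ξ j)) hyP
  have hPA : P ∈ A := by
    refine (hA.2 P hPM).2 (comm_of_comm_proj hA fun p hp hpp => ?_)
    set u := (2 : ℂ) • p - 1 with hu
    obtain ⟨hu1, hu2⟩ := PinchForm.sym_spec hpp
    have hpM := hA.1 p hp
    have huM : u ∈ M := sub_mem (M.smul_mem hpM _) (one_mem M)
    have hR : IsStarProjection (1 - P) := hPp.one_sub
    have hRM : 1 - P ∈ M := sub_mem (one_mem M) hPM
    have hcu : ∀ X ∈ M, Λ.L (u * X) = Λ.L (X * u) := fun X hX => by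
      rw [hu, sub_mul, mul_sub, map_sub, map_sub, smul_mul_assoc, mul_smul_comm, map_smul, map_smul,
        hc p hp hpp X hX, one_mul, mul_one]
    have h0 : Λ.q ((1 - P) * u) = 0 := by
      have e : star ((1 - P) * u) * ((1 - P) * u) = u * ((1 - P) * u) := by
        rw [star_mul, hu1, hR.isSelfAdjoint.star_eq, mul_assoc, ← mul_assoc (1 - P),
          hR.isIdempotentElem.eq]
      rw [NormalPos.q, e, hcu _ (mul_mem hRM huM), mul_assoc, hu2, mul_one, ← Λ.q_proj hR,
        hq _ hRM]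
      simp only [hzero _ hRM hPp.one_sub_mul_self, norm_zero,
        zero_pow two_ne_zero, tsum_zero]
    rw [hq _ (mul_mem hRM huM)] at h0
    have hju : ∀ j, u (ξ j) ∈ K := by
      intro j
      have h1 : ‖((1 - P) * u) (ξ j)‖ ^ 2 = 0 := le_antisymm
        (h0 ▸ (hsumy ((1 - P) * u)).le_tsum j fun i _ => sq_nonneg _) (sq_nonneg _)
      rw [pow_eq_zero_iff two_ne_zero, norm_eq_zero] at h1
      change u (ξ j) - P (u (ξ j)) = 0 at h1
      rw [sub_eq_zero] at h1
      exact h1 ▸ K.starProjection_apply_mem _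
    have huK : ∀ v ∈ K, u v ∈ K := hinvK u fun v hv => by
      induction hv using Submodule.span_induction with
      | mem w hw =>
        obtain ⟨t, ht, j, rfl⟩ := hw
        change (u * t) (ξ j) ∈ K
        rw [VonNeumannAlgebra.mem_commutant_iff.1 ht u huM]
        exact hM' t ht _ (hju j)
      | zero => simp
      | add a b _ _ ha hb => rw [map_add]; exact K.add_mem ha hb
      | smul c a _ ha => rw [map_smul]; exact K.smul_mem c ha
    have hcm := hcomm u huK (by rw [hu1]; exact huK)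
    rw [hu, sub_mul, mul_sub, smul_mul_assoc, mul_smul_comm, one_mul, mul_one, sub_left_inj] at hcm
    exact ((smul_right_inj (show (2 : ℂ) ≠ 0 by norm_num)).1 hcm).symm
  have hK' : ∀ T ∈ M, ‖Λ.L T‖ ≤ (∑' j, ‖ξ j‖ ^ 2) * ‖T‖ := fun T hT => by
    refine le_of_tendsto (hrep T hT).norm (Eventually.of_forall fun s => ?_)
    refine (norm_sum_le _ _).trans (le_trans ?_ (mul_le_mul_of_nonneg_right
      (hs.sum_le_tsum s fun i _ => sq_nonneg _) (norm_nonneg T)))
    rw [Finset.sum_mul]
    refine Finset.sum_le_sum fun j _ => (norm_inner_le_norm _ _).trans ?_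
    refine (mul_le_mul_of_nonneg_left (T.le_opNorm _) (norm_nonneg _)).trans (le_of_eq ?_)
    ring
  refine ⟨P, hPA, hPp, ⟨J, ξ, hfix, hs, fun a ha x hx => ?_, fun x hx hxf h0 => ?_⟩,
    fun y hy hyP => ?_⟩
  · rw [(hrep _ (mul_mem (hA.1 a ha) hx)).tsum_eq, (hrep _ (mul_mem hx (hA.1 a ha))).tsum_eq]
    exact central_all hA hK' hc ha hx
  · have hxP : x * P = 0 := by
      ext v
      have hsub : K ≤ LinearMap.ker (x : H →ₗ[ℂ] H) :=
        K0.topologicalClosure_minimal (Submodule.span_le.2 (by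
          rintro w ⟨t, ht, j, rfl⟩
          change (x * t) (ξ j) = 0
          rw [VonNeumannAlgebra.mem_commutant_iff.1 ht x hx]
          change t (x (ξ j)) = 0
          rw [h0 j, map_zero])) x.isClosed_ker
      exact hsub (K.starProjection_apply_mem v)
    rw [← hxf, mul_assoc, hxP, mul_zero]
  · rw [Λ.L_star_mul hy, hq y hy]
    simp [hzero y hy hyP]

/-- Vectors approached by carried projections. -/
def carriedVectors (hA : IsMasaIn M A) : Submodule ℂ H where
  carrier := {v | ∀ δ : ℝ, 0 < δ → ∃ p ∈ A, IsStarProjection p ∧ Carried M A p ∧ ‖(1 - p) v‖ < δ}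
  zero_mem' := fun δ hδ => ⟨0, zero_mem A, IsStarProjection.zero _, carried_zero M A,
    by simpa using hδ⟩
  add_mem' := by
    intro v w hv hw δ hδ
    obtain ⟨p, hp, hpp, hpf, hpv⟩ := hv (δ / 2) (half_pos hδ)
    obtain ⟨q, hq, hqp, hqf, hqw⟩ := hw (δ / 2) (half_pos hδ)
    obtain ⟨h1, h2, h3, h4, -⟩ := join_spec (ξ := fun _ : PUnit.{u+1} => (0 : H)) hA hp hpp hq hqp
    refine ⟨_, h1, h2, carried_join hA hp hpp hq hqp hpf hqf, ?_⟩
    rw [map_add]
    refine (norm_add_le _ _).trans_lt ?_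
    linarith [h3 v, h4 w]
  smul_mem' := by
    intro c v hv δ hδ
    obtain ⟨p, hp, hpp, hpf, hpv⟩ := hv (δ / (‖c‖ + 1)) (by positivity)
    refine ⟨p, hp, hpp, hpf, ?_⟩
    rw [map_smul, norm_smul]
    rw [lt_div_iff₀ (by positivity)] at hpv
    nlinarith [norm_nonneg ((1 - p) v)]

theorem carriedVectors_map (hA : IsMasaIn M A) {S : H →L[ℂ] H} (hS : ∀ p ∈ A, S * p = p * S)
    {v : H} (hv : v ∈ carriedVectors hA) : S v ∈ carriedVectors hA := by
  intro δ hδ
  obtain ⟨p, hp, hpp, hpf, hpv⟩ := hv (δ / (‖S‖ + 1)) (by positivity)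
  refine ⟨p, hp, hpp, hpf, ?_⟩
  have e : (1 - p) (S v) = S ((1 - p) v) := by
    change ((1 - p) * S) v = (S * (1 - p)) v
    rw [sub_mul, mul_sub, hS p hp, one_mul, mul_one]
  rw [e]
  refine (S.le_opNorm _).trans_lt ?_
  rw [lt_div_iff₀ (by positivity)] at hpv
  nlinarith [norm_nonneg ((1 - p) v)]

theorem exists_carried_part (hA : IsMasaIn M A) :
    ∃ p0 ∈ A, IsStarProjection p0 ∧
      (∀ p ∈ A, IsStarProjection p → Carried M A p → p0 * p = p) ∧
      ∀ (F : Finset H) (δ : ℝ), 0 < δ → ∃ p ∈ A, IsStarProjection p ∧ Carried M A p ∧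
        ∀ v ∈ F, ‖(p0 - p) v‖ < δ := by
  classical
  set K := carriedVectors hA
  have hclosed : IsClosed (K : Set H) := by
    refine isClosed_of_closure_subset fun v hv δ hδ => ?_
    obtain ⟨w, hw, hd⟩ := Metric.mem_closure_iff.1 hv (δ / 2) (half_pos hδ)
    obtain ⟨p, hp, hpp, hpf, hpw⟩ := hw (δ / 2) (half_pos hδ)
    refine ⟨p, hp, hpp, hpf, ?_⟩
    have e : (1 - p) v = (1 - p) (v - w) + (1 - p) w := by rw [map_sub]; abel
    rw [e]
    refine (norm_add_le _ _).trans_lt ?_
    rw [dist_eq_norm] at hd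
    linarith [norm_proj_apply_le hpp.one_sub (v - w)]
  have : CompleteSpace K := hclosed.completeSpace_coe
  have hcomm : ∀ S : H →L[ℂ] H, (∀ p ∈ A, S * p = p * S) →
      (∀ p ∈ A, star S * p = p * star S) → S * K.starProjection = K.starProjection * S := by
    intro S h1 h2
    ext v
    change S (K.starProjection v) = K.starProjection (S v)
    symm
    refine Submodule.eq_starProjection_of_mem_orthogonal
      (carriedVectors_map hA h1 (K.starProjection_apply_mem v)) ?_
    rw [Submodule.mem_orthogonal']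
    intro w hw
    rw [← map_sub, ← ContinuousLinearMap.adjoint_inner_right, ← ContinuousLinearMap.star_eq_adjoint]
    exact Submodule.starProjection_inner_eq_zero v _ (carriedVectors_map hA h2 hw)
  have hM : K.starProjection ∈ M := mem_of_comm fun s hs => hcomm s
    (fun p hp => (VonNeumannAlgebra.mem_commutant_iff.1 hs p (hA.1 p hp)).symm)
    (fun p hp => (VonNeumannAlgebra.mem_commutant_iff.1 (star_mem hs) p (hA.1 p hp)).symm)
  have hA0 : K.starProjection ∈ A := (hA.2 _ hM).2 fun a ha => (hcomm a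
    (fun p hp => masa_comm hA ha hp) (fun p hp => masa_comm hA (star_mem ha) hp)).symm
  have habs : ∀ p ∈ A, IsStarProjection p → Carried M A p → K.starProjection * p = p := by
    intro p hp hpp hpf
    ext v
    refine Submodule.starProjection_eq_self_iff.2 fun δ hδ => ⟨p, hp, hpp, hpf, ?_⟩
    change ‖p v - p (p v)‖ < δ
    rw [proj_idem_apply hpp, sub_self, norm_zero]
    exact hδ
  refine ⟨_, hA0, isStarProjection_starProjection, habs, fun F δ hδ => ?_⟩
  induction F using Finset.induction with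
  | empty => exact ⟨0, zero_mem A, IsStarProjection.zero _, carried_zero M A, by simp⟩
  | @insert v F _ ih =>
    obtain ⟨p, hp, hpp, hpf, hpF⟩ := ih
    obtain ⟨q, hq, hqp, hqf, hqv⟩ := (K.starProjection_apply_mem v) δ hδ
    obtain ⟨h1, h2, h3, h4, -⟩ := join_spec (ξ := fun _ : PUnit.{u+1} => (0 : H)) hA hp hpp hq hqp
    have h5 := carried_join hA hp hpp hq hqp hpf hqf
    refine ⟨_, h1, h2, h5, fun w hw => ?_⟩
    have e : ∀ r ∈ A, IsStarProjection r → Carried M A r →
        (K.starProjection - r) w = (1 - r) (K.starProjection w) := by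
      intro r hr hrp hrf
      change _ = ((1 - r) * K.starProjection) w
      rw [sub_mul, one_mul, masa_comm hA hr hA0, habs r hr hrp hrf]
    rw [e _ h1 h2 h5]
    rcases Finset.mem_insert.1 hw with rfl | hw'
    · exact (h4 _).trans_lt hqv
    · refine (h3 _).trans_lt ?_
      rw [← e p hp hpp hpf]
      exact hpF w hw'

/-- A carried projection gives a corner with vectors indexed by the natural numbers. -/
theorem exists_stateCorner (hA : IsMasaIn M A) {p : H →L[ℂ] H} (hp : p ∈ A)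
    (hpp : IsStarProjection p) (h : Carried M A p) : ∃ D : StateCorner M A, D.p = p := by
  classical
  obtain ⟨J, ξ, hξ, hs, hc, hsep⟩ := h
  set S : Set J := {j | ξ j ≠ 0} with hS
  have hS' : S.Countable := by
    refine hs.countable_support.mono fun j hj => ?_
    simpa [hS] using hj
  have : Countable S := hS'.to_subtype
  obtain ⟨f, hf⟩ := exists_injective_nat S
  set ζ : ℕ → H := Function.extend f (fun j => ξ j) 0 with hζ
  have hζf : ∀ j, ζ (f j) = ξ j := fun j => hf.extend_apply _ _ j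
  have hζ0 : ∀ n, n ∉ Set.range f → ζ n = 0 := fun n hn =>
    Function.extend_apply' _ _ _ (fun ⟨a, ha⟩ => hn ⟨a, ha⟩)
  have reidx : ∀ {x : H →L[ℂ] H}, ∑' n, ⟪ζ n, x (ζ n)⟫_ℂ = ∑' j, ⟪ξ j, x (ξ j)⟫_ℂ := by
    intro x
    rw [← hf.tsum_eq (f := fun n => ⟪ζ n, x (ζ n)⟫_ℂ) (fun n hn => by
      by_contra hnr
      exact hn (by simp [hζ0 n hnr]))]
    simp only [hζf]
    refine (tsum_subtype_eq_of_support_subset (f := fun j => ⟪ξ j, x (ξ j)⟫_ℂ) ?_)
    intro j hj
    by_contra hjS
    simp [hS] at hjS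
    exact hj (by simp [hjS])
  refine ⟨⟨p, hp, hpp, hA, ζ, fun n => ?_, ?_, fun a ha x hx => ?_, fun x hx hxf h0 => ?_⟩, rfl⟩
  · by_cases hn : n ∈ Set.range f
    · obtain ⟨j, rfl⟩ := hn
      rw [hζf, hξ]
    · rw [hζ0 n hn, map_zero]
  · rw [← hf.summable_iff (f := fun n => ‖ζ n‖ ^ 2) (fun n hn => by simp [hζ0 n hn])]
    simp only [Function.comp_def, hζf]
    exact hs.subtype _
  · rw [reidx, reidx]
    exact hc a ha x hx
  · refine hsep x hx hxf fun j => ?_
    by_cases hj : j ∈ S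
    · rw [← hζf ⟨j, hj⟩]
      exact h0 _
    · simp [hS] at hj
      rw [hj, map_zero]

/-- Every maximal abelian subalgebra splits into corners with faithful normal central functionals
and a part without normal central functionals, which is approached by projections with small
pinchings. -/
theorem exists_central_split (hA : IsMasaIn M A) :
    ∃ z ∈ A, IsStarProjection z ∧ NoNormalCentral M A z ∧ SingularApprox M A z ∧
      ∀ (F : Finset H) (δ : ℝ), 0 < δ →
        ∃ D : StateCorner M A, D.p * z = 0 ∧ ∀ v ∈ F, ‖(1 - D.p - z) v‖ < δ := by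
  obtain ⟨p0, hp0, hp0p, hp0f, hp0d⟩ := exists_carried_part hA
  set z : H →L[ℂ] H := 1 - p0 with hz
  have hzA : z ∈ A := sub_mem (one_mem A) hp0
  have hzp : IsStarProjection z := hp0p.one_sub
  have hN : NoNormalCentral M A z := fun L hpos hc hn => by
    obtain ⟨P, hPA, hPp, hPc, hP⟩ := exists_support hA ⟨L, hpos, hn⟩ hc
    have h0 : z * P = 0 := by rw [hz, sub_mul, one_mul, hp0f P hPA hPp hPc, sub_self]
    have h1 := hP z (hA.1 z hzA) h0
    rwa [hzp.isSelfAdjoint.star_eq, hzp.isIdempotentElem.eq] at h1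
  refine ⟨z, hzA, hzp, hN, singularApprox_of_noNormalCentral hA hzA hzp hN, fun F δ hδ => ?_⟩
  obtain ⟨p, hp, hpp, hpf, hpF⟩ := hp0d F δ hδ
  obtain ⟨D, hD⟩ := exists_stateCorner hA hp hpp hpf
  refine ⟨D, ?_, fun v hv => ?_⟩
  · rw [hD, hz, mul_sub, mul_one, masa_comm hA hp hp0, hp0f p hp hpp hpf, sub_self]
  · rw [hD, hz, show (1 : H →L[ℂ] H) - p - (1 - p0) = p0 - p by abel]
    exact hpF v hv

end Vale.Agent.P078.General
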