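import Vale.Agent.P078.General.Tools

/-!
Strong sums of orthogonal projections of a von Neumann algebra.
-/

noncomputable section

open scoped InnerProductSpace
open Filter Vale.Agent.P078.Finite

namespace Vale.Agent.P078.General

universe u

variable {H : Type u} [NormedAddCommGroup H] [InnerProductSpace ℂ H] [CompleteSpace H]

theorem sum_proj_spec {ι : Type*} {e : ι → H →L[ℂ] H} (he : ∀ i, IsStarProjection (e i))
    (ho : ∀ i j, i ≠ j → e i * e j = 0) (s : Finset ι) :
    IsStarProjection (∑ i ∈ s, e i) ∧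
      ∀ v, ‖(∑ i ∈ s, e i) v‖ ^ 2 = ∑ i ∈ s, ‖e i v‖ ^ 2 := by
  classical
  have hp : IsStarProjection (∑ i ∈ s, e i) := by
    induction s using Finset.induction_on with
    | empty => simp [IsStarProjection.zero]
    | @insert k s hk ih =>
      rw [Finset.sum_insert hk]
      refine (he k).add ih ?_
      rw [Finset.mul_sum]
      exact Finset.sum_eq_zero fun l hl => ho k l fun h => hk (h ▸ hl)
  refine ⟨hp, fun v => ?_⟩
  rw [sq_norm_proj' hp, sum_apply, inner_sum, Complex.re_sum]
  exact Finset.sum_congr rfl fun i _ => (sq_norm_proj' (he i) v).symm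

theorem sum_mul_of_mem {ι : Type*} {e : ι → H →L[ℂ] H} (he : ∀ i, IsStarProjection (e i))
    (ho : ∀ i j, i ≠ j → e i * e j = 0) {s : Finset ι} {i : ι} (hi : i ∈ s) :
    e i * ∑ j ∈ s, e j = e i := by
  rw [Finset.mul_sum, Finset.sum_eq_single i (fun j _ hj => ho i j hj.symm)
    (fun h => absurd hi h), (he i).isIdempotentElem.eq]

/-- Bessel: an orthogonal family of projections is strongly summable. -/
theorem summable_orth {ι : Type*} {e : ι → H →L[ℂ] H} (he : ∀ i, IsStarProjection (e i))
    (ho : ∀ i j, i ≠ j → e i * e j = 0) (v : H) : Summable fun i => e i v := by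
  have hs : Summable fun i => ‖e i v‖ ^ 2 := by
    refine summable_of_sum_le (c := ‖v‖ ^ 2) (fun i => sq_nonneg _) fun s => ?_
    rw [← (sum_proj_spec he ho s).2 v]
    exact pow_le_pow_left₀ (norm_nonneg _) (norm_proj_apply_le (sum_proj_spec he ho s).1 v) 2
  refine summable_iff_vanishing_norm.2 fun ε hε => ?_
  obtain ⟨s, hs'⟩ := summable_iff_vanishing_norm.1 hs (ε ^ 2) (by positivity)
  refine ⟨s, fun t ht => ?_⟩
  have h := hs' t ht
  rw [Real.norm_of_nonneg (Finset.sum_nonneg fun i _ => sq_nonneg _),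
    ← (sum_proj_spec he ho t).2 v, sum_apply] at h
  exact (pow_lt_pow_iff_left₀ (norm_nonneg _) hε.le two_ne_zero).1 h

/-- The strong sum of an orthogonal family of projections of `M`. -/
theorem exists_orth_sum {ι : Type*} (M : VonNeumannAlgebra H) {e : ι → H →L[ℂ] H}
    (heM : ∀ i, e i ∈ M) (he : ∀ i, IsStarProjection (e i))
    (ho : ∀ i j, i ≠ j → e i * e j = 0) :
    ∃ P ∈ M, IsStarProjection P ∧ (∀ v, HasSum (fun i => e i v) (P v)) ∧
      (∀ i, e i * P = e i) ∧ ∀ f : H →L[ℂ] H, (∀ i, f * e i = e i) → f * P = P := by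
  have hs := summable_orth he ho
  let P0 : H →ₗ[ℂ] H :=
    { toFun := fun v => ∑' i, e i v
      map_add' := fun v w => by simp only [map_add, (hs v).tsum_add (hs w)]
      map_smul' := fun c v => by simp only [map_smul, RingHom.id_apply, (hs v).tsum_const_smul c] }
  have hb : ∀ v, ‖P0 v‖ ≤ 1 * ‖v‖ := fun v => by
    rw [one_mul]
    refine le_of_tendsto ((hs v).hasSum.norm) (Eventually.of_forall fun s => ?_)
    rw [← sum_apply]
    exact norm_proj_apply_le (sum_proj_spec he ho s).1 v
  let P : H →L[ℂ] H := P0.mkContinuous 1 hb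
  have hP : ∀ v, HasSum (fun i => e i v) (P v) := fun v => (hs v).hasSum
  have heP : ∀ i, e i * P = e i := fun i => by
    ext v
    refine tendsto_nhds_unique (((e i).continuous.tendsto _).comp (hP v)) ?_
    refine tendsto_const_nhds.congr' ?_
    filter_upwards [eventually_ge_atTop {i}] with s hsi
    rw [Function.comp_apply, ← sum_apply]
    change e i v = (e i * ∑ j ∈ s, e j) v
    rw [sum_mul_of_mem he ho (hsi (Finset.mem_singleton_self i))]
  have hsa : IsSelfAdjoint P := by
    refine LinearMap.IsSymmetric.isSelfAdjoint fun v w => ?_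
    change ⟪P v, w⟫_ℂ = ⟪v, P w⟫_ℂ
    refine tendsto_nhds_unique ((hP v).inner tendsto_const_nhds) ?_
    refine (tendsto_const_nhds.inner (hP w)).congr fun s => ?_
    rw [← sum_apply, ← sum_apply]
    exact (inner_sa (sum_proj_spec he ho s).1.isSelfAdjoint v w).symm
  have hfix : ∀ f : H →L[ℂ] H, (∀ i, f * e i = e i) → f * P = P := fun f hf => by
    ext v
    refine tendsto_nhds_unique ((f.continuous.tendsto _).comp (hP v)) ((hP v).congr fun s => ?_)
    rw [Function.comp_apply, map_sum]
    exact Finset.sum_congr rfl fun i _ => congrArg (fun T : H →L[ℂ] H => T v) (hf i).symm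
  have hidem : P * P = P := by
    ext v
    refine HasSum.unique (hP (P v)) ((hP v).congr_fun fun i => ?_)
    exact congrArg (fun T : H →L[ℂ] H => T v) (heP i)
  refine ⟨P, mem_of_comm fun S hS => ?_, ⟨hidem, hsa⟩, hP, heP, hfix⟩
  ext v
  refine tendsto_nhds_unique ((S.continuous.tendsto _).comp (hP v)) ((hP (S v)).congr fun s => ?_)
  rw [Function.comp_apply, map_sum]
  refine Finset.sum_congr rfl fun i _ => ?_
  exact congrArg (fun T : H →L[ℂ] H => T v) (VonNeumannAlgebra.mem_commutant_iff.1 hS _ (heM i))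

end Vale.Agent.P078.General
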