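import Vale.Agent.P078.General.Cluster

/-!
A limit of pinched vector functionals: a positive functional centralised by `A`.
-/

noncomputable section

open scoped InnerProductSpace
open Filter Vale.Agent.P078.Finite

namespace Vale.Agent.P078.General

universe u

variable {H : Type u} [NormedAddCommGroup H] [InnerProductSpace ℂ H] [CompleteSpace H]

/-- Data of a weak limit of pinched vector functionals. -/
structure PinchForm (M : VonNeumannAlgebra H) (A : StarSubalgebra ℂ (H →L[ℂ] H))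
    (z : H →L[ℂ] H) where
  F : Finset H
  U : Ultrafilter (Cells A)
  hU : (U : Filter (Cells A)) ≤ atTop
  hA : IsMasaIn M A
  hz : z ∈ A
  hzp : IsStarProjection z

namespace PinchForm

variable {M : VonNeumannAlgebra H} {A : StarSubalgebra ℂ (H →L[ℂ] H)} {z : H →L[ℂ] H}
variable (Φ : PinchForm M A z)

/-- The index set of the pinched vectors. -/
def idx (s : Cells A) : Finset (H × Fin s.n) := Φ.F ×ˢ Finset.univ

/-- The pinched vectors. -/
def vec (s : Cells A) (a : H × Fin s.n) : H := s.c a.2 (z a.1)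

/-- Total mass. -/
def mass : ℝ := ∑ v ∈ Φ.F, ‖z v‖ ^ 2

theorem sum_vec_sq (s : Cells A) : ∑ a ∈ Φ.idx s, ‖vec (z := z) s a‖ ^ 2 = Φ.mass := by
  rw [idx, Finset.sum_product, mass]
  exact Finset.sum_congr rfl fun v _ => s.sum_sq (z v)

theorem mass_nonneg : 0 ≤ Φ.mass := Finset.sum_nonneg fun _ _ => sq_nonneg _

/-- The pinched functional. -/
def lf (s : Cells A) (x : H →L[ℂ] H) : ℂ :=
  ∑ a ∈ Φ.idx s, ⟪vec (z := z) s a, x (vec (z := z) s a)⟫_ℂ

/-- The pinched quadratic form. -/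
def qf (s : Cells A) (y : H →L[ℂ] H) : ℝ := ∑ a ∈ Φ.idx s, ‖y (vec (z := z) s a)‖ ^ 2

theorem norm_lf_le (s : Cells A) (x : H →L[ℂ] H) : ‖Φ.lf s x‖ ≤ ‖x‖ * Φ.mass := by
  rw [← Φ.sum_vec_sq s, Finset.mul_sum]
  refine (norm_sum_le _ _).trans (Finset.sum_le_sum fun a _ => (norm_inner_le_norm _ _).trans ?_)
  refine (mul_le_mul_of_nonneg_left (x.le_opNorm _) (norm_nonneg _)).trans (le_of_eq ?_)
  ring

theorem lf_star_mul (s : Cells A) (y : H →L[ℂ] H) : Φ.lf s (star y * y) = (Φ.qf s y : ℂ) := by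
  rw [lf, qf, Complex.ofReal_sum]
  refine Finset.sum_congr rfl fun a _ => ?_
  rw [mul_apply_eq_comp, ContinuousLinearMap.star_eq_adjoint,
    ContinuousLinearMap.adjoint_inner_right, inner_self_eq_norm_sq_to_K]
  norm_num

theorem exists_lim (x : H →L[ℂ] H) : ∃ l, Tendsto (fun s => Φ.lf s x) Φ.U (nhds l) := by
  obtain ⟨l, -, hl⟩ := (isCompact_closedBall (0 : ℂ) (‖x‖ * Φ.mass)).ultrafilter_le_nhds
    (Φ.U.map fun s => Φ.lf s x) (le_principal_iff.2 (Filter.mem_map.2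
      (Filter.Eventually.of_forall fun (s : Cells A) => by simpa using Φ.norm_lf_le s x)))
  exact ⟨l, hl⟩

/-- The limit functional. -/
def ell : (H →L[ℂ] H) →ₗ[ℂ] ℂ where
  toFun x := (Φ.exists_lim x).choose
  map_add' x y := tendsto_nhds_unique (Φ.exists_lim (x + y)).choose_spec
    (((Φ.exists_lim x).choose_spec.add (Φ.exists_lim y).choose_spec).congr fun s => by
      simp [lf, inner_add_right, Finset.sum_add_distrib])
  map_smul' c x := tendsto_nhds_unique (Φ.exists_lim (c • x)).choose_spec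
    (((Φ.exists_lim x).choose_spec.const_mul c).congr fun s => by
      simp [lf, inner_smul_right, Finset.mul_sum])

theorem tendsto_lf (x : H →L[ℂ] H) : Tendsto (fun s => Φ.lf s x) Φ.U (nhds (Φ.ell x)) :=
  (Φ.exists_lim x).choose_spec

/-- The limit quadratic form. -/
def q (y : H →L[ℂ] H) : ℝ := (Φ.ell (star y * y)).re

theorem tendsto_qf (y : H →L[ℂ] H) : Tendsto (fun s => Φ.qf s y) Φ.U (nhds (Φ.q y)) :=
  ((Complex.continuous_re.tendsto _).comp (Φ.tendsto_lf (star y * y))).congr fun s => by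
    simp [lf_star_mul]

theorem ell_star_mul (y : H →L[ℂ] H) : Φ.ell (star y * y) = (Φ.q y : ℂ) :=
  tendsto_nhds_unique (Φ.tendsto_lf _)
    (((Complex.continuous_ofReal.tendsto _).comp (Φ.tendsto_qf y)).congr fun s =>
      (Φ.lf_star_mul s y).symm)

theorem ell_proj {e : H →L[ℂ] H} (he : IsStarProjection e) : Φ.ell e = (Φ.q e : ℂ) := by
  have h := Φ.ell_star_mul e
  rwa [he.isSelfAdjoint.star_eq, he.isIdempotentElem.eq] at h

theorem q_nonneg (y : H →L[ℂ] H) : 0 ≤ Φ.q y :=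
  ge_of_tendsto (Φ.tendsto_qf y)
    (Eventually.of_forall fun _ => Finset.sum_nonneg fun _ _ => sq_nonneg _)

theorem q_zero : Φ.q 0 = 0 :=
  tendsto_nhds_unique (Φ.tendsto_qf 0) (tendsto_const_nhds.congr fun s => by simp [qf])

theorem q_one : Φ.q 1 = Φ.mass :=
  tendsto_nhds_unique (Φ.tendsto_qf 1) (tendsto_const_nhds.congr fun s =>
    (Φ.sum_vec_sq s).symm.trans (Finset.sum_congr rfl fun a _ => by rw [one_apply_eq_self]))

theorem q_add_le (a b : H →L[ℂ] H) {t : ℝ} (ht : 0 < t) :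
    Φ.q (a + b) ≤ (1 + t) * Φ.q a + (1 + t⁻¹) * Φ.q b := by
  refine le_of_tendsto_of_tendsto (Φ.tendsto_qf (a + b))
    (((Φ.tendsto_qf a).const_mul (1 + t)).add ((Φ.tendsto_qf b).const_mul (1 + t⁻¹)))
    (Eventually.of_forall fun s => ?_)
  simp only [qf, Finset.mul_sum, ← Finset.sum_add_distrib]
  refine Finset.sum_le_sum fun i _ => ?_
  rw [add_apply]
  refine (pow_le_pow_left₀ (norm_nonneg _) (norm_add_le _ _) 2).trans ?_
  have h : 0 ≤ t⁻¹ * (t * ‖a (vec (z := z) s i)‖ - ‖b (vec (z := z) s i)‖) ^ 2 := by positivity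
  have h2 : t⁻¹ * (t * ‖a (vec (z := z) s i)‖ - ‖b (vec (z := z) s i)‖) ^ 2 =
      t * ‖a (vec (z := z) s i)‖ ^ 2 - 2 * ‖a (vec (z := z) s i)‖ * ‖b (vec (z := z) s i)‖ +
        t⁻¹ * ‖b (vec (z := z) s i)‖ ^ 2 := by
    field_simp
    ring
  nlinarith [h, h2]

theorem q_add_le_two (a b : H →L[ℂ] H) : Φ.q (a + b) ≤ 2 * Φ.q a + 2 * Φ.q b := by
  refine (Φ.q_add_le a b one_pos).trans (le_of_eq ?_)
  norm_num

theorem q_smul (c : ℂ) (a : H →L[ℂ] H) : Φ.q (c • a) = ‖c‖ ^ 2 * Φ.q a :=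
  tendsto_nhds_unique (Φ.tendsto_qf (c • a))
    (((Φ.tendsto_qf a).const_mul (‖c‖ ^ 2)).congr fun s => by
      simp [qf, Finset.mul_sum, norm_smul, mul_pow])

theorem q_parallelogram (a b : H →L[ℂ] H) :
    Φ.q (a + b) + Φ.q (a - b) = 2 * Φ.q a + 2 * Φ.q b :=
  tendsto_nhds_unique ((Φ.tendsto_qf (a + b)).add (Φ.tendsto_qf (a - b)))
    ((((Φ.tendsto_qf a).const_mul 2).add ((Φ.tendsto_qf b).const_mul 2)).congr fun s => by
      simp only [qf, Finset.mul_sum, ← Finset.sum_add_distrib]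
      refine Finset.sum_congr rfl fun i _ => ?_
      rw [add_apply, sub_apply]
      have h := parallelogram_law_with_norm ℂ (a (vec (z := z) s i)) (b (vec (z := z) s i))
      linarith)

theorem q_mul_le (x y : H →L[ℂ] H) : Φ.q (x * y) ≤ ‖x‖ ^ 2 * Φ.q y := by
  refine le_of_tendsto_of_tendsto (Φ.tendsto_qf _) ((Φ.tendsto_qf y).const_mul _)
    (Eventually.of_forall fun s => ?_)
  simp only [qf, Finset.mul_sum]
  refine Finset.sum_le_sum fun i _ => ?_
  rw [← mul_pow]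
  exact pow_le_pow_left₀ (norm_nonneg _) (x.le_opNorm _) 2

theorem q_proj_mul_le {R : H →L[ℂ] H} (hR : IsStarProjection R) (y : H →L[ℂ] H) :
    Φ.q (R * y) ≤ Φ.q y := by
  refine le_of_tendsto_of_tendsto (Φ.tendsto_qf _) (Φ.tendsto_qf y)
    (Eventually.of_forall fun s => Finset.sum_le_sum fun i _ => ?_)
  exact pow_le_pow_left₀ (norm_nonneg _) (norm_proj_apply_le hR _) 2

theorem q_orth_sum {ι : Type*} {e : ι → H →L[ℂ] H} (t : Finset ι)
    (h : ∀ v, ‖(∑ i ∈ t, e i) v‖ ^ 2 = ∑ i ∈ t, ‖e i v‖ ^ 2) :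
    Φ.q (∑ i ∈ t, e i) = ∑ i ∈ t, Φ.q (e i) :=
  tendsto_nhds_unique (Φ.tendsto_qf _)
    ((tendsto_finsetSum t fun i _ => Φ.tendsto_qf (e i)).congr fun s => by
      simp only [qf, h]
      rw [Finset.sum_comm])

theorem ell_central {p : H →L[ℂ] H} (hp : p ∈ A) (hpp : IsStarProjection p) (x : H →L[ℂ] H) :
    Φ.ell (p * x) = Φ.ell (x * p) := by
  refine tendsto_nhds_unique_of_eventuallyEq (Φ.tendsto_lf _) (Φ.tendsto_lf _) ?_
  filter_upwards [Φ.hU (eventually_ge_atTop (Cells.two hp hpp))] with s hs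
  refine Finset.sum_congr rfl fun a _ => ?_
  obtain ⟨k, hk⟩ := hs a.2
  have hor : p * s.c a.2 = s.c a.2 ∨ p * s.c a.2 = 0 := by
    fin_cases k
    · exact Or.inl hk
    · refine Or.inr ?_
      change (1 - p) * s.c a.2 = s.c a.2 at hk
      rw [← hk, ← mul_assoc, hpp.mul_one_sub_self, zero_mul]
  rw [mul_apply_eq_comp, mul_apply_eq_comp, ← inner_sa hpp.isSelfAdjoint]
  change ⟪(p * s.c a.2) (z a.1), x (s.c a.2 (z a.1))⟫_ℂ
    = ⟪s.c a.2 (z a.1), x ((p * s.c a.2) (z a.1))⟫_ℂ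
  rcases hor with e | e <;> simp [e]

theorem ell_compress (x : H →L[ℂ] H) : Φ.ell (z * x * z) = Φ.ell x := by
  refine tendsto_nhds_unique (Φ.tendsto_lf _) ((Φ.tendsto_lf x).congr fun s => ?_)
  refine Finset.sum_congr rfl fun a _ => ?_
  have e : z (vec (z := z) s a) = vec (z := z) s a := by
    change (z * s.c a.2) (z a.1) = s.c a.2 (z a.1)
    rw [masa_comm Φ.hA Φ.hz (s.mem _)]
    change s.c a.2 (z (z a.1)) = _
    rw [proj_idem_apply Φ.hzp]
  rw [mul_apply_eq_comp, mul_apply_eq_comp, ← inner_sa Φ.hzp.isSelfAdjoint, e]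

/-- The symmetry of a projection. -/
theorem sym_spec {p : H →L[ℂ] H} (hp : IsStarProjection p) :
    star ((2 : ℂ) • p - 1) = (2 : ℂ) • p - 1 ∧
      ((2 : ℂ) • p - 1) * ((2 : ℂ) • p - 1) = 1 := by
  constructor
  · rw [two_smul, star_sub, star_add, hp.isSelfAdjoint.star_eq, star_one]
  · simp only [two_smul, sub_mul, mul_sub, add_mul, mul_add, hp.isIdempotentElem.eq, one_mul,
      mul_one]
    abel

theorem ell_conj {p : H →L[ℂ] H} (hp : p ∈ A) (hpp : IsStarProjection p) (x : H →L[ℂ] H) :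
    Φ.ell (((2 : ℂ) • p - 1) * x * ((2 : ℂ) • p - 1)) = Φ.ell x := by
  set u := (2 : ℂ) • p - 1 with hu
  have hc : ∀ y, Φ.ell (u * y) = Φ.ell (y * u) := fun y => by
    rw [hu, sub_mul, mul_sub, map_sub, map_sub, smul_mul_assoc, mul_smul_comm, map_smul, map_smul,
      Φ.ell_central hp hpp, one_mul, mul_one]
  rw [mul_assoc, hc, mul_assoc, (sym_spec hpp).2, mul_one]

theorem q_conj {p : H →L[ℂ] H} (hp : p ∈ A) (hpp : IsStarProjection p) (y : H →L[ℂ] H) :
    Φ.q (((2 : ℂ) • p - 1) * y * ((2 : ℂ) • p - 1)) = Φ.q y := by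
  have h := sym_spec hpp
  set u := (2 : ℂ) • p - 1
  rw [q, q, ← Φ.ell_conj hp hpp (star y * y)]
  congr 2
  rw [star_mul, star_mul, h.1]
  calc u * (star y * u) * (u * y * u) = u * star y * (u * u) * y * u := by simp only [mul_assoc]
    _ = _ := by rw [h.2, mul_one]; simp only [mul_assoc]; rfl

theorem norm_ell_sub_le (a b x : H →L[ℂ] H) {t : ℝ} (ht : 0 < t) :
    ‖Φ.ell (star a * x * a) - Φ.ell (star b * x * b)‖ ≤
      ‖x‖ * (t * (Φ.q a + Φ.q b) + t⁻¹ * Φ.q (a - b)) := by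
  refine le_of_tendsto_of_tendsto ((Φ.tendsto_lf _).sub (Φ.tendsto_lf _)).norm
    (((((Φ.tendsto_qf a).add (Φ.tendsto_qf b)).const_mul t).add
      ((Φ.tendsto_qf (a - b)).const_mul t⁻¹)).const_mul ‖x‖)
    (Eventually.of_forall fun s => ?_)
  simp only [lf, qf, Finset.mul_sum, ← Finset.sum_add_distrib, ← Finset.sum_sub_distrib]
  refine (norm_sum_le _ _).trans (Finset.sum_le_sum fun i _ => ?_)
  have e : ∀ c : H →L[ℂ] H, ⟪vec (z := z) s i, (star c * x * c) (vec (z := z) s i)⟫_ℂ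
      = ⟪c (vec (z := z) s i), x (c (vec (z := z) s i))⟫_ℂ := fun c => by
    rw [mul_apply_eq_comp, mul_apply_eq_comp, ContinuousLinearMap.star_eq_adjoint,
      ContinuousLinearMap.adjoint_inner_right]
  rw [e, e, sub_apply]
  set α := a (vec (z := z) s i)
  set β := b (vec (z := z) s i)
  have e2 : ⟪α, x α⟫_ℂ - ⟪β, x β⟫_ℂ = ⟪α - β, x α⟫_ℂ + ⟪β, x (α - β)⟫_ℂ := by
    rw [inner_sub_left, map_sub, inner_sub_right]
    ring
  rw [e2]
  refine (norm_add_le _ _).trans ?_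
  have h1 := (norm_inner_le_norm (α - β) (x α) (𝕜 := ℂ)).trans
    (mul_le_mul_of_nonneg_left (x.le_opNorm α) (norm_nonneg _))
  have h2 := (norm_inner_le_norm β (x (α - β)) (𝕜 := ℂ)).trans
    (mul_le_mul_of_nonneg_left (x.le_opNorm (α - β)) (norm_nonneg _))
  have h3 : ∀ u d : ℝ, 2 * (d * u) ≤ 2 * t * u ^ 2 + t⁻¹ * d ^ 2 := fun u d => by
    have h : 0 ≤ t⁻¹ * (t * u - d) ^ 2 := by positivity
    have h' : t⁻¹ * (t * u - d) ^ 2 = t * u ^ 2 - 2 * (d * u) + t⁻¹ * d ^ 2 := by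
      field_simp
      ring
    nlinarith [mul_nonneg ht.le (sq_nonneg u)]
  have h4 := mul_le_mul_of_nonneg_left (add_le_add (h3 ‖α‖ ‖α - β‖) (h3 ‖β‖ ‖α - β‖))
    (norm_nonneg x)
  nlinarith [h1, h2, h4]

end PinchForm

end Vale.Agent.P078.General
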