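import Vale.Agent.P078.General.CentralDefs
import Vale.Agent.P078.General.OrthSum
import Vale.Agent.P078.General.PinchForm

/-!
Where `A` has no normal central functional, projections with weakly small pinchings tend strongly
to one.
-/

noncomputable section

open scoped InnerProductSpace
open Filter Vale.Agent.P078.Finite

namespace Vale.Agent.P078.General

universe u

variable {H : Type u} [NormedAddCommGroup H] [InnerProductSpace ℂ H] [CompleteSpace H]
variable {M : VonNeumannAlgebra H} {A : StarSubalgebra ℂ (H →L[ℂ] H)}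

theorem rest_proj {ι : Type u} {e : ι → H →L[ℂ] H} {P : H →L[ℂ] H}
    (he : ∀ i, IsStarProjection (e i)) (ho : ∀ i j, i ≠ j → e i * e j = 0)
    (hP : IsStarProjection P) (hs : ∀ v, HasSum (fun i => e i v) (P v)) (s : Finset ι) :
    IsStarProjection (P - ∑ i ∈ s, e i) := by
  refine (sum_proj_spec he ho s).1.sub_of_mul_eq_right hP ?_
  rw [Finset.mul_sum]
  refine Finset.sum_congr rfl fun i hi => ?_
  ext v
  refine HasSum.unique (hs (e i v)) ?_
  classical
  have h : HasSum (fun j => e j (e i v)) (e i (e i v)) :=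
    hasSum_single i fun j hj => by
      rw [← mul_apply_eq_comp, ho j i hj, zero_apply]
  rwa [proj_idem_apply (he i)] at h

namespace PinchForm

variable {z : H →L[ℂ] H} (Φ : PinchForm M A z)

/-- Elements below `z` that turn the limit functional into a normal one. -/
def NormalVec (y : H →L[ℂ] H) : Prop :=
  y ∈ M ∧ z * y = y ∧
    ∀ (ι : Type u) (e : ι → H →L[ℂ] H) (P : H →L[ℂ] H),
      (∀ i, e i ∈ M ∧ IsStarProjection (e i)) → (∀ i j, i ≠ j → e i * e j = 0) →
      P ∈ M → IsStarProjection P → (∀ v, HasSum (fun i => e i v) (P v)) →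
      Tendsto (fun s : Finset ι => Φ.q ((P - ∑ i ∈ s, e i) * y)) atTop (nhds 0)

theorem normalVec_zero : Φ.NormalVec 0 :=
  ⟨zero_mem _, mul_zero _, fun ι e P _ _ _ _ _ => by
    simp only [mul_zero, Φ.q_zero]
    exact tendsto_const_nhds⟩

theorem normalVec_mid {y y' : H →L[ℂ] H} (h : Φ.NormalVec y) (h' : Φ.NormalVec y') :
    Φ.NormalVec ((1 / 2 : ℂ) • (y + y')) := by
  refine ⟨M.smul_mem (add_mem h.1 h'.1) _, by rw [mul_smul_comm, mul_add, h.2.1, h'.2.1],
    fun ι e P h1 h2 h3 h4 h5 => ?_⟩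
  have t := ((h.2.2 ι e P h1 h2 h3 h4 h5).add (h'.2.2 ι e P h1 h2 h3 h4 h5)).const_mul (1 / 2 : ℝ)
  rw [add_zero, mul_zero] at t
  refine squeeze_zero (fun s => Φ.q_nonneg _) (fun s => ?_) t
  rw [mul_smul_comm, Φ.q_smul, mul_add]
  have := Φ.q_add_le_two ((P - ∑ i ∈ s, e i) * y) ((P - ∑ i ∈ s, e i) * y')
  norm_num
  linarith

theorem sym_mem {p : H →L[ℂ] H} (hp : p ∈ A) : (2 : ℂ) • p - 1 ∈ A :=
  sub_mem (A.smul_mem hp _) (one_mem A)

theorem normalVec_conj {p : H →L[ℂ] H} (hp : p ∈ A) (hpp : IsStarProjection p) {y : H →L[ℂ] H}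
    (h : Φ.NormalVec y) :
    Φ.NormalVec (((2 : ℂ) • p - 1) * y * ((2 : ℂ) • p - 1)) := by
  obtain ⟨hu1, hu2⟩ := sym_spec hpp
  have huA : (2 : ℂ) • p - 1 ∈ A := sym_mem hp
  have huc : ∀ x, Φ.q (((2 : ℂ) • p - 1) * x * ((2 : ℂ) • p - 1)) = Φ.q x := Φ.q_conj hp hpp
  set u := (2 : ℂ) • p - 1
  have huM : u ∈ M := Φ.hA.1 u huA
  refine ⟨mul_mem (mul_mem huM h.1) huM, ?_, fun ι e P h1 h2 h3 h4 h5 => ?_⟩
  · rw [← mul_assoc, ← mul_assoc, masa_comm Φ.hA Φ.hz huA, mul_assoc u z, h.2.1]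
  have huu : ∀ v, u (u v) = v := fun v => congrArg (fun T : H →L[ℂ] H => T v) hu2
  have hconj : ∀ {f : H →L[ℂ] H}, IsStarProjection f → IsStarProjection (u * f * u) := fun {f} hf =>
    ⟨by
      change u * f * u * (u * f * u) = u * f * u
      calc u * f * u * (u * f * u) = u * f * (u * u) * f * u := by simp only [mul_assoc]
        _ = _ := by rw [hu2, mul_one, mul_assoc u f f, hf.isIdempotentElem.eq],
      by rw [IsSelfAdjoint, star_mul, star_mul, hu1, hf.isSelfAdjoint.star_eq, mul_assoc]⟩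
  have key := h.2.2 ι (fun i => u * e i * u) (u * P * u)
    (fun i => ⟨mul_mem (mul_mem huM (h1 i).1) huM, hconj (h1 i).2⟩)
    (fun i j hij => by
      calc u * e i * u * (u * e j * u) = u * e i * (u * u) * e j * u := by simp only [mul_assoc]
        _ = 0 := by rw [hu2, mul_one, mul_assoc u, h2 i j hij, mul_zero, zero_mul])
    (mul_mem (mul_mem huM h3) huM) (hconj h4) (fun v => (h5 (u v)).mapL u)
  refine key.congr fun s => ?_
  rw [← huc ((u * P * u - ∑ i ∈ s, u * e i * u) * y)]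
  congr 1
  have e2 : ∀ X, u * (u * X * u) = X * u := fun X => by
    rw [← mul_assoc, ← mul_assoc, hu2, one_mul]
  rw [← Finset.sum_mul, ← Finset.mul_sum, ← sub_mul, ← mul_sub]
  calc u * (u * (P - ∑ i ∈ s, e i) * u * y) * u
      = u * (u * (P - ∑ i ∈ s, e i) * u) * y * u := by simp only [mul_assoc]
    _ = (P - ∑ i ∈ s, e i) * u * y * u := by rw [e2]
    _ = _ := by simp only [mul_assoc]

/-- A projection on whose subprojections the limit functional is dominated by a vector state is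
normal. -/
theorem normalVec_of_dominated {f : H →L[ℂ] H} (hf : f ∈ M) (hfp : IsStarProjection f)
    (hzf : z * f = f) (w : H)
    (hdom : ∀ g ∈ M, IsStarProjection g → f * g = g → Φ.q g ≤ ‖g w‖ ^ 2) : Φ.NormalVec f := by
  refine ⟨hf, hzf, fun ι e P h1 h2 h3 h4 h5 => ?_⟩
  set R : Finset ι → H →L[ℂ] H := fun s => P - ∑ i ∈ s, e i
  have hR : ∀ s, IsStarProjection (R s) := rest_proj (fun i => (h1 i).2) h2 h4 h5
  have hRf : Tendsto (fun s => ‖R s (f w)‖) atTop (nhds 0) := by
    have h : Tendsto (fun s : Finset ι => P (f w) - ∑ i ∈ s, e i (f w)) atTop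
        (nhds (P (f w) - P (f w))) := tendsto_const_nhds.sub (h5 (f w))
    rw [sub_self] at h
    have h' := h.norm
    rw [norm_zero] at h'
    exact h'.congr fun s => by simp [R, sum_apply]
  refine tendsto_order.2 ⟨fun b hb =>
    Eventually.of_forall fun s => hb.trans_le (Φ.q_nonneg _), fun b hb => ?_⟩
  set θ : ℝ := b / (2 * (Φ.mass + 1)) with hθdef
  have hm := Φ.mass_nonneg
  have hθ : 0 < θ := by positivity
  obtain ⟨ρ, hρ, hρb⟩ : ∃ ρ : ℝ, 0 < ρ ∧ (θ⁻¹ * ρ) ^ 2 ≤ b / 4 := by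
    refine ⟨θ * Real.sqrt (b / 4), by positivity, ?_⟩
    rw [← mul_assoc, inv_mul_cancel₀ hθ.ne', one_mul, Real.sq_sqrt (by positivity)]
  filter_upwards [hRf.eventually (eventually_lt_nhds hρ)] with s hs
  set T := f * R s * f with hT
  have hRM : R s ∈ M := sub_mem h3 (sum_mem fun i _ => (h1 i).1)
  have hTM : T ∈ M := mul_mem (mul_mem hf hRM) hf
  have hTs : IsSelfAdjoint T := by
    rw [IsSelfAdjoint, hT, star_mul, star_mul, hfp.isSelfAdjoint.star_eq,
      (hR s).isSelfAdjoint.star_eq, mul_assoc]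
  obtain ⟨q, hqM, hqp, hqc, hqk, hq1, hq2, -⟩ := exists_cut hTM hTs hθ
  have hd : f * (1 - q) = 1 - q := by
    have hTf : T * (1 - f) = 0 := by
      rw [hT, mul_assoc, hfp.mul_one_sub_self, mul_zero]
    have hq : q * (1 - f) = 1 - f := by
      ext v
      exact hqk _ (congrArg (fun S : H →L[ℂ] H => S v) hTf)
    have hr : (1 - q) * f = 1 - q := by
      rw [mul_sub, mul_one] at hq
      rw [sub_mul, one_mul]
      calc f - q * f = f - (q - (1 - f)) := by rw [← hq]; abel
        _ = 1 - q := by abel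
    have := congrArg star hr
    rwa [star_mul, hfp.isSelfAdjoint.star_eq, hqp.one_sub.isSelfAdjoint.star_eq] at this
  have hform : ∀ v, ‖R s (f v)‖ ^ 2 ≤ θ * ‖v‖ ^ 2 + ‖(1 - q) v‖ ^ 2 := by
    intro v
    have hTq : T * q = q * T := hqc T rfl (by rw [hTs.star_eq])
    have hRn : ∀ w, ‖R s (f w)‖ ^ 2 = (⟪w, T w⟫_ℂ).re := fun w => by
      rw [sq_norm_proj' (hR s), inner_sa hfp.isSelfAdjoint]
      rfl
    have hcross : ⟪q v, T ((1 - q) v)⟫_ℂ = 0 ∧ ⟪(1 - q) v, T (q v)⟫_ℂ = 0 := by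
      constructor
      · rw [← inner_sa hTs, show T (q v) = q (T v) from congrArg (fun S : H →L[ℂ] H => S v) hTq,
          inner_sa hqp.isSelfAdjoint]
        change ⟪T v, (q * (1 - q)) v⟫_ℂ = 0
        rw [hqp.mul_one_sub_self, zero_apply, inner_zero_right]
      · rw [show T (q v) = q (T v) from congrArg (fun S : H →L[ℂ] H => S v) hTq,
          ← inner_sa hqp.isSelfAdjoint]
        change ⟪(q * (1 - q)) v, T v⟫_ℂ = 0
        rw [hqp.mul_one_sub_self, zero_apply, inner_zero_left]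
    have hv : v = q v + (1 - q) v := by rw [← add_apply, add_sub_cancel, one_apply_eq_self]
    rw [hRn]
    conv_lhs => rw [hv, map_add, inner_add_left, inner_add_right, inner_add_right, hcross.1,
      hcross.2, add_zero, zero_add, Complex.add_re]
    refine add_le_add ?_ ?_
    · refine (Complex.re_le_norm _).trans ((norm_inner_le_norm _ _).trans ?_)
      have e : T (q v) = (T * q) (q v) := by
        change T (q v) = T (q (q v))
        rw [proj_idem_apply hqp]
      rw [e]
      calc ‖q v‖ * ‖(T * q) (q v)‖ ≤ ‖v‖ * (θ * ‖v‖) := mul_le_mul (norm_proj_apply_le hqp _)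
            (((T * q).le_opNorm _).trans (mul_le_mul hq1 (norm_proj_apply_le hqp _)
              (norm_nonneg _) hθ.le)) (norm_nonneg _) (norm_nonneg _)
        _ = _ := by ring
    · rw [← hRn]
      exact pow_le_pow_left₀ (norm_nonneg _)
        ((norm_proj_apply_le (hR s) _).trans (norm_proj_apply_le hfp _)) 2
  have h6 : Φ.q (R s * f) ≤ θ * Φ.mass + Φ.q (1 - q) := by
    refine le_of_tendsto_of_tendsto (Φ.tendsto_qf _)
      ((tendsto_const_nhds (x := θ * Φ.mass)).add (Φ.tendsto_qf (1 - q)))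
      (Eventually.of_forall fun t => ?_)
    simp only [qf]
    rw [← Φ.sum_vec_sq t, Finset.mul_sum, ← Finset.sum_add_distrib]
    exact Finset.sum_le_sum fun i _ => hform _
  have h7 : ‖(1 - q) w‖ ≤ θ⁻¹ * ρ := by
    rw [inv_mul_eq_div, le_div_iff₀ hθ, mul_comm]
    exact ((hq2 w).trans (norm_proj_apply_le hfp _)).trans hs.le
  have h8 := (hdom _ (sub_mem (one_mem _) hqM) hqp.one_sub hd).trans
    ((pow_le_pow_left₀ (norm_nonneg _) h7 2).trans hρb)
  have h9 : θ * Φ.mass ≤ b / 2 := by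
    rw [hθdef, div_mul_eq_mul_div, div_le_iff₀ (by positivity)]
    nlinarith
  linarith

/-- Without normal central functionals no projection below `z` carries a normal part. -/
theorem q_eq_zero_of_normalVec (h : NoNormalCentral M A z) {f : H →L[ℂ] H}
    (hfp : IsStarProjection f) (hN : Φ.NormalVec f) : Φ.q f = 0 := by
  by_contra hne
  have hq0 : 0 < Φ.q f := lt_of_le_of_ne (Φ.q_nonneg f) (Ne.symm hne)
  set S : Set ℝ := {t | ∃ y, Φ.NormalVec y ∧ Φ.q (1 - y) = t}
  have hSb : BddBelow S := ⟨0, by rintro t ⟨y, -, rfl⟩; exact Φ.q_nonneg _⟩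
  have hSne : S.Nonempty := ⟨_, 0, Φ.normalVec_zero, rfl⟩
  set m := sInf S
  have hm0 : 0 ≤ m := le_csInf hSne (by rintro t ⟨y, -, rfl⟩; exact Φ.q_nonneg _)
  have hlow : ∀ {y}, Φ.NormalVec y → m ≤ Φ.q (1 - y) := fun hy => csInf_le hSb ⟨_, hy, rfl⟩
  have hmlt : m < Φ.mass := by
    refine (hlow hN).trans_lt ?_
    have e := Φ.ell_proj hfp.one_sub
    rw [map_sub, Φ.ell_proj hfp, Φ.ell_proj (IsStarProjection.one _), Φ.q_one,
      ← Complex.ofReal_sub] at e
    rw [← Complex.ofReal_inj.1 e]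
    linarith
  have hdiff : ∀ {y y'}, Φ.NormalVec y → Φ.NormalVec y' →
      Φ.q (y - y') ≤ 2 * (Φ.q (1 - y) - m) + 2 * (Φ.q (1 - y') - m) := by
    intro y y' hy hy'
    have h1 := Φ.q_parallelogram (1 - y) (1 - y')
    rw [show (1 - y) - (1 - y') = (-1 : ℂ) • (y - y') by rw [neg_one_smul]; abel, Φ.q_smul,
      show (1 - y) + (1 - y') = (2 : ℂ) • (1 - (1 / 2 : ℂ) • (y + y')) by module, Φ.q_smul] at h1
    have h2 := hlow (Φ.normalVec_mid hy hy')
    norm_num at h1 h2
    linarith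
  have hex : ∀ n : ℕ, ∃ y, Φ.NormalVec y ∧ Φ.q (1 - y) < m + 1 / ((n : ℝ) + 1) := by
    intro n
    obtain ⟨t, ⟨y, hy, rfl⟩, ht⟩ := exists_lt_of_csInf_lt hSne
      (show m < m + 1 / ((n : ℝ) + 1) by
        have : (0 : ℝ) < 1 / ((n : ℝ) + 1) := by positivity
        linarith)
    exact ⟨y, hy, ht⟩
  choose y hy hy' using hex
  have hinv : Tendsto (fun n : ℕ => 1 / ((n : ℝ) + 1)) atTop (nhds 0) :=
    tendsto_one_div_add_atTop_nhds_zero_nat
  set B := 2 * Φ.mass + 2 * (m + 1)
  have hB : ∀ {y'}, Φ.q (1 - y') ≤ m + 1 → Φ.q y' ≤ B := by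
    intro y' h1
    have h2 := Φ.q_add_le_two 1 ((-1 : ℂ) • (1 - y'))
    rw [show (1 : H →L[ℂ] H) + (-1 : ℂ) • (1 - y') = y' by rw [neg_one_smul]; abel, Φ.q_one,
      Φ.q_smul] at h2
    norm_num at h2
    linarith
  have hyB : ∀ n, Φ.q (y n) ≤ B := fun n => hB ((hy' n).le.trans (by
    have : 1 / ((n : ℝ) + 1) ≤ 1 := by
      rw [div_le_one (by positivity)]
      linarith [(Nat.cast_nonneg n : (0 : ℝ) ≤ n)]
    linarith))
  have hB0 : 0 ≤ B := by
    have := Φ.mass_nonneg
    simp only [B]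
    linarith
  have hclose : ∀ (x : H →L[ℂ] H) (ε : ℝ), 0 < ε → ∃ η : ℝ, 0 < η ∧ ∀ a b,
      Φ.q a ≤ B → Φ.q b ≤ B → Φ.q (a - b) ≤ η →
        ‖Φ.ell (star a * x * a) - Φ.ell (star b * x * b)‖ ≤ ε := by
    intro x ε hε
    set t := ε / (2 * (‖x‖ + 1) * (2 * B + 1)) with ht
    have ht0 : 0 < t := by positivity
    refine ⟨t * (ε / (2 * (‖x‖ + 1))), by positivity, fun a b ha hb hab => ?_⟩
    refine (Φ.norm_ell_sub_le a b x ht0).trans ?_
    have h1 : t * (Φ.q a + Φ.q b) ≤ ε / (2 * (‖x‖ + 1)) := by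
      calc t * (Φ.q a + Φ.q b) ≤ t * (2 * B + 1) :=
            mul_le_mul_of_nonneg_left (by linarith) ht0.le
        _ = _ := by rw [ht]; field_simp
    have h2 : t⁻¹ * Φ.q (a - b) ≤ ε / (2 * (‖x‖ + 1)) := by
      rw [inv_mul_le_iff₀ ht0]
      exact hab
    refine (mul_le_mul_of_nonneg_left (add_le_add h1 h2) (norm_nonneg x)).trans ?_
    rw [← add_div, ← two_mul, mul_div_mul_left _ _ two_ne_zero]
    calc ‖x‖ * (ε / (‖x‖ + 1)) ≤ (‖x‖ + 1) * (ε / (‖x‖ + 1)) :=
          mul_le_mul_of_nonneg_right (by linarith) (by positivity)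
      _ = ε := by field_simp
  have hlim : ∀ x, ∃ l, Tendsto (fun n => Φ.ell (star (y n) * x * y n)) atTop (nhds l) := by
    intro x
    refine cauchySeq_tendsto_of_complete (Metric.cauchySeq_iff'.2 fun ε hε => ?_)
    obtain ⟨η, hη, hη'⟩ := hclose x (ε / 2) (half_pos hε)
    obtain ⟨N, hN'⟩ := exists_nat_gt (4 / η)
    refine ⟨N, fun n hn => ?_⟩
    rw [dist_eq_norm]
    refine (hη' _ _ (hyB n) (hyB N) ((hdiff (hy n) (hy N)).trans ?_)).trans_lt (half_lt_self hε)
    have h1 : 1 / ((n : ℝ) + 1) ≤ 1 / ((N : ℝ) + 1) := by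
      refine one_div_le_one_div_of_le (by positivity) ?_
      have : (N : ℝ) ≤ n := by exact_mod_cast hn
      linarith
    have h2 : 4 * (1 / ((N : ℝ) + 1)) ≤ η := by
      rw [div_lt_iff₀ hη] at hN'
      rw [mul_one_div, div_le_iff₀ (by positivity)]
      nlinarith
    linarith [hy' n, hy' N]
  choose ν hν using hlim
  let L : (H →L[ℂ] H) →ₗ[ℂ] ℂ :=
    { toFun := ν
      map_add' := fun a b => tendsto_nhds_unique (hν (a + b))
        (((hν a).add (hν b)).congr fun n => by rw [mul_add, add_mul, map_add])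
      map_smul' := fun c a => tendsto_nhds_unique (hν (c • a))
        (((hν a).const_mul c).congr fun n => by
          rw [mul_smul_comm, smul_mul_assoc, map_smul, smul_eq_mul]) }
  have hproj : ∀ {R : H →L[ℂ] H}, IsStarProjection R → ∀ n,
      Φ.ell (star (y n) * R * y n) = (Φ.q (R * y n) : ℂ) := fun {R} hR n => by
    rw [← Φ.ell_star_mul, star_mul]
    congr 1
    calc star (y n) * R * y n = star (y n) * (R * R) * y n := by rw [hR.isIdempotentElem.eq]
      _ = _ := by rw [hR.isSelfAdjoint.star_eq]; simp only [mul_assoc]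
  have hL0 : L z = 0 := by
    refine h L (fun x _ => ?_) (fun p hp hpp x _ => ?_) (fun ι e P h1 h2 h3 h4 h5 => ?_)
    · have hrw : ∀ n, Φ.ell (star (y n) * (star x * x) * y n) = (Φ.q (x * y n) : ℂ) := fun n => by
        rw [← Φ.ell_star_mul, star_mul]
        simp only [mul_assoc]
      have t := (hν (star x * x)).congr hrw
      refine ⟨?_, ?_⟩
      · exact tendsto_nhds_unique ((Complex.continuous_im.tendsto _).comp t)
          (tendsto_const_nhds.congr fun n => (Complex.ofReal_im _).symm)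
      · exact ge_of_tendsto ((Complex.continuous_re.tendsto _).comp t)
          (Eventually.of_forall fun n => by simpa using Φ.q_nonneg _)
    · have hu := sym_spec hpp
      set u := (2 : ℂ) • p - 1 with hudef
      set y' : ℕ → H →L[ℂ] H := fun n => u * y n * u
      have hy1 : ∀ n, Φ.NormalVec (y' n) := fun n => Φ.normalVec_conj hp hpp (hy n)
      have hq' : ∀ n, Φ.q (1 - y' n) = Φ.q (1 - y n) := fun n => by
        have huc : ∀ Y, Φ.q (u * Y * u) = Φ.q Y := Φ.q_conj hp hpp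
        rw [← huc (1 - y n), mul_sub u, sub_mul (u * 1), mul_one u, hu.2]
      have hq'' : ∀ n, Φ.q (y' n) = Φ.q (y n) := fun n => Φ.q_conj hp hpp (y n)
      have hinvL : ∀ X, ν (u * X * u) = ν X := by
        intro X
        refine tendsto_nhds_unique (hν (u * X * u)) (Metric.tendsto_atTop.2 fun ε hε => ?_)
        obtain ⟨η, hη, hη'⟩ := hclose X (ε / 2) (half_pos hε)
        obtain ⟨N1, hN1⟩ := Metric.tendsto_atTop.1 (hν X) (ε / 2) (half_pos hε)
        obtain ⟨N2, hN2⟩ := Metric.tendsto_atTop.1 hinv (η / 4) (by positivity)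
        refine ⟨max N1 N2, fun n hn => ?_⟩
        have e1 : Φ.ell (star (y n) * (u * X * u) * y n) = Φ.ell (star (y' n) * X * y' n) := by
          rw [← Φ.ell_conj hp hpp (star (y n) * (u * X * u) * y n)]
          congr 1
          simp only [y', star_mul, hu.1, mul_assoc]
          rfl
        have h3 : dist (Φ.ell (star (y' n) * X * y' n)) (Φ.ell (star (y n) * X * y n)) ≤ ε / 2 := by
          rw [dist_eq_norm]
          refine hη' _ _ (by rw [hq'']; exact hyB n) (hyB n) ((hdiff (hy1 n) (hy n)).trans ?_)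
          rw [hq']
          have h4 := hN2 n (le_trans (le_max_right _ _) hn)
          rw [Real.dist_eq, sub_zero] at h4
          linarith [hy' n, le_abs_self (1 / ((n : ℝ) + 1))]
        rw [e1]
        exact (dist_triangle _ _ _).trans_lt
          (by linarith [hN1 n (le_trans (le_max_left _ _) hn)])
      have hc : L (u * x) = L (x * u) := by
        change ν (u * x) = ν (x * u)
        rw [← hinvL (x * u), mul_assoc u (x * u) u, mul_assoc x u u, hu.2, mul_one]
      rw [hudef, sub_mul, mul_sub, map_sub, map_sub, smul_mul_assoc, mul_smul_comm, one_mul,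
        mul_one, map_smul, map_smul, smul_eq_mul, smul_eq_mul] at hc
      linear_combination hc / 2
    · change Tendsto (fun s : Finset ι => ∑ i ∈ s, L (e i)) atTop (nhds (L P))
      set R : Finset ι → H →L[ℂ] H := fun s => P - ∑ i ∈ s, e i
      have hR : ∀ s, IsStarProjection (R s) := rest_proj (fun i => (h1 i).2) h2 h4 h5
      have hR0 : Tendsto (fun s => L (R s)) atTop (nhds 0) := by
        rw [tendsto_zero_iff_norm_tendsto_zero]
        refine tendsto_order.2 ⟨fun b hb => Eventually.of_forall fun s =>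
          hb.trans_le (norm_nonneg _), fun b hb => ?_⟩
        obtain ⟨M0, hM0⟩ := exists_nat_gt (32 / b)
        filter_upwards [((hy M0).2.2 ι e P h1 h2 h3 h4 h5).eventually
          (eventually_lt_nhds (show (0 : ℝ) < b / 8 by positivity))] with s hs
        have hbound : ∀ᶠ n in atTop, ‖Φ.ell (star (y n) * R s * y n)‖ ≤ 3 * b / 4 := by
          refine (eventually_ge_atTop M0).mono fun n hn => ?_
          rw [hproj (hR s) n, Complex.norm_real, Real.norm_of_nonneg (Φ.q_nonneg _)]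
          have e : R s * y n = R s * y M0 + R s * (y n - y M0) := by rw [mul_sub]; abel
          rw [e]
          refine (Φ.q_add_le_two _ _).trans ?_
          have h6 := (Φ.q_proj_mul_le (hR s) (y n - y M0)).trans (hdiff (hy n) (hy M0))
          have h7 : 1 / ((n : ℝ) + 1) ≤ 1 / ((M0 : ℝ) + 1) := by
            refine one_div_le_one_div_of_le (by positivity) ?_
            have : (M0 : ℝ) ≤ n := by exact_mod_cast hn
            linarith
          have h8 : 1 / ((M0 : ℝ) + 1) ≤ b / 32 := by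
            rw [div_lt_iff₀ hb] at hM0
            rw [div_le_iff₀ (by positivity)]
            nlinarith
          linarith [hy' n, hy' M0, hs]
        exact (le_of_tendsto (hν (R s)).norm hbound).trans_lt (by linarith)
      have hfin := (tendsto_const_nhds (x := L P)).sub hR0
      rw [sub_zero] at hfin
      refine hfin.congr fun s => ?_
      simp [R, map_sum]
  have hzero : Tendsto (fun n => Φ.q (y n)) atTop (nhds 0) := by
    have h1 := (hν z).congr fun n => hproj Φ.hzp n
    change ν z = 0 at hL0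
    rw [hL0] at h1
    simp only [(hy _).2.1] at h1
    simpa [Function.comp_def] using (Complex.continuous_re.tendsto _).comp h1
  have hle : ∀ t : ℝ, 0 < t → Φ.mass ≤ (1 + t) * m := by
    intro t ht
    have hr := ((hinv.const_add m).const_mul (1 + t)).add (hzero.const_mul (1 + t⁻¹))
    rw [add_zero, mul_zero, add_zero] at hr
    refine le_of_tendsto_of_tendsto (tendsto_const_nhds (x := Φ.mass)) hr
      (Eventually.of_forall fun n => ?_)
    have h1 := Φ.q_add_le (1 - y n) (y n) ht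
    rw [sub_add_cancel, Φ.q_one] at h1
    have h2 := mul_le_mul_of_nonneg_left (hy' n).le (show (0 : ℝ) ≤ 1 + t by linarith)
    linarith
  have h10 := hle ((Φ.mass - m) / (2 * (m + 1))) (div_pos (by linarith) (by positivity))
  have h11 : (Φ.mass - m) / (2 * (m + 1)) * m ≤ (Φ.mass - m) / 2 := by
    rw [div_mul_eq_mul_div, div_le_div_iff₀ (by positivity) two_pos]
    nlinarith
  linarith

/-- A nonzero projection below `z` contains a nonzero projection killed by the limit functional. -/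
theorem exists_killed (h : NoNormalCentral M A z) {f : H →L[ℂ] H} (hf : f ∈ M)
    (hfp : IsStarProjection f) (hzf : z * f = f) (hf0 : f ≠ 0) :
    ∃ g ∈ M, IsStarProjection g ∧ f * g = g ∧ g ≠ 0 ∧ Φ.q g = 0 := by
  by_contra hc
  push Not at hc
  have hpos : ∀ g ∈ M, IsStarProjection g → f * g = g → g ≠ 0 → 0 < Φ.q g := fun g hg hgp hfg hg0 =>
    lt_of_le_of_ne (Φ.q_nonneg g) fun e => hc g hg hgp hfg hg0 e.symm
  obtain ⟨v, hv⟩ : ∃ v, f v ≠ 0 := by
    by_contra hn
    push Not at hn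
    exact hf0 (ContinuousLinearMap.ext hn)
  set w : H := ((Real.sqrt (Φ.q f + 1) / ‖f v‖ : ℝ) : ℂ) • f v with hw
  have hfw : ‖f w‖ ^ 2 = Φ.q f + 1 := by
    rw [hw, map_smul, proj_idem_apply hfp, norm_smul, Complex.norm_real,
      Real.norm_of_nonneg (by positivity), div_mul_cancel₀ _ (norm_ne_zero_iff.2 hv),
      Real.sq_sqrt (by linarith [Φ.q_nonneg f])]
  set G0 : Set (Set (H →L[ℂ] H)) := {G | (∀ g ∈ G, g ∈ M ∧ IsStarProjection g ∧ f * g = g ∧
    g ≠ 0 ∧ ‖g w‖ ^ 2 ≤ Φ.q g) ∧ G.Pairwise fun a b => a * b = 0}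
  obtain ⟨G, hG⟩ := zorn_subset G0 (by
    intro C hC hch
    refine ⟨⋃₀ C, ⟨?_, ?_⟩, fun s hs => Set.subset_sUnion_of_mem hs⟩
    · rintro g ⟨s, hs, hgs⟩
      exact (hC hs).1 g hgs
    · rintro a ⟨s, hs, has⟩ b ⟨t, ht, hbt⟩ hab
      rcases hch.total hs ht with hle | hle
      · exact (hC ht).2 (hle has) hbt hab
      · exact (hC hs).2 has (hle hbt) hab)
  obtain ⟨hGe, hGo⟩ := hG.prop
  have ho : ∀ i j : G, i ≠ j → (i : H →L[ℂ] H) * j = 0 := fun i j hij =>
    hGo i.2 j.2 fun e => hij (Subtype.ext e)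
  obtain ⟨P, hPM, hPp, hPs, hiP, hPf⟩ := exists_orth_sum M (e := fun g : G => (g : H →L[ℂ] H))
    (fun g => (hGe _ g.2).1) (fun g => (hGe _ g.2).2.1) ho
  have hfP : f * P = P := hPf f fun g => (hGe _ g.2).2.2.1
  have hPw : ‖P w‖ ^ 2 ≤ Φ.q f := by
    refine le_of_tendsto ((hPs w).norm.pow 2) (Eventually.of_forall fun s => ?_)
    have hsp := sum_proj_spec (fun g : G => (hGe _ g.2).2.1) ho s
    rw [← sum_apply, hsp.2 w]
    refine (Finset.sum_le_sum fun (g : G) _ => (hGe _ g.2).2.2.2.2).trans ?_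
    rw [← Φ.q_orth_sum s hsp.2]
    have h2 : (∑ g ∈ s, (g : H →L[ℂ] H)) * f = ∑ g ∈ s, (g : H →L[ℂ] H) := by
      rw [Finset.sum_mul]
      refine Finset.sum_congr rfl fun g _ => ?_
      have := congrArg star (hGe _ g.2).2.2.1
      rwa [star_mul, hfp.isSelfAdjoint.star_eq, (hGe _ g.2).2.1.isSelfAdjoint.star_eq] at this
    rw [← h2]
    exact Φ.q_proj_mul_le hsp.1 f
  have hPf' : P * f = P := by
    have := congrArg star hfP
    rwa [star_mul, hfp.isSelfAdjoint.star_eq, hPp.isSelfAdjoint.star_eq] at this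
  set f' : H →L[ℂ] H := f - P with hf'
  have hf'p : IsStarProjection f' := hPp.sub_of_mul_eq_right hfp hfP
  have hff' : f * f' = f' := by rw [hf', mul_sub, hfp.isIdempotentElem.eq, hfP]
  have hf'0 : f' ≠ 0 := by
    intro e
    rw [hf', sub_eq_zero] at e
    rw [← e, hfw] at hPw
    linarith
  have hdom : ∀ g ∈ M, IsStarProjection g → f' * g = g → Φ.q g ≤ ‖g w‖ ^ 2 := by
    intro g hg hgp hfg
    by_contra hlt
    push Not at hlt
    have hg0 : g ≠ 0 := fun e => by
      rw [e, zero_apply, norm_zero, Φ.q_zero] at hlt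
      simp at hlt
    have hfg' : f * g = g := by rw [← hfg, ← mul_assoc, hff']
    have hort : ∀ a ∈ G, a * g = 0 ∧ g * a = 0 := by
      intro a ha
      have haf : a * f = a := by
        have := congrArg star (hGe a ha).2.2.1
        rwa [star_mul, hfp.isSelfAdjoint.star_eq, (hGe a ha).2.1.isSelfAdjoint.star_eq] at this
      have h1 : a * g = 0 := by
        rw [← hfg, ← mul_assoc, hf', mul_sub, haf, hiP ⟨a, ha⟩, sub_self, zero_mul]
      refine ⟨h1, ?_⟩
      have := congrArg star h1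
      rwa [star_mul, star_zero, hgp.isSelfAdjoint.star_eq,
        (hGe a ha).2.1.isSelfAdjoint.star_eq] at this
    have hins : insert g G ∈ G0 := by
      refine ⟨?_, Set.pairwise_insert.2 ⟨hGo, fun b hb _ => ⟨(hort b hb).2, (hort b hb).1⟩⟩⟩
      intro a ha
      rcases Set.mem_insert_iff.1 ha with rfl | ha
      · exact ⟨hg, hgp, hfg', hg0, hlt.le⟩
      · exact hGe a ha
    have hgG : g ∈ G := hG.2 hins (Set.subset_insert g G) (Set.mem_insert g G)
    exact hg0 (by rw [← hgp.isIdempotentElem.eq]; exact (hort g hgG).1)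
  have hzf' : z * f' = f' := by rw [← hff', ← mul_assoc, hzf]
  exact (hpos f' (sub_mem hf hPM) hf'p hff' hf'0).ne'
    (Φ.q_eq_zero_of_normalVec h hf'p
      (Φ.normalVec_of_dominated (sub_mem hf hPM) hf'p hzf' w hdom))

/-- Killed projections approach `z`. -/
theorem exists_killed_approx (h : NoNormalCentral M A z) {δ : ℝ} (hδ : 0 < δ) :
    ∃ e ∈ M, IsStarProjection e ∧ z * e = e ∧ (∀ v ∈ Φ.F, ‖(z - e) v‖ < δ) ∧ Φ.q e = 0 := by
  have hzM : z ∈ M := Φ.hA.1 z Φ.hz
  set G0 : Set (Set (H →L[ℂ] H)) := {G | (∀ g ∈ G, g ∈ M ∧ IsStarProjection g ∧ z * g = g ∧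
    g ≠ 0 ∧ Φ.q g = 0) ∧ G.Pairwise fun a b => a * b = 0}
  obtain ⟨G, hG⟩ := zorn_subset G0 (by
    intro C hC hch
    refine ⟨⋃₀ C, ⟨?_, ?_⟩, fun s hs => Set.subset_sUnion_of_mem hs⟩
    · rintro g ⟨s, hs, hgs⟩
      exact (hC hs).1 g hgs
    · rintro a ⟨s, hs, has⟩ b ⟨t, ht, hbt⟩ hab
      rcases hch.total hs ht with hle | hle
      · exact (hC ht).2 (hle has) hbt hab
      · exact (hC hs).2 has (hle hbt) hab)
  obtain ⟨hGe, hGo⟩ := hG.prop
  have ho : ∀ i j : G, i ≠ j → (i : H →L[ℂ] H) * j = 0 := fun i j hij =>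
    hGo i.2 j.2 fun e => hij (Subtype.ext e)
  obtain ⟨P, hPM, hPp, hPs, hiP, hPf⟩ := exists_orth_sum M (e := fun g : G => (g : H →L[ℂ] H))
    (fun g => (hGe _ g.2).1) (fun g => (hGe _ g.2).2.1) ho
  have hzP : z * P = P := hPf z fun g => (hGe _ g.2).2.2.1
  have hPz : P = z := by
    by_contra hne
    have hf0 : z - P ≠ 0 := fun e => hne (sub_eq_zero.1 e).symm
    have hfp : IsStarProjection (z - P) := hPp.sub_of_mul_eq_right Φ.hzp hzP
    have hzf : z * (z - P) = z - P := by rw [mul_sub, Φ.hzp.isIdempotentElem.eq, hzP]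
    obtain ⟨g, hg, hgp, hfg, hg0, hgq⟩ := Φ.exists_killed h (sub_mem hzM hPM) hfp hzf hf0
    have hzg : z * g = g := by rw [← hfg, ← mul_assoc, hzf]
    have hort : ∀ a ∈ G, a * g = 0 ∧ g * a = 0 := by
      intro a ha
      have haz : a * z = a := by
        have := congrArg star (hGe a ha).2.2.1
        rwa [star_mul, Φ.hzp.isSelfAdjoint.star_eq, (hGe a ha).2.1.isSelfAdjoint.star_eq] at this
      have h1 : a * g = 0 := by
        rw [← hfg, ← mul_assoc, mul_sub, haz, hiP ⟨a, ha⟩, sub_self, zero_mul]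
      refine ⟨h1, ?_⟩
      have := congrArg star h1
      rwa [star_mul, star_zero, hgp.isSelfAdjoint.star_eq,
        (hGe a ha).2.1.isSelfAdjoint.star_eq] at this
    have hins : insert g G ∈ G0 := by
      refine ⟨?_, Set.pairwise_insert.2 ⟨hGo, fun b hb _ => ⟨(hort b hb).2, (hort b hb).1⟩⟩⟩
      intro a ha
      rcases Set.mem_insert_iff.1 ha with rfl | ha
      · exact ⟨hg, hgp, hzg, hg0, hgq⟩
      · exact hGe a ha
    have hgG : g ∈ G := hG.2 hins (Set.subset_insert g G) (Set.mem_insert g G)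
    exact hg0 (by rw [← hgp.isIdempotentElem.eq]; exact (hort g hgG).1)
  have hev : ∀ᶠ s : Finset G in atTop, ∀ v ∈ Φ.F, ‖(z - ∑ g ∈ s, (g : H →L[ℂ] H)) v‖ < δ := by
    refine (Finset.eventually_all Φ.F).2 fun v _ => ?_
    filter_upwards [(hPs v).eventually (Metric.ball_mem_nhds (P v) hδ)] with s hs
    rw [dist_eq_norm'] at hs
    rw [sub_apply, sum_apply, ← hPz]
    exact hs
  obtain ⟨s, hs⟩ := hev.exists
  have hsp := sum_proj_spec (fun g : G => (hGe _ g.2).2.1) ho s
  refine ⟨∑ g ∈ s, (g : H →L[ℂ] H), sum_mem fun g _ => (hGe _ g.2).1, hsp.1, ?_, hs, ?_⟩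
  · rw [Finset.mul_sum]
    exact Finset.sum_congr rfl fun g _ => (hGe _ g.2).2.2.1
  · rw [Φ.q_orth_sum s hsp.2]
    exact Finset.sum_eq_zero fun g _ => (hGe _ g.2).2.2.2.2

end PinchForm

/-- Without normal central functionals on `z`, projections with small pinchings approach `z`. -/
theorem singularApprox_of_noNormalCentral (hA : IsMasaIn M A) {z : H →L[ℂ] H} (hz : z ∈ A)
    (hzp : IsStarProjection z) (h : NoNormalCentral M A z) : SingularApprox M A z := by
  intro F δ η hδ hη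
  have : (atTop : Filter (Cells A)).NeBot := Cells.atTop_neBot hA
  let Φ : PinchForm M A z := ⟨F, Ultrafilter.of atTop, Ultrafilter.of_le _, hA, hz, hzp⟩
  obtain ⟨e, heM, hep, hze, hF, hq⟩ := Φ.exists_killed_approx h hδ
  refine ⟨e, heM, hep, hze, hF, ?_⟩
  have hev : ∀ᶠ s in (Φ.U : Filter (Cells A)), Φ.qf s e < η :=
    (Φ.tendsto_qf e).eventually (eventually_lt_nhds (by rw [hq]; exact hη))
  obtain ⟨s, hs⟩ := hev.exists
  refine ⟨s, fun v hv =>
    lt_of_le_of_lt (le_of_le_of_eq (b := ∑ v ∈ F, ∑ i, ‖e (s.c i v)‖ ^ 2) ?_ ?_) hs⟩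
  · exact Finset.single_le_sum (f := fun v => ∑ i, ‖e (s.c i v)‖ ^ 2)
      (fun v _ => Finset.sum_nonneg fun i _ => sq_nonneg _) hv
  · rw [PinchForm.qf, PinchForm.idx, Finset.sum_product]
    refine Finset.sum_congr rfl fun w _ => Finset.sum_congr rfl fun i _ => ?_
    have hez : e * z = e := by
      have := congrArg star hze
      rwa [star_mul, hzp.isSelfAdjoint.star_eq, hep.isSelfAdjoint.star_eq] at this
    congr 2
    change e (s.c i w) = (e * (s.c i * z)) w
    rw [masa_comm hA (s.mem i) hz, ← mul_assoc, hez]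
    rfl

end Vale.Agent.P078.General
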