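import Vale.Agent.P078.General.Defs

/-!
Paving inside a corner with a finite trace.
-/

noncomputable section

open Vale.Agent.P078.Finite

namespace Vale.Agent.P078.General

universe u

variable {H : Type u} [NormedAddCommGroup H] [InnerProductSpace ℂ H] [CompleteSpace H]

theorem pavableOn_of_corner {C0 : ℝ} (h : Paving.{u} C0) {M : VonNeumannAlgebra H}
    {A : StarSubalgebra ℂ (H →L[ℂ] H)} (D : Corner M A) {ε : ℝ} (hε : 0 < ε) {r : ℕ} (hr : 1 ≤ r)
    (hC : 4 * C0 ^ 2 ≤ ε ^ 2 * r) {x : H →L[ℂ] H} (hxM : x ∈ M) (hx : IsSelfAdjoint x) :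
    PavableOn M A D.p ε r x :=
  fun F δ hδ => paving_corner h D hε hr hC hxM hx F δ hδ

end Vale.Agent.P078.General
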