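import Vale.Agent.P078.Finite.Main
import Vale.Agent.P078.Finite.Standard
import Vale.Agent.P078.General.Central
import Vale.Agent.P078.General.CornerPave
import Vale.Agent.P078.General.Glue
import Vale.Agent.P078.General.Operators
import Vale.Agent.P078.General.Semifinite
import Vale.Agent.P078.General.Singular

noncomputable section

open scoped InnerProductSpace ENNReal
open Vale.Agent.P078.Finite

namespace Vale.Agent.P078.General

universe u

variable {H : Type u} [NormedAddCommGroup H] [InnerProductSpace ℂ H] [CompleteSpace H]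

/-- A projection on which nothing is asked. -/
theorem pavableOn_proj_zero (M : VonNeumannAlgebra H) (A : StarSubalgebra ℂ (H →L[ℂ] H)) {ε : ℝ}
    (hε : 0 ≤ ε) {r : ℕ} {x : H →L[ℂ] H} : PavableOn M A 0 ε r x := by
  intro F δ hδ
  exact ⟨fun _ => 0, 0, 0, fun _ => ⟨zero_mem A, IsStarProjection.zero _⟩, fun _ _ _ => by simp,
    by simp, zero_mem A, IsSelfAdjoint.zero _, by simp, by simp, zero_mem M,
    IsStarProjection.zero _, by simp, fun v _ => by simpa using hδ, by
      simpa using mul_nonneg hε (norm_nonneg x)⟩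

/-- So-paving for every maximal abelian subalgebra of every semifinite algebra. -/
theorem soPaving_semifinite : ∃ C : ℝ, 0 < C ∧
    ∀ (H : Type u) [NormedAddCommGroup H] [InnerProductSpace ℂ H] [CompleteSpace H]
      (M : VonNeumannAlgebra H) (A : StarSubalgebra ℂ (H →L[ℂ] H)),
      IsMasaIn M A → HasSemifiniteTrace M → PavesWith C M A := by
  obtain ⟨C0, hC0⟩ : ∃ C0 : ℝ, Paving.{u} C0 := ⟨_, paving_rate⟩
  refine ⟨4 * C0 ^ 2 + 8, by positivity,
    fun H _ _ _ M A hA ⟨J, ξ, hsym, hsep, hdense⟩ ε hε r hr x hxM hx => ?_⟩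
  have hr' : (4 * C0 ^ 2 + 8) ≤ ε ^ 2 * r := by
    rw [div_le_iff₀ (by positivity)] at hr
    linarith [mul_comm (r : ℝ) (ε ^ 2)]
  have hrpos : (0 : ℝ) < r := by
    by_contra h
    push Not at h
    nlinarith [mul_nonpos_of_nonneg_of_nonpos (sq_nonneg ε) h, sq_nonneg C0]
  rcases le_or_gt 1 ε with h1 | h1
  · intro F δ hδ
    let i0 : Fin r := ⟨0, by exact_mod_cast hrpos⟩
    refine ⟨fun i => if i = i0 then 1 else 0, 0, 1, fun i => ?_, fun i j hij => ?_, by simp,
      zero_mem A, IsSelfAdjoint.zero _, by simp, one_mem M, IsStarProjection.one _,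
      fun v _ => by simpa using hδ, ?_⟩
    · dsimp only
      split_ifs
      exacts [⟨one_mem A, IsStarProjection.one _⟩, ⟨zero_mem A, IsStarProjection.zero _⟩]
    · dsimp only
      split_ifs with a b <;> simp_all
    · rw [Finset.sum_eq_single i0 (fun j _ hj => by simp [hj]) (by simp)]
      simpa using le_mul_of_one_le_left (norm_nonneg x) h1
  · obtain ⟨z, hz, hzp, hzs, -, hcor⟩ := semifinite_split hA hsym hsep hdense
    set r1 := ⌊2 / ε⌋₊ + 1
    have hr1 : 2 / ε < r1 := by
      simpa [r1] using Nat.lt_floor_add_one (2 / ε)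
    have hr1' : ε ^ 2 * (r1 : ℝ) ≤ 3 := by
      have h2 : (r1 : ℝ) ≤ 2 / ε + 1 := by
        simpa [r1] using Nat.floor_le (show (0 : ℝ) ≤ 2 / ε by positivity)
      refine (mul_le_mul_of_nonneg_left h2 (sq_nonneg ε)).trans ?_
      rw [mul_add, mul_one, show ε ^ 2 * (2 / ε) = 2 * ε by field_simp]
      nlinarith
    have hle : r1 ≤ r := by
      have : (r1 : ℝ) ≤ r := by
        refine le_of_mul_le_mul_left ?_ (pow_pos hε 2)
        nlinarith [sq_nonneg C0]
      exact_mod_cast this
    obtain ⟨r0, rfl⟩ := Nat.exists_eq_add_of_le' hle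
    push_cast at hr'
    have hr0 : 4 * C0 ^ 2 + 5 ≤ ε ^ 2 * r0 := by nlinarith
    have hr01 : 1 ≤ r0 := by
      rcases Nat.eq_zero_or_pos r0 with h | h
      · subst h
        simp at hr0
        nlinarith [sq_nonneg C0]
      · exact h
    refine soPavableIn_glue hr01 fun F δ hδ => ?_
    obtain ⟨D, hDz, hDF⟩ := hcor F δ hδ
    exact ⟨D.p, z, D.hp, D.hproj, hz, hzp, hDz, hDF,
      pavableOn_of_corner hC0 D hε hr01 (by nlinarith) hxM hx,
      pavableOn_of_singular hA hz hzp hzs hε hr1 hxM hx⟩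

/-- So-paving with linearly many pieces where no normal functional is centralised by `A`. -/
theorem soPaving_noNormalCentral (M : VonNeumannAlgebra H) (A : StarSubalgebra ℂ (H →L[ℂ] H))
    (hA : IsMasaIn M A) (h : NoNormalCentral M A 1) {ε : ℝ} (hε : 0 < ε) {r : ℕ} (hr : 2 / ε < r)
    {x : H →L[ℂ] H} (hxM : x ∈ M) (hx : IsSelfAdjoint x) : SoPavableIn M A ε r x := by
  intro F δ hδ
  obtain ⟨p, a, q, hp, ho, hs, ha, has, han, -, hq, hqp, -, hF, hb⟩ :=
    pavableOn_of_singular hA (one_mem A) (IsStarProjection.one _)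
      (singularApprox_of_noNormalCentral hA (one_mem A) (IsStarProjection.one _) h) hε hr hxM hx F δ hδ
  exact ⟨p, a, q, hp, ho, hs, ha, has, han, hq, hqp, hF, hb⟩

/-- So-paving with linearly many pieces for diffuse maximal abelian algebras of operators. -/
theorem soPaving_diffuse (A : StarSubalgebra ℂ (H →L[ℂ] H)) (hA : IsMasaIn (allOps H) A)
    (hD : Vale.Agent.P078.IsDiffuse A) {ε : ℝ} (hε : 0 < ε) {r : ℕ} (hr : 2 / ε < r)
    {x : H →L[ℂ] H} (hx : IsSelfAdjoint x) : SoPavableIn (allOps H) A ε r x := by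
  intro F δ hδ
  obtain ⟨w, b, -⟩ := exists_hilbertBasis ℂ H
  obtain ⟨z, hz, hzp, hzs, hN, -⟩ := semifinite_split (ξ := fun j => b j) hA
    (fun y _ => weight_star_basis b y) (fun y _ hy => ext_basis b fun j => by rw [hy j, zero_apply])
    (allOps_dense b)
  rw [hN (noFiniteProj_of_diffuse b hD)] at hzs
  obtain ⟨p, a, q, hp, ho, hs, ha, has, han, -, hq, hqp, -, hF, hb⟩ :=
    pavableOn_of_singular hA (one_mem A) (IsStarProjection.one _) hzs hε hr (mem_allOps x) hx F δ hδ
  exact ⟨p, a, q, hp, ho, hs, ha, has, han, hq, hqp, hF, hb⟩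

end Vale.Agent.P078.General
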