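import Mathlib

/-!
Normal functionals centralised by an algebra.
-/

noncomputable section

namespace Vale.Agent.P078.General

universe u

variable {H : Type u} [NormedAddCommGroup H] [InnerProductSpace ℂ H] [CompleteSpace H]

/-- `L` is normal on `M`: it is additive on strongly convergent sums of orthogonal projections. -/
def IsNormalOn (M : VonNeumannAlgebra H) (L : (H →L[ℂ] H) → ℂ) : Prop :=
  ∀ (ι : Type u) (e : ι → H →L[ℂ] H) (P : H →L[ℂ] H),
    (∀ i, e i ∈ M ∧ IsStarProjection (e i)) → (∀ i j, i ≠ j → e i * e j = 0) →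
    P ∈ M → IsStarProjection P → (∀ v, HasSum (fun i => e i v) (P v)) →
    HasSum (fun i => L (e i)) (L P)

/-- Every positive normal functional on `M` centralised by `A` vanishes on `z`. -/
def NoNormalCentral (M : VonNeumannAlgebra H) (A : StarSubalgebra ℂ (H →L[ℂ] H))
    (z : H →L[ℂ] H) : Prop :=
  ∀ L : (H →L[ℂ] H) →ₗ[ℂ] ℂ,
    (∀ x ∈ M, (L (star x * x)).im = 0 ∧ 0 ≤ (L (star x * x)).re) →
    (∀ a ∈ A, IsStarProjection a → ∀ x ∈ M, L (a * x) = L (x * a)) →
    IsNormalOn M L → L z = 0

end Vale.Agent.P078.General
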