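import Vale.Agent.P078.General.Repr

/-!
Centrality against projections of `A` is centrality against `A`.
-/

noncomputable section

open scoped InnerProductSpace
open Filter Vale.Agent.P078.Finite

namespace Vale.Agent.P078.General

universe u

variable {H : Type u} [NormedAddCommGroup H] [InnerProductSpace ℂ H] [CompleteSpace H]
variable {M : VonNeumannAlgebra H} {A : StarSubalgebra ℂ (H →L[ℂ] H)}

/-- A maximal abelian subalgebra of `M` is a von Neumann algebra. -/
def masaAlgebra (hA : IsMasaIn M A) : VonNeumannAlgebra H where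
  toStarSubalgebra := A
  centralizer_centralizer' := by
    refine Set.Subset.antisymm (fun T hT => ?_) fun T hT S hS => (hS T hT).symm
    have hc : ∀ S : H →L[ℂ] H, (∀ a ∈ A, a * S = S * a) → S * T = T * S := fun S hS => hT S hS
    have hTM : T ∈ M := mem_of_comm fun s hs => hc s fun a ha =>
      VonNeumannAlgebra.mem_commutant_iff.1 hs a (hA.1 a ha)
    exact (hA.2 T hTM).2 fun a ha => (hc a fun b hb => masa_comm hA hb ha).symm

theorem mem_masaAlgebra (hA : IsMasaIn M A) {T : H →L[ℂ] H} : T ∈ masaAlgebra hA ↔ T ∈ A :=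
  Iff.rfl

theorem algebraMap_real_eq (c : ℝ) :
    algebraMap ℝ (H →L[ℂ] H) c = (c : ℂ) • (1 : H →L[ℂ] H) := by
  rw [Algebra.algebraMap_eq_smul_one, ← Complex.coe_smul]

/-- Norm approximation of a positive element of `A` by combinations of projections of `A`. -/
theorem exists_proj_comb (hA : IsMasaIn M A) {b : H →L[ℂ] H} (hb : b ∈ A) (h0 : 0 ≤ b) {ε : ℝ}
    (hε : 0 < ε) :
    ∃ (n : ℕ) (c : ℕ → ℝ) (d : ℕ → H →L[ℂ] H), (∀ k, d k ∈ A ∧ IsStarProjection (d k)) ∧
      ‖b - ∑ k ∈ Finset.range n, ((c k : ℝ) : ℂ) • d k‖ ≤ ε := by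
  obtain ⟨s, hs, hss⟩ := exists_sqrt (M := masaAlgebra hA) hb h0
  obtain ⟨n, hn⟩ := exists_nat_gt (8 * (‖s‖ ^ 2 + 1) / ε)
  obtain ⟨d, hd, -, hbnd⟩ :=
    exists_layers (M := masaAlgebra hA) (IsStarProjection.one (H →L[ℂ] H)) hs (mul_one s) n
  set h : ℝ := (‖s‖ ^ 2 + 1) / ((n : ℝ) + 1) with hh
  have hh0 : 0 < h := by positivity
  refine ⟨n + 1, fun k => ((k : ℝ) + 1) * h, d, fun k => ⟨(mem_masaAlgebra hA).1 (hd k).1, (hd k).2⟩, ?_⟩
  set S := ∑ k ∈ Finset.range (n + 1), ((((k : ℝ) + 1) * h : ℝ) : ℂ) • d k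
  set D := b - S
  have hSs : IsSelfAdjoint S := by
    rw [IsSelfAdjoint, star_sum]
    refine Finset.sum_congr rfl fun k _ => ?_
    rw [star_smul, (hd k).2.isSelfAdjoint.star_eq, Complex.star_def, Complex.conj_ofReal]
  have hbs : IsSelfAdjoint b := hss ▸ IsSelfAdjoint.star_mul_self s
  have hcs : ∀ c : ℝ, IsSelfAdjoint ((c : ℂ) • (1 : H →L[ℂ] H)) := fun c =>
    IsSelfAdjoint.smul (Complex.conj_ofReal _) (IsSelfAdjoint.one _)
  have hre : ∀ v, |(⟪v, D v⟫_ℂ).re| ≤ 2 * h * ‖v‖ ^ 2 := by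
    intro v
    simp only [D, ← hss, S, sub_apply, inner_sub_right, Complex.sub_re, inner_star_mul, sum_apply,
      inner_sum, smul_apply, inner_smul_right, Complex.re_sum, Complex.re_ofReal_mul,
      ← sq_norm_proj' (hd _).2]
    rw [show (⟪s v, s v⟫_ℂ).re = ‖s v‖ ^ 2 from inner_self_eq_norm_sq (𝕜 := ℂ) _]
    exact hbnd v
  have hv : ∀ v : H, (⟪v, v⟫_ℂ).re = ‖v‖ ^ 2 := fun v => inner_self_eq_norm_sq (𝕜 := ℂ) v
  have h1 : 0 ≤ D + ((2 * h : ℝ) : ℂ) • 1 := by
    refine le_of_form (IsSelfAdjoint.zero _) ((hbs.sub hSs).add (hcs _)) fun v => ?_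
    rw [zero_apply, inner_zero_right, Complex.zero_re, add_apply, inner_add_right, Complex.add_re,
      smul_apply, one_apply_eq_self, inner_smul_right, Complex.re_ofReal_mul, hv]
    linarith [(abs_le.1 (hre v)).1]
  have h2 : D + ((2 * h : ℝ) : ℂ) • 1 ≤ algebraMap ℝ (H →L[ℂ] H) (4 * h) := by
    rw [algebraMap_real_eq]
    refine le_of_form ((hbs.sub hSs).add (hcs _)) (hcs _) fun v => ?_
    rw [add_apply, inner_add_right, Complex.add_re, smul_apply, smul_apply, one_apply_eq_self,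
      inner_smul_right, inner_smul_right, Complex.re_ofReal_mul, Complex.re_ofReal_mul, hv]
    linarith [(abs_le.1 (hre v)).2]
  have h3 : ‖D + ((2 * h : ℝ) : ℂ) • (1 : H →L[ℂ] H)‖ ≤ 4 * h := by
    refine (CStarAlgebra.norm_le_norm_of_nonneg_of_le h1 h2).trans ?_
    rw [Algebra.algebraMap_eq_smul_one, norm_smul, Real.norm_eq_abs, abs_of_pos (by positivity)]
    exact mul_le_of_le_one_right (by positivity) ContinuousLinearMap.norm_id_le
  have h4 : ‖((2 * h : ℝ) : ℂ) • (1 : H →L[ℂ] H)‖ ≤ 2 * h := by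
    rw [norm_smul, Complex.norm_real, Real.norm_eq_abs, abs_of_pos (by positivity)]
    exact mul_le_of_le_one_right (by positivity) ContinuousLinearMap.norm_id_le
  have h5 : ‖D‖ ≤ 6 * h := by
    calc ‖D‖ = ‖(D + ((2 * h : ℝ) : ℂ) • 1) - ((2 * h : ℝ) : ℂ) • 1‖ := by rw [add_sub_cancel_right]
      _ ≤ _ := norm_sub_le _ _
      _ ≤ _ := by linarith
  refine h5.trans ?_
  rw [div_lt_iff₀ hε] at hn
  rw [hh, mul_div, div_le_iff₀ (by positivity)]
  nlinarith [sq_nonneg ‖s‖]

/-- Centrality against projections gives centrality against all of `A`. -/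
theorem central_all (hA : IsMasaIn M A) {L : (H →L[ℂ] H) →ₗ[ℂ] ℂ} {K : ℝ}
    (hK : ∀ T ∈ M, ‖L T‖ ≤ K * ‖T‖)
    (hc : ∀ a ∈ A, IsStarProjection a → ∀ x ∈ M, L (a * x) = L (x * a)) {a x : H →L[ℂ] H}
    (ha : a ∈ A) (hx : x ∈ M) : L (a * x) = L (x * a) := by
  suffices hpos : ∀ b ∈ A, 0 ≤ b → L (b * x) = L (x * b) by
    have hsa : ∀ b ∈ A, IsSelfAdjoint b → L (b * x) = L (x * b) := by
      intro b hb hbs
      have hAc : algebraMap ℝ (H →L[ℂ] H) ‖b‖ ∈ A := by
        rw [algebraMap_real_eq]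
        exact A.smul_mem (one_mem A) _
      have h0 : 0 ≤ b + algebraMap ℝ (H →L[ℂ] H) ‖b‖ := by
        have := hbs.neg_algebraMap_norm_le_self
        rwa [neg_le_iff_add_nonneg] at this
      have h := hpos _ (add_mem hb hAc) h0
      rw [add_mul, mul_add, map_add, map_add, ← Algebra.commutes ‖b‖ x] at h
      exact add_right_cancel h
    set v := Complex.I • (a - star a) with hv
    have e : a = (1 / 2 : ℂ) • (a + star a - Complex.I • v) := by
      rw [hv, smul_smul, Complex.I_mul_I, neg_one_smul, sub_neg_eq_add]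
      rw [show a + star a + (a - star a) = (2 : ℂ) • a by rw [two_smul]; abel, smul_smul]
      norm_num
    have hu' := hsa _ (add_mem ha (star_mem ha)) (IsSelfAdjoint.add_star_self a)
    have hv' := hsa v (A.smul_mem (sub_mem ha (star_mem ha)) _) (by
      rw [IsSelfAdjoint, hv, star_smul, star_sub, star_star, Complex.star_def, Complex.conj_I,
        neg_smul, ← smul_neg, neg_sub])
    rw [e]
    simp only [mul_smul_comm, smul_mul_assoc, mul_sub, sub_mul, map_smul, map_sub, hu', hv']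
  intro b hb h0
  rw [← sub_eq_zero, ← norm_le_zero_iff]
  refine le_of_forall_pos_le_add fun ε hε => ?_
  obtain ⟨n, c, d, hd, hbd⟩ :=
    exists_proj_comb hA hb h0 (show 0 < ε / (2 * |K| * ‖x‖ + 1) by positivity)
  set S := ∑ k ∈ Finset.range n, ((c k : ℝ) : ℂ) • d k with hS
  have hSM : S ∈ M := sum_mem fun k _ => M.smul_mem (hA.1 _ (hd k).1) _
  have e : L (S * x) = L (x * S) := by
    simp only [hS, Finset.sum_mul, Finset.mul_sum, smul_mul_assoc, mul_smul_comm, map_sum, map_smul]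
    exact Finset.sum_congr rfl fun k _ => by rw [hc _ (hd k).1 (hd k).2 x hx]
  have e2 : L (b * x) - L (x * b) = L ((b - S) * x) - L (x * (b - S)) := by
    rw [sub_mul, mul_sub, map_sub, map_sub, e]
    abel
  rw [e2, zero_add]
  have hbS : b - S ∈ M := sub_mem (hA.1 b hb) hSM
  have h1 := (hK _ (mul_mem hbS hx)).trans (mul_le_mul (le_abs_self K) (norm_mul_le _ _)
    (norm_nonneg _) (abs_nonneg K))
  have h2 := (hK _ (mul_mem hx hbS)).trans (mul_le_mul (le_abs_self K) (norm_mul_le _ _)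
    (norm_nonneg _) (abs_nonneg K))
  refine (norm_sub_le _ _).trans ((add_le_add h1 h2).trans ?_)
  have h3 := mul_le_mul_of_nonneg_left hbd (mul_nonneg (mul_nonneg (abs_nonneg K) (norm_nonneg x))
    zero_le_two)
  have h4 : |K| * ‖x‖ * 2 * (ε / (2 * |K| * ‖x‖ + 1)) ≤ ε := by
    rw [mul_div, div_le_iff₀ (by positivity)]
    nlinarith [abs_nonneg K, norm_nonneg x]
  linarith

end Vale.Agent.P078.General
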