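import Vale.Agent.P078.General.Tools
import Vale.Agent.P078.Finite.Calculus

/-!
The directed set of partitions and weak cluster points of pinchings.
-/

noncomputable section

open scoped InnerProductSpace ENNReal NNReal
open Filter Vale.Agent.P078.Finite

namespace Vale.Agent.P078.General

universe u

variable {H : Type u} [NormedAddCommGroup H] [InnerProductSpace ℂ H] [CompleteSpace H]
variable {M : VonNeumannAlgebra H} {A : StarSubalgebra ℂ (H →L[ℂ] H)}

theorem masa_comm (hA : IsMasaIn M A) {a b : H →L[ℂ] H} (ha : a ∈ A) (hb : b ∈ A) :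
    a * b = b * a :=
  (hA.2 a (hA.1 a ha)).1 ha b hb

namespace Cells

theorem c_mem_M (hA : IsMasaIn M A) (s : Cells A) (i : Fin s.n) : s.c i ∈ M := hA.1 _ (s.mem i)

theorem sum_apply_eq (s : Cells A) (v : H) : ∑ i, s.c i v = v := by
  rw [← sum_apply, s.sum_eq, one_apply_eq_self]

theorem orth_apply (s : Cells A) {i j : Fin s.n} (h : i ≠ j) (v : H) : s.c i (s.c j v) = 0 :=
  congrArg (fun T : H →L[ℂ] H => T v) (s.orth i j h)

theorem inner_c (s : Cells A) (i : Fin s.n) (u v : H) : ⟪s.c i u, v⟫_ℂ = ⟪u, s.c i v⟫_ℂ :=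
  inner_sa (s.proj i).isSelfAdjoint u v

theorem sum_sq (s : Cells A) (v : H) : ∑ i, ‖s.c i v‖ ^ 2 = ‖v‖ ^ 2 := by
  simp only [sq_norm_proj' (s.proj _)]
  rw [← Complex.re_sum, ← inner_sum, s.sum_apply_eq]
  exact inner_self_eq_norm_sq (𝕜 := ℂ) v

/-- Pythagoras. -/
theorem sq_norm_sum (s : Cells A) (u : Fin s.n → H) :
    ‖∑ i, s.c i (u i)‖ ^ 2 = ∑ i, ‖s.c i (u i)‖ ^ 2 := by
  classical
  rw [← s.sum_sq (∑ i, s.c i (u i))]
  refine Finset.sum_congr rfl fun i _ => ?_
  rw [map_sum, Finset.sum_eq_single i (fun j _ hj => s.orth_apply (Ne.symm hj) _)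
    (fun h => absurd (Finset.mem_univ i) h), proj_idem_apply (s.proj i)]

theorem inner_pinch (s : Cells A) (x : H →L[ℂ] H) (v w : H) :
    ⟪v, s.pinch x w⟫_ℂ = ∑ i, ⟪s.c i v, x (s.c i w)⟫_ℂ := by
  rw [pinch, sum_apply, inner_sum]
  exact Finset.sum_congr rfl fun i _ => (s.inner_c i _ _).symm

theorem pinch_apply (s : Cells A) (x : H →L[ℂ] H) (v : H) :
    s.pinch x v = ∑ i, s.c i (x (s.c i v)) := by
  rw [pinch, sum_apply]
  rfl

theorem norm_pinch_le (s : Cells A) (x : H →L[ℂ] H) : ‖s.pinch x‖ ≤ ‖x‖ := by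
  refine ContinuousLinearMap.opNorm_le_bound _ (norm_nonneg _) fun v => ?_
  refine (pow_le_pow_iff_left₀ (norm_nonneg _) (by positivity) two_ne_zero).1 ?_
  rw [pinch_apply, s.sq_norm_sum fun i => x (s.c i v), mul_pow, ← s.sum_sq v, Finset.mul_sum]
  refine Finset.sum_le_sum fun i _ => ?_
  rw [← mul_pow]
  exact pow_le_pow_left₀ (norm_nonneg _)
    ((norm_proj_apply_le (s.proj i) _).trans (x.le_opNorm _)) 2

theorem pinch_mem (hA : IsMasaIn M A) (s : Cells A) {x : H →L[ℂ] H} (hx : x ∈ M) :
    s.pinch x ∈ M :=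
  sum_mem fun i _ => mul_mem (mul_mem (c_mem_M hA s i) hx) (c_mem_M hA s i)

theorem pinch_sa (s : Cells A) {x : H →L[ℂ] H} (hx : IsSelfAdjoint x) :
    IsSelfAdjoint (s.pinch x) := by
  rw [IsSelfAdjoint, pinch, star_sum]
  refine Finset.sum_congr rfl fun i _ => ?_
  rw [star_mul, star_mul, (s.proj i).isSelfAdjoint.star_eq, hx.star_eq, mul_assoc]

/-- The pinching of a projection as a quadratic form. -/
theorem inner_pinch_proj (s : Cells A) {e : H →L[ℂ] H} (he : IsStarProjection e) (v : H) :
    ⟪v, s.pinch e v⟫_ℂ = ((∑ i, ‖e (s.c i v)‖ ^ 2 : ℝ) : ℂ) := by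
  rw [inner_pinch, Complex.ofReal_sum]
  refine Finset.sum_congr rfl fun i _ => ?_
  rw [← proj_idem_apply he, ← inner_sa he.isSelfAdjoint, inner_self_eq_norm_sq_to_K,
    proj_idem_apply he]
  norm_num

/-- A projection splits every refinement of its two-piece partition. -/
theorem pinch_comm_c (hA : IsMasaIn M A) {s t : Cells A} (h : s ≤ t) (i : Fin s.n)
    (x : H →L[ℂ] H) : s.c i * t.pinch x = t.pinch x * s.c i := by
  rw [pinch, Finset.mul_sum, Finset.sum_mul]
  refine Finset.sum_congr rfl fun j _ => ?_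
  obtain ⟨k, hk⟩ := h j
  have hr : t.c j * s.c k = t.c j := by rw [masa_comm hA (t.mem j) (s.mem k), hk]
  rcases eq_or_ne i k with rfl | hne
  · rw [mul_assoc (t.c j * x), hr, ← mul_assoc, ← mul_assoc, hk]
  · have h1 : s.c i * t.c j = 0 := by rw [← hk, ← mul_assoc, s.orth i k hne, zero_mul]
    have h2 : t.c j * s.c i = 0 := by rw [masa_comm hA (t.mem j) (s.mem i), h1]
    rw [mul_assoc (t.c j * x), h2, ← mul_assoc, ← mul_assoc, h1, zero_mul, zero_mul, mul_zero]

/-- The trivial partition. -/
def one (A : StarSubalgebra ℂ (H →L[ℂ] H)) : Cells A where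
  n := 1
  c := fun _ => 1
  mem := fun _ => one_mem A
  proj := fun _ => IsStarProjection.one _
  orth := fun i j h => absurd (Subsingleton.elim i j) h
  sum_eq := by simp

instance : Nonempty (Cells A) := ⟨one A⟩

/-- The partition `{p, 1 - p}`. -/
def two {p : H →L[ℂ] H} (hp : p ∈ A) (hpp : IsStarProjection p) : Cells A where
  n := 2
  c := ![p, 1 - p]
  mem := Fin.forall_fin_two.2 ⟨hp, sub_mem (one_mem A) hp⟩
  proj := Fin.forall_fin_two.2 ⟨hpp, hpp.one_sub⟩
  orth := by
    intro i j h
    fin_cases i <;> fin_cases j <;>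
      simp_all [hpp.mul_one_sub_self, hpp.one_sub_mul_self]
  sum_eq := by simp [Fin.sum_univ_two]

theorem pinch_comm_proj (hA : IsMasaIn M A) {p : H →L[ℂ] H} (hp : p ∈ A)
    (hpp : IsStarProjection p) {t : Cells A} (h : two hp hpp ≤ t) (x : H →L[ℂ] H) :
    p * t.pinch x = t.pinch x * p :=
  pinch_comm_c hA h (0 : Fin 2) x

/-- Refining each cell of `s` by its own partition. -/
def glue (hA : IsMasaIn M A) (s : Cells A) {n : ℕ} (d : Fin s.n → Fin n → H →L[ℂ] H)
    (hd : ∀ i j, d i j ∈ A) (hp : ∀ i j, IsStarProjection (d i j))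
    (ho : ∀ i j k, j ≠ k → d i j * d i k = 0) (hs : ∀ i, ∑ j, d i j = 1) : Cells A where
  n := s.n * n
  c := fun m => s.c (finProdFinEquiv.symm m).1 *
    d (finProdFinEquiv.symm m).1 (finProdFinEquiv.symm m).2
  mem := fun m => mul_mem (s.mem _) (hd _ _)
  proj := fun m => (s.proj _).mul (hp _ _) (masa_comm hA (s.mem _) (hd _ _))
  orth := by
    intro m m' h
    obtain ⟨⟨i, j⟩, rfl⟩ := finProdFinEquiv.surjective m
    obtain ⟨⟨i', j'⟩, rfl⟩ := finProdFinEquiv.surjective m'
    simp only [Equiv.symm_apply_apply]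
    rw [mul_assoc, ← mul_assoc (d i j), masa_comm hA (hd i j) (s.mem i'), mul_assoc (s.c i'),
      ← mul_assoc]
    rcases eq_or_ne i i' with rfl | hne
    · rw [ho i j j' (fun e => h (by rw [e])), mul_zero]
    · rw [s.orth i i' hne, zero_mul]
  sum_eq := by
    rw [← finProdFinEquiv.sum_comp, Fintype.sum_prod_type]
    simp only [Equiv.symm_apply_apply, ← Finset.mul_sum, hs, mul_one, s.sum_eq]

theorem le_glue (hA : IsMasaIn M A) (s : Cells A) {n : ℕ} (d : Fin s.n → Fin n → H →L[ℂ] H)
    (hd : ∀ i j, d i j ∈ A) (hp : ∀ i j, IsStarProjection (d i j))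
    (ho : ∀ i j k, j ≠ k → d i j * d i k = 0) (hs : ∀ i, ∑ j, d i j = 1) :
    s ≤ glue hA s d hd hp ho hs := fun m =>
  ⟨(finProdFinEquiv.symm m).1, by
    change s.c _ * (s.c _ * _) = s.c _ * _
    rw [← mul_assoc, (s.proj _).isIdempotentElem.eq]⟩

/-- The common refinement. -/
def join (hA : IsMasaIn M A) (s t : Cells A) : Cells A :=
  glue hA s (fun _ => t.c) (fun _ => t.mem) (fun _ => t.proj) (fun _ => t.orth) (fun _ => t.sum_eq)

theorem le_join_right (hA : IsMasaIn M A) (s t : Cells A) : t ≤ join hA s t := fun m =>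
  ⟨(finProdFinEquiv.symm m).2, by
    change t.c _ * (s.c _ * t.c _) = s.c _ * t.c _
    rw [← mul_assoc, masa_comm hA (t.mem _) (s.mem _), mul_assoc, (t.proj _).isIdempotentElem.eq]⟩

theorem exists_ge (hA : IsMasaIn M A) (s t : Cells A) : ∃ u, s ≤ u ∧ t ≤ u :=
  ⟨join hA s t, le_glue hA s _ _ _ _ _, le_join_right hA s t⟩

theorem isDirected (hA : IsMasaIn M A) : IsDirected (Cells A) (· ≤ ·) := ⟨exists_ge hA⟩

theorem atTop_neBot (hA : IsMasaIn M A) : (atTop : Filter (Cells A)).NeBot :=
  have := isDirected hA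
  atTop_neBot_iff.2 ⟨inferInstance, inferInstance⟩

end Cells

/-- An operator commuting with the projections of `A` commutes with `A`. -/
theorem comm_of_comm_proj (hA : IsMasaIn M A) {a : H →L[ℂ] H}
    (ha : ∀ p ∈ A, IsStarProjection p → a * p = p * a) : ∀ b ∈ A, a * b = b * a := by
  suffices hsa : ∀ b ∈ A, IsSelfAdjoint b → a * b = b * a by
    intro b hb
    set v := Complex.I • (b - star b) with hv
    have e : b = (1 / 2 : ℂ) • (b + star b - Complex.I • v) := by
      rw [hv, smul_smul, Complex.I_mul_I, neg_one_smul, sub_neg_eq_add]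
      rw [show b + star b + (b - star b) = (2 : ℂ) • b by rw [two_smul]; abel, smul_smul]
      norm_num
    have hu' := hsa _ (add_mem hb (star_mem hb)) (IsSelfAdjoint.add_star_self b)
    have hv' := hsa v (A.smul_mem (sub_mem hb (star_mem hb)) _) (by
      rw [IsSelfAdjoint, hv, star_smul, star_sub, star_star, Complex.star_def, Complex.conj_I,
        neg_smul, ← smul_neg, neg_sub])
    rw [e]
    simp only [mul_smul_comm, smul_mul_assoc, mul_sub, sub_mul, hu', hv']
  intro b hb hbs
  rw [← sub_eq_zero, ← norm_le_zero_iff]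
  refine le_of_forall_pos_le_add fun ε hε => ?_
  rw [zero_add]
  set θ := ε / (2 * ‖a‖ + 1) with hθ
  have hθ0 : 0 < θ := by positivity
  set Rb := ‖b‖ + 1
  obtain ⟨n, hn⟩ := exists_nat_gt (2 * Rb / θ)
  set t : ℕ → ℝ := fun k => -Rb + k * θ with htdef
  set Tk : ℕ → H →L[ℂ] H := fun k => b - (t k : ℂ) • 1 with hTk
  have hTA : ∀ k, Tk k ∈ A := fun k => sub_mem hb (A.smul_mem (one_mem A) _)
  have hTs : ∀ k, IsSelfAdjoint (Tk k) := fun k =>
    hbs.sub (IsSelfAdjoint.smul (Complex.conj_ofReal _) (IsSelfAdjoint.one _))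
  have hk : ∀ k, ∃ q ∈ A, IsStarProjection q ∧ ‖Tk k * q‖ ≤ θ ∧
      ∀ v, θ * ‖(1 - q) v‖ ≤ ‖Tk k ((1 - q) v)‖ := by
    intro k
    obtain ⟨q, hqM, hqp, hqc, -, h1, -, h2⟩ := exists_cut (hA.1 _ (hTA k)) (hTs k) hθ0
    exact ⟨q, (hA.2 q hqM).2 fun c hc => (hqc c (masa_comm hA hc (hTA k))
      (masa_comm hA (star_mem hc) (hTA k))).symm, hqp, h1, h2⟩
  choose q hqA hqp hq1 hq2 using hk
  set r : ℕ → H →L[ℂ] H := fun k => ((List.range k).map fun i => 1 - q i).prod with hr
  have hrs : ∀ k, r (k + 1) = r k * (1 - q k) := fun k => by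
    simp [hr, List.range_succ]
  have hrA : ∀ k, r k ∈ A ∧ IsStarProjection (r k) := by
    intro k
    induction k with
    | zero => exact ⟨by simp [hr], by simp [hr]⟩
    | succ k ih =>
      have h1 : 1 - q k ∈ A := sub_mem (one_mem A) (hqA k)
      rw [hrs]
      exact ⟨mul_mem ih.1 h1, ih.2.mul (hqp k).one_sub (masa_comm hA ih.1 h1)⟩
  have hbound : ∀ k w, k ≤ n → r k w = w → k = 0 ∨
      ∀ i < k, θ * ‖w‖ ≤ ‖Tk i w‖ := by
    intro k
    induction k with
    | zero => exact fun w _ _ => Or.inl rfl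
    | succ k ih =>
      refine fun w hkn hw => Or.inr fun i hi => ?_
      have hfix : (1 - q k) w = w := by
        rw [← hw, hrs]
        change (1 - q k) (r k ((1 - q k) w)) = r k ((1 - q k) w)
        change ((1 - q k) * r k) ((1 - q k) w) = _
        rw [masa_comm hA (sub_mem (one_mem A) (hqA k)) (hrA k).1]
        change r k ((1 - q k) ((1 - q k) w)) = _
        rw [proj_idem_apply (hqp k).one_sub]
      rcases Nat.lt_succ_iff_lt_or_eq.1 hi with h | h
      · have hw' : r k w = w := by
          conv_lhs => rw [← hfix]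
          exact (congrArg (fun T : H →L[ℂ] H => T w) (hrs k)).symm.trans hw
        rcases ih w (by omega) hw' with h0 | h0
        · omega
        · exact h0 i h
      · subst h
        have := hq2 i w
        rwa [hfix] at this
  set c : ℕ → H →L[ℂ] H := fun k => r k * q k with hc
  have htel : ∀ k, ∑ i ∈ Finset.range k, c i + r k = 1 := by
    intro k
    induction k with
    | zero => simp [hr]
    | succ k ih =>
      rw [Finset.sum_range_succ, hrs, add_assoc]
      simp only [hc]
      rw [← mul_add, add_sub_cancel, mul_one, ih]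
  have hrn : r (n + 1) = 0 := by
    refine ContinuousLinearMap.ext fun v => ?_
    set P : ℕ → H →L[ℂ] H := fun k =>
      cfc (fun s => ∏ i ∈ Finset.range k, max 0 (|s - t i| - θ / 2)) b with hP
    have hcov : ∀ s ∈ spectrum ℝ b, ∃ i ∈ Finset.range (n + 1), |s - t i| ≤ θ / 2 := by
      intro s hs
      have hs' := abs_le.1 (abs_le_of_mem_spectrum hbs hs)
      refine ⟨⌊(s + Rb) / θ + 1 / 2⌋₊, Finset.mem_range.2 ?_, ?_⟩
      · rw [Nat.floor_lt (by have : 0 ≤ (s + Rb) / θ := div_nonneg (by linarith) hθ0.le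
                             linarith)]
        have : (s + Rb) / θ ≤ 2 * Rb / θ := div_le_div_of_nonneg_right (by linarith) hθ0.le
        push_cast
        linarith
      · have h0 : 0 ≤ (s + Rb) / θ + 1 / 2 := by
          have : 0 ≤ (s + Rb) / θ := div_nonneg (by linarith) hθ0.le
          linarith
        have e : s - t ⌊(s + Rb) / θ + 1 / 2⌋₊
            = θ * ((s + Rb) / θ - ⌊(s + Rb) / θ + 1 / 2⌋₊) := by
          simp only [htdef]
          field_simp
          ring
        rw [e, abs_mul, abs_of_pos hθ0, div_eq_mul_one_div θ 2]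
        refine mul_le_mul_of_nonneg_left (abs_le.2 ⟨?_, ?_⟩) hθ0.le
        · linarith [Nat.floor_le h0]
        · linarith [Nat.lt_floor_add_one ((s + Rb) / θ + 1 / 2)]
    have hP0 : P (n + 1) = 0 := by
      rw [hP, ← cfc_zero ℝ b]
      refine cfc_congr fun s hs => ?_
      obtain ⟨i, hi, hsi⟩ := hcov s hs
      exact Finset.prod_eq_zero hi (by simp [hsi])
    set w := r (n + 1) v with hw
    have hrw : r (n + 1) w = w := proj_idem_apply (hrA _).2 v
    have hstep : ∀ k ≤ n + 1, P k w = 0 → w = 0 := by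
      intro k
      induction k with
      | zero =>
        intro _ h
        simpa [hP, cfc_const_one ℝ b hbs] using h
      | succ k ih =>
        intro hk h
        refine ih (by omega) ?_
        have e1 : P (k + 1) = cfc (fun s => max 0 (|s - t k| - θ / 2)) b * P k := by
          simp only [hP, Finset.prod_range_succ]
          rw [cfc_mul _ _ b (by fun_prop) (by fun_prop)]
          exact ((cfc_commute_cfc _ _ b).eq)
        have hcomm : r (n + 1) * P k = P k * r (n + 1) :=
          ((show Commute b (r (n + 1)) from masa_comm hA hb (hrA _).1).cfc_real _).symm.eq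
        set u := P k w with hu
        have hru : r (n + 1) u = u := by
          rw [hu]
          change (r (n + 1) * P k) w = _
          rw [hcomm]
          change P k (r (n + 1) w) = _
          rw [hrw]
        have hlow : θ * ‖u‖ ≤ ‖Tk k u‖ := by
          have hru' : r (n + 1) u = u := hru
          rw [hrs] at hru'
          rcases Nat.lt_succ_iff_lt_or_eq.1 (show k < n + 1 by omega) with hlt | hle
          · have hq' : (1 - q n) u = u := by
              rw [← hru']
              change ((1 - q n) * r n) ((1 - q n) u) = _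
              rw [masa_comm hA (sub_mem (one_mem A) (hqA n)) (hrA n).1]
              change r n ((1 - q n) ((1 - q n) u)) = _
              rw [proj_idem_apply (hqp n).one_sub]
              rfl
            have hrn' : r n u = u := by
              conv_lhs => rw [← hq']
              exact hru'
            rcases hbound n u le_rfl hrn' with h0 | h0
            · omega
            · exact h0 k hlt
          · subst hle
            have hq' : (1 - q k) u = u := by
              rw [← hru']
              change ((1 - q k) * r k) ((1 - q k) u) = _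
              rw [masa_comm hA (sub_mem (one_mem A) (hqA k)) (hrA k).1]
              change r k ((1 - q k) ((1 - q k) u)) = _
              rw [proj_idem_apply (hqp k).one_sub]
              rfl
            have := hq2 k u
            rwa [hq'] at this
        set g := cfc (fun s => max 0 (|s - t k| - θ / 2)) b with hg
        have hgu : g u = 0 := by
          rw [e1] at h
          exact h
        have key : Tk k * Tk k ≤ algebraMap ℝ (H →L[ℂ] H) ((θ / 2) ^ 2) +
            cfc (fun s => |s - t k| + θ / 2) b * g := by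
          have e2 : Tk k = cfc (fun s => s - t k) b := by
            rw [cfc_sub _ _ b, cfc_id' ℝ b hbs, cfc_const _ b hbs, hTk,
              Algebra.algebraMap_eq_smul_one, ← Complex.coe_smul]
          rw [e2, hg, ← cfc_mul _ _ b (by fun_prop) (by fun_prop),
            ← cfc_mul _ _ b (by fun_prop) (by fun_prop),
            ← cfc_const_add _ _ b (by fun_prop) hbs]
          refine cfc_mono (fun s _ => ?_) (by fun_prop) (by fun_prop)
          rcases le_total (|s - t k| - θ / 2) 0 with h1 | h1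
          · rw [max_eq_left h1]
            nlinarith [abs_mul_abs_self (s - t k), abs_nonneg (s - t k)]
          · rw [max_eq_right h1]
            nlinarith [abs_mul_abs_self (s - t k)]
        have h0 := (ContinuousLinearMap.le_def _ _).1 key |>.re_inner_nonneg_right u
        rw [sub_apply, add_apply, mul_apply_eq_comp, mul_apply_eq_comp,
          hgu, map_zero, add_zero, inner_sub_right, map_sub,
          ← inner_sa (hTs k) u (Tk k u), Algebra.algebraMap_eq_smul_one, smul_apply,
          one_apply_eq_self, ← Complex.coe_smul, inner_smul_right] at h0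
        simp only [RCLike.re_to_complex, Complex.re_ofReal_mul] at h0
        rw [show (⟪Tk k u, Tk k u⟫_ℂ).re = ‖Tk k u‖ ^ 2 from inner_self_eq_norm_sq (𝕜 := ℂ) _,
          show (⟪u, u⟫_ℂ).re = ‖u‖ ^ 2 from inner_self_eq_norm_sq (𝕜 := ℂ) _] at h0
        have hu0 : ‖u‖ = 0 := by
          have h2 := pow_le_pow_left₀ (by positivity) hlow 2
          have h3 : θ ^ 2 * ‖u‖ ^ 2 ≤ 0 := by
            rw [mul_pow] at h2
            have h4 : (θ / 2) ^ 2 * ‖u‖ ^ 2 = θ ^ 2 * ‖u‖ ^ 2 / 4 := by ring
            linarith [mul_nonneg (sq_nonneg θ) (sq_nonneg ‖u‖)]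
          exact pow_eq_zero_iff two_ne_zero |>.1
            (le_antisymm (nonpos_of_mul_nonpos_right h3 (by positivity)) (sq_nonneg _))
        exact norm_eq_zero.1 hu0
    rw [zero_apply]
    exact hstep (n + 1) le_rfl (by rw [hP0, zero_apply])
  set Q := ∑ i ∈ Finset.range (n + 1), (t i : ℂ) • c i with hQ
  have hcA : ∀ i, c i ∈ A ∧ IsStarProjection (c i) := fun i =>
    ⟨mul_mem (hrA i).1 (hqA i), (hrA i).2.mul (hqp i) (masa_comm hA (hrA i).1 (hqA i))⟩
  have hcomm : a * Q = Q * a := by
    simp only [hQ, Finset.mul_sum, Finset.sum_mul, mul_smul_comm, smul_mul_assoc]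
    exact Finset.sum_congr rfl fun i _ => by rw [ha _ (hcA i).1 (hcA i).2]
  have hdiff : b - Q = ∑ i ∈ Finset.range (n + 1), Tk i * c i := by
    have h1 : ∑ i ∈ Finset.range (n + 1), c i = 1 := by
      have := htel (n + 1)
      rwa [hrn, add_zero] at this
    simp only [hTk, sub_mul, smul_mul_assoc, one_mul, Finset.sum_sub_distrib, ← Finset.mul_sum,
      h1, mul_one, hQ]
  have hbQ : ‖b - Q‖ ≤ θ := by
    have horth : ∀ i j, i < j → c i * c j = 0 := by
      intro i j hij
      have h1 : ∀ k, i < k → q i * r k = 0 := by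
        intro k hk
        induction k with
        | zero => omega
        | succ k ih =>
          rw [hrs, ← mul_assoc]
          rcases Nat.lt_succ_iff_lt_or_eq.1 hk with h | h
          · rw [ih h, zero_mul]
          · subst h
            rw [masa_comm hA (hqA i) (hrA i).1, mul_assoc, (hqp i).mul_one_sub_self, mul_zero]
      simp only [hc]
      rw [mul_assoc, ← mul_assoc (q i), h1 j hij, zero_mul, mul_zero]
    refine ContinuousLinearMap.opNorm_le_bound _ hθ0.le fun v => ?_
    have h1 : ∑ i ∈ Finset.range (n + 1), c i = 1 := by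
      have := htel (n + 1)
      rwa [hrn, add_zero] at this
    set s : Cells A :=
      { n := n + 1
        c := fun i => c i
        mem := fun i => (hcA i).1
        proj := fun i => (hcA i).2
        orth := fun i j hij => by
          rcases lt_or_gt_of_ne (Fin.val_ne_of_ne hij) with h | h
          · exact horth _ _ h
          · rw [masa_comm hA (hcA i).1 (hcA j).1]
            exact horth _ _ h
        sum_eq := by rw [Fin.sum_univ_eq_sum_range c, h1] } with hs
    have e : (b - Q) v = ∑ i : Fin s.n, s.c i (Tk i (c i v)) := by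
      rw [hdiff, sum_apply, ← Fin.sum_univ_eq_sum_range (fun i => (Tk i * c i) v)]
      refine Finset.sum_congr rfl fun (i : Fin (n + 1)) _ => ?_
      change Tk i (c i v) = c i (Tk i (c i v))
      change _ = (c i * Tk i) (c i v)
      rw [masa_comm hA (hcA i).1 (hTA i)]
      change _ = Tk i (c i (c i v))
      rw [proj_idem_apply (hcA i).2]
    rw [e]
    refine (pow_le_pow_iff_left₀ (norm_nonneg _) (by positivity) two_ne_zero).1 ?_
    rw [s.sq_norm_sum fun i => Tk i (c i v), mul_pow, ← s.sum_sq v, Finset.mul_sum]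
    refine Finset.sum_le_sum fun i _ => ?_
    rw [← mul_pow]
    refine pow_le_pow_left₀ (norm_nonneg _) ((norm_proj_apply_le (s.proj i) _).trans ?_) 2
    have e2 : Tk i (c i v) = (Tk i * q i) (r i (c i v)) := by
      change _ = Tk i ((q i * r i * c i) v)
      rw [masa_comm hA (hqA i) (hrA i).1, show r i * q i = c i from rfl,
        (hcA i).2.isIdempotentElem.eq]
    rw [e2]
    refine ((Tk i * q i).le_opNorm _).trans (mul_le_mul (hq1 i) ?_ (norm_nonneg _) hθ0.le)
    exact norm_proj_apply_le (hrA i).2 _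
  have e : a * b - b * a = a * (b - Q) - (b - Q) * a := by
    simp only [mul_sub, sub_mul, hcomm]
    abel
  rw [e]
  refine (norm_sub_le _ _).trans ?_
  have : θ * (2 * ‖a‖ + 1) = ε := div_mul_cancel₀ _ (by positivity)
  nlinarith [norm_mul_le a (b - Q), norm_mul_le (b - Q) a, norm_nonneg a, norm_nonneg (b - Q)]

/-- A weak cluster point of the pinchings lies in `A`. -/
theorem exists_cluster (hA : IsMasaIn M A) (U : Ultrafilter (Cells A))
    (hU : (U : Filter (Cells A)) ≤ atTop) {x : H →L[ℂ] H} (hxM : x ∈ M) (hx : IsSelfAdjoint x) :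
    ∃ a ∈ A, IsSelfAdjoint a ∧ ‖a‖ ≤ ‖x‖ ∧
      ∀ v w, Tendsto (fun s : Cells A => ⟪v, s.pinch x w⟫_ℂ) U (nhds ⟪v, a w⟫_ℂ) := by
  have hbd : ∀ (s : Cells A) v w, ‖⟪v, s.pinch x w⟫_ℂ‖ ≤ ‖x‖ * ‖v‖ * ‖w‖ := fun s v w =>
    (norm_inner_le_norm _ _).trans (le_of_le_of_eq (mul_le_mul_of_nonneg_left
      (((s.pinch x).le_opNorm w).trans
        (mul_le_mul_of_nonneg_right (s.norm_pinch_le x) (norm_nonneg _))) (norm_nonneg _)) (by ring))
  have hex : ∀ v w, ∃ l, Tendsto (fun s : Cells A => ⟪v, s.pinch x w⟫_ℂ) U (nhds l) := by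
    intro v w
    obtain ⟨l, -, hl⟩ := (isCompact_closedBall (0 : ℂ) (‖x‖ * ‖v‖ * ‖w‖)).ultrafilter_le_nhds
      (U.map fun s => ⟪v, s.pinch x w⟫_ℂ) (le_principal_iff.2 (Filter.mem_map.2
        (Filter.Eventually.of_forall fun (s : Cells A) => by simpa using hbd s v w)))
    exact ⟨l, hl⟩
  choose l hl using hex
  let B0 : H →ₗ⋆[ℂ] H →ₗ[ℂ] ℂ := LinearMap.mk₂'ₛₗ (starRingEnd ℂ) (RingHom.id ℂ) l
    (fun v v' w => tendsto_nhds_unique (hl (v + v') w)
      (by simpa only [inner_add_left] using (hl v w).add (hl v' w)))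
    (fun c v w => tendsto_nhds_unique (hl (c • v) w)
      (by simpa only [inner_smul_left, smul_eq_mul] using (hl v w).const_mul _))
    (fun v w w' => tendsto_nhds_unique (hl v (w + w'))
      (by simpa only [map_add, inner_add_right] using (hl v w).add (hl v w')))
    (fun c v w => tendsto_nhds_unique (hl v (c • w))
      (by simpa only [map_smul, inner_smul_right, smul_eq_mul, RingHom.id_apply] using
        (hl v w).const_mul c))
  have hlb : ∀ v w, ‖l v w‖ ≤ ‖x‖ * ‖v‖ * ‖w‖ := fun v w =>
    le_of_tendsto (hl v w).norm (Eventually.of_forall fun s => hbd s v w)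
  let b := InnerProductSpace.continuousLinearMapOfBilin (B0.mkContinuous₂ ‖x‖ hlb)
  have hb : ∀ v w, ⟪b v, w⟫_ℂ = l v w := fun v w =>
    InnerProductSpace.continuousLinearMapOfBilin_apply _ v w
  have hsa : IsSelfAdjoint b := by
    refine LinearMap.IsSymmetric.isSelfAdjoint fun v w => ?_
    change ⟪b v, w⟫_ℂ = ⟪v, b w⟫_ℂ
    rw [hb, ← inner_conj_symm v (b w), hb]
    refine tendsto_nhds_unique (hl v w) (((Complex.continuous_conj.tendsto _).comp (hl w v)).congr
      fun s => ?_)
    simp only [Function.comp_apply, inner_conj_symm]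
    exact inner_sa (s.pinch_sa hx) v w
  have hlim : ∀ v w, Tendsto (fun s : Cells A => ⟪v, s.pinch x w⟫_ℂ) U (nhds ⟪v, b w⟫_ℂ) :=
    fun v w => by rw [← inner_sa hsa, hb]; exact hl v w
  have hcomm : ∀ S : H →L[ℂ] H, IsSelfAdjoint S →
      (∀ᶠ s : Cells A in atTop, S * s.pinch x = s.pinch x * S) → S * b = b * S := by
    intro S hS hev
    ext w
    refine ext_inner_left ℂ fun v => ?_
    change ⟪v, S (b w)⟫_ℂ = ⟪v, b (S w)⟫_ℂ
    rw [← inner_sa hS]
    refine tendsto_nhds_unique_of_eventuallyEq (hlim (S v) w) (hlim v (S w)) ?_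
    filter_upwards [hU hev] with s hs
    rw [inner_sa hS]
    exact congrArg (fun T : H →L[ℂ] H => ⟪v, T w⟫_ℂ) hs
  have hbM : b ∈ M := by
    refine mem_of_comm fun S hS => ?_
    ext w
    refine ext_inner_left ℂ fun v => ?_
    change ⟪v, S (b w)⟫_ℂ = ⟪v, b (S w)⟫_ℂ
    rw [← ContinuousLinearMap.adjoint_inner_left]
    refine tendsto_nhds_unique_of_eventuallyEq (hlim _ w) (hlim v (S w)) ?_
    filter_upwards with s
    rw [ContinuousLinearMap.adjoint_inner_left]
    exact congrArg (fun T : H →L[ℂ] H => ⟪v, T w⟫_ℂ)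
      (VonNeumannAlgebra.mem_commutant_iff.1 hS _ (Cells.pinch_mem hA s hxM)).symm
  refine ⟨b, (hA.2 b hbM).2 (comm_of_comm_proj hA fun p hp hpp => (hcomm p hpp.isSelfAdjoint ?_).symm),
    hsa, ?_, hlim⟩
  · filter_upwards [eventually_ge_atTop (Cells.two hp hpp)] with s hs
    exact Cells.pinch_comm_proj hA hp hpp hs x
  · refine b.opNorm_le_bound (norm_nonneg _) fun v => ?_
    have h1 := hlb v (b v)
    rw [← hb, inner_self_eq_norm_sq_to_K, norm_pow] at h1
    simp only [RCLike.norm_ofReal, abs_norm] at h1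
    rcases (norm_nonneg (b v)).eq_or_lt with h0 | h0
    · rw [← h0]; positivity
    · refine le_of_mul_le_mul_right ?_ h0
      linarith

end Vale.Agent.P078.General
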