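import Vale.Agent.P078.Finite.Standard

/-!
Pinchings along the directed set of finite partitions of an abelian algebra, singular corners,
and the trace of a family of vectors.
-/

noncomputable section

open scoped InnerProductSpace ENNReal NNReal
open Filter Vale.Agent.P078.Finite

namespace Vale.Agent.P078.General

universe u

variable {H : Type u} [NormedAddCommGroup H] [InnerProductSpace ℂ H] [CompleteSpace H]

/-- A finite partition of one by projections of `A`; zero members are allowed. -/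
structure Cells (A : StarSubalgebra ℂ (H →L[ℂ] H)) where
  n : ℕ
  c : Fin n → H →L[ℂ] H
  mem : ∀ i, c i ∈ A
  proj : ∀ i, IsStarProjection (c i)
  orth : ∀ i j, i ≠ j → c i * c j = 0
  sum_eq : ∑ i, c i = 1

namespace Cells

variable {A : StarSubalgebra ℂ (H →L[ℂ] H)}

/-- The pinching of `x` by a partition. -/
def pinch (s : Cells A) (x : H →L[ℂ] H) : H →L[ℂ] H := ∑ i, s.c i * x * s.c i

/-- Refinement. -/
instance : Preorder (Cells A) where
  le s t := ∀ j, ∃ i, s.c i * t.c j = t.c j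
  le_refl s j := ⟨j, (s.proj j).isIdempotentElem⟩
  le_trans s t u h1 h2 k := by
    obtain ⟨j, hj⟩ := h2 k
    obtain ⟨i, hi⟩ := h1 j
    exact ⟨i, by rw [← hj, ← mul_assoc, hi]⟩

theorem le_def {s t : Cells A} : s ≤ t ↔ ∀ j, ∃ i, s.c i * t.c j = t.c j := Iff.rfl

end Cells

/-- The projection `z` is approached strongly by projections `e` of `M` below it whose pinchings
by partitions of `A` are weakly small. -/
def SingularApprox (M : VonNeumannAlgebra H) (A : StarSubalgebra ℂ (H →L[ℂ] H))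
    (z : H →L[ℂ] H) : Prop :=
  ∀ (F : Finset H) (δ η : ℝ), 0 < δ → 0 < η →
    ∃ e ∈ M, IsStarProjection e ∧ z * e = e ∧ (∀ v ∈ F, ‖(z - e) v‖ < δ) ∧
      ∃ s : Cells A, ∀ v ∈ F, ∑ i, ‖e (s.c i v)‖ ^ 2 < η

/-- So-paving inside the corner of the projection `z` of `A`. -/
def PavableOn (M : VonNeumannAlgebra H) (A : StarSubalgebra ℂ (H →L[ℂ] H)) (z : H →L[ℂ] H)
    (ε : ℝ) (r : ℕ) (x : H →L[ℂ] H) : Prop :=
  ∀ (F : Finset H) (δ : ℝ), 0 < δ →
    ∃ (g : Fin r → H →L[ℂ] H) (a q : H →L[ℂ] H),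
      (∀ i, g i ∈ A ∧ IsStarProjection (g i)) ∧ (∀ i j, i ≠ j → g i * g j = 0) ∧ ∑ i, g i = z ∧
      a ∈ A ∧ IsSelfAdjoint a ∧ ‖a‖ ≤ ‖x‖ ∧ z * a = a ∧
      q ∈ M ∧ IsStarProjection q ∧ z * q = q ∧ (∀ v ∈ F, ‖(z - q) v‖ < δ) ∧
      ‖q * (∑ i, g i * x * g i - a) * q‖ ≤ ε * ‖x‖

/-- `∑ ‖x ξ‖²` over a family of vectors. -/
def weight {J : Type u} (ξ : J → H) (x : H →L[ℂ] H) : ℝ≥0∞ :=
  ∑' j, ENNReal.ofReal (‖x (ξ j)‖ ^ 2)

/-- A faithful normal semifinite trace on `M`, given by a family of vectors. -/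
def HasSemifiniteTrace (M : VonNeumannAlgebra H) : Prop :=
  ∃ (J : Type u) (ξ : J → H),
    (∀ x ∈ M, weight ξ (star x) = weight ξ x) ∧
    (∀ x ∈ M, (∀ j, x (ξ j) = 0) → x = 0) ∧
    ∀ (F : Finset H) (δ : ℝ), 0 < δ →
      ∃ e ∈ M, IsStarProjection e ∧ weight ξ e ≠ ⊤ ∧ ∀ v ∈ F, ‖(1 - e) v‖ < δ

/-- `A` has no nonzero projection of finite weight. -/
def NoFiniteProj {J : Type u} (ξ : J → H) (A : StarSubalgebra ℂ (H →L[ℂ] H)) : Prop :=
  ∀ p ∈ A, IsStarProjection p → weight ξ p ≠ ⊤ → p = 0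

end Vale.Agent.P078.General
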