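import Vale.Agent.P078.General.NormalForm

/-!
Positive normal functionals and vector forms compared on projections are compared on squares.
-/

noncomputable section

open scoped InnerProductSpace
open Filter Vale.Agent.P078.Finite

namespace Vale.Agent.P078.General

universe u

variable {H : Type u} [NormedAddCommGroup H] [InnerProductSpace ℂ H] [CompleteSpace H]
variable {M : VonNeumannAlgebra H}

theorem inner_star_mul (X : H →L[ℂ] H) (u v : H) :
    ⟪u, (star X * X) v⟫_ℂ = ⟪X u, X v⟫_ℂ := by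
  rw [mul_apply_eq_comp, ContinuousLinearMap.star_eq_adjoint,
    ContinuousLinearMap.adjoint_inner_right]

theorem le_of_form {X Y : H →L[ℂ] H} (hX : IsSelfAdjoint X) (hY : IsSelfAdjoint Y)
    (h : ∀ v, (⟪v, X v⟫_ℂ).re ≤ (⟪v, Y v⟫_ℂ).re) : X ≤ Y := by
  rw [ContinuousLinearMap.le_def, ContinuousLinearMap.isPositive_def']
  refine ⟨hY.sub hX, fun v => ?_⟩
  rw [ContinuousLinearMap.reApplyInnerSelf_apply, sub_apply, inner_sub_left, map_sub,
    RCLike.re_to_complex, RCLike.re_to_complex, inner_sa hY, inner_sa hX]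
  linarith [h v]

/-- Spectral layers of `X* X` below a projection fixed by `X`. -/
theorem exists_layers {f : H →L[ℂ] H} (hfp : IsStarProjection f) {X : H →L[ℂ] H} (hX : X ∈ M)
    (hXf : X * f = X) (n : ℕ) :
    ∃ (d : ℕ → H →L[ℂ] H),
      (∀ k, d k ∈ M ∧ IsStarProjection (d k)) ∧ (∀ k, f * d (k + 1) = d (k + 1)) ∧
      ∀ v, |‖X v‖ ^ 2 - ∑ k ∈ Finset.range (n + 1),
          ((k : ℝ) + 1) * ((‖X‖ ^ 2 + 1) / ((n : ℝ) + 1)) * ‖d k v‖ ^ 2| ≤
        2 * ((‖X‖ ^ 2 + 1) / ((n : ℝ) + 1)) * ‖v‖ ^ 2 := by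
  classical
  set h : ℝ := (‖X‖ ^ 2 + 1) / ((n : ℝ) + 1) with hh
  have hh0 : 0 < h := by positivity
  set T := star X * X with hT
  have hTM : T ∈ M := mul_mem (star_mem hX) hX
  have hTs : IsSelfAdjoint T := IsSelfAdjoint.star_mul_self X
  have hcut : ∀ k : ℕ, ∃ q ∈ M, IsStarProjection q ∧
      (∀ S : H →L[ℂ] H, S * T = T * S → star S * T = T * star S → S * q = q * S) ∧
      (∀ v, T v = 0 → q v = v) ∧ ‖T * q‖ ≤ ((k : ℝ) + 1) * h ∧
      ∀ v, ((k : ℝ) + 1) * h * ‖(1 - q) v‖ ≤ ‖T ((1 - q) v)‖ := fun k => by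
    obtain ⟨q, h1, h2, h3, h4, h5, -, h6⟩ :=
      exists_cut hTM hTs (show (0 : ℝ) < ((k : ℝ) + 1) * h by positivity)
    exact ⟨q, h1, h2, h3, h4, h5, h6⟩
  choose q hqM hqp hqc hqk hq1 hq2 using hcut
  have hTq : ∀ k, T * q k = q k * T := fun k => hqc k T rfl (by rw [hTs.star_eq])
  have hqq : ∀ j k, q j * q k = q k * q j := fun j k =>
    hqc k (q j) (hTq j).symm (by rw [(hqp j).isSelfAdjoint.star_eq]; exact (hTq j).symm)
  have hup : ∀ k w, q k w = w → ‖T w‖ ≤ ((k : ℝ) + 1) * h * ‖w‖ := fun k w hw => by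
    conv_lhs => rw [← hw]
    exact ((T * q k).le_opNorm w).trans (mul_le_mul_of_nonneg_right (hq1 k) (norm_nonneg _))
  have hnest : ∀ {j k}, j < k → q k * q j = q j := by
    intro j k hjk
    ext v
    set w := (1 - q k) (q j v) with hw
    have h1 : (1 - q k) w = w := proj_idem_apply (hqp k).one_sub _
    have h2 : q j w = w := by
      change (q j * (1 - q k)) (q j v) = ((1 - q k) * 1) (q j v)
      rw [mul_sub, mul_one, mul_one, hqq j k, sub_apply, sub_apply, one_apply_eq_self,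
        mul_apply_eq_comp, proj_idem_apply (hqp j)]
    have h3 := hq2 k w
    rw [h1] at h3
    have h4 := h3.trans (hup j w h2)
    have h5 : ‖w‖ = 0 := by
      have hlt : ((j : ℝ) + 1) * h < ((k : ℝ) + 1) * h := by
        gcongr
      nlinarith [norm_nonneg w]
    rw [norm_eq_zero] at h5
    rw [h5, sub_apply, one_apply_eq_self, eq_comm, sub_eq_zero] at hw
    exact hw.symm
  have htop : q n = 1 := by
    ext v
    set w := (1 - q n) v with hw
    have h3 := hq2 n v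
    have h4 : ‖T w‖ ≤ ‖X‖ ^ 2 * ‖w‖ := by
      refine (T.le_opNorm w).trans (le_of_eq ?_)
      rw [hT, CStarRing.norm_star_mul_self, sq]
    have e : ((n : ℝ) + 1) * h = ‖X‖ ^ 2 + 1 := by
      rw [hh, mul_div_cancel₀]
      positivity
    have h5 : ‖w‖ = 0 := by
      rw [e] at h3
      nlinarith [norm_nonneg w]
    rw [norm_eq_zero, hw, sub_apply, one_apply_eq_self, sub_eq_zero] at h5
    rw [one_apply_eq_self]
    exact h5.symm
  set d : ℕ → H →L[ℂ] H := fun k => match k with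
    | 0 => q 0
    | k + 1 => q (k + 1) - q k with hd
  have hdp : ∀ k, d k ∈ M ∧ IsStarProjection (d k) := fun k => match k with
    | 0 => ⟨hqM 0, hqp 0⟩
    | k + 1 => ⟨sub_mem (hqM _) (hqM _),
        (hqp k).sub_of_mul_eq_right (hqp _) (hnest (Nat.lt_succ_self k))⟩
  have hdq : ∀ k, q k * d k = d k := fun k => match k with
    | 0 => (hqp 0).isIdempotentElem
    | k + 1 => by
        change q (k + 1) * (q (k + 1) - q k) = q (k + 1) - q k
        rw [mul_sub, (hqp _).isIdempotentElem.eq, hnest (Nat.lt_succ_self k)]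
  have hdr : ∀ k, (1 - q k) * d (k + 1) = d (k + 1) := fun k => by
    change (1 - q k) * (q (k + 1) - q k) = q (k + 1) - q k
    rw [sub_mul, one_mul, mul_sub, hqq k (k + 1), hnest (Nat.lt_succ_self k),
      (hqp k).isIdempotentElem.eq, sub_self, sub_zero]
  have hfd : ∀ k, f * d (k + 1) = d (k + 1) := by
    intro k
    have hf1 : (1 - f) * (1 - q k) = 0 := by
      have h1 : q k * (1 - f) = 1 - f := by
        ext v
        refine hqk k _ ?_
        change star X ((X * (1 - f)) v) = 0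
        rw [mul_sub, mul_one, hXf, sub_self, zero_apply, map_zero]
      have := congrArg star h1
      rw [star_mul, hfp.one_sub.isSelfAdjoint.star_eq, (hqp k).isSelfAdjoint.star_eq] at this
      rw [mul_sub, mul_one, this, sub_self]
    have h2 : (1 - f) * d (k + 1) = 0 := by rw [← hdr k, ← mul_assoc, hf1, zero_mul]
    rw [sub_mul, one_mul, sub_eq_zero] at h2
    exact h2.symm
  have hTd : ∀ k, T * d k = d k * T := fun k => match k with
    | 0 => hTq 0
    | k + 1 => by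
        change T * (q (k + 1) - q k) = (q (k + 1) - q k) * T
        rw [mul_sub, sub_mul, hTq, hTq]
  have hsum : ∀ m, ∑ k ∈ Finset.range (m + 1), d k = q m := by
    intro m
    induction m with
    | zero => simp [hd]
    | succ m ih =>
      rw [Finset.sum_range_succ, ih]
      change q m + (q (m + 1) - q m) = q (m + 1)
      abel
  have hdec : ∀ v, ‖X v‖ ^ 2 = ∑ k ∈ Finset.range (n + 1), ‖X (d k v)‖ ^ 2 := by
    intro v
    have h1 : ∀ w, ‖X w‖ ^ 2 = (⟪w, T w⟫_ℂ).re := fun w => by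
      rw [inner_star_mul]
      exact (inner_self_eq_norm_sq (𝕜 := ℂ) (X w)).symm
    simp only [h1]
    have h2 : ∀ k, (⟪d k v, T (d k v)⟫_ℂ).re = (⟪v, T (d k v)⟫_ℂ).re := fun k => by
      rw [inner_sa (hdp k).2.isSelfAdjoint]
      congr 2
      change (d k * T) (d k v) = _
      rw [← hTd k, mul_apply_eq_comp, proj_idem_apply (hdp k).2]
    simp only [h2]
    rw [← Complex.re_sum, ← inner_sum, ← map_sum, ← sum_apply, hsum, htop, one_apply_eq_self]
  have hpy : ∀ v, ∑ k ∈ Finset.range (n + 1), ‖d k v‖ ^ 2 = ‖v‖ ^ 2 := by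
    intro v
    simp only [sq_norm_proj' (hdp _).2]
    rw [← Complex.re_sum, ← inner_sum, ← sum_apply, hsum, htop, one_apply_eq_self]
    exact inner_self_eq_norm_sq (𝕜 := ℂ) v
  have hup2 : ∀ k v, ‖X (d k v)‖ ^ 2 ≤ ((k : ℝ) + 1) * h * ‖d k v‖ ^ 2 := by
    intro k v
    have hfix : q k (d k v) = d k v := congrArg (fun S : H →L[ℂ] H => S v) (hdq k)
    calc ‖X (d k v)‖ ^ 2 = (⟪d k v, T (d k v)⟫_ℂ).re := by
          rw [inner_star_mul]
          exact (inner_self_eq_norm_sq (𝕜 := ℂ) _).symm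
      _ ≤ ‖d k v‖ * ‖T (d k v)‖ := (Complex.re_le_norm _).trans (norm_inner_le_norm _ _)
      _ ≤ ‖d k v‖ * (((k : ℝ) + 1) * h * ‖d k v‖) :=
          mul_le_mul_of_nonneg_left (hup k _ hfix) (norm_nonneg _)
      _ = _ := by ring
  have hlow : ∀ (k : ℕ) (v : H), ((k : ℝ) + 1 - 2) * h * ‖d k v‖ ^ 2 ≤ ‖X (d k v)‖ ^ 2 := by
    intro k v
    rcases k with _ | k
    · refine le_trans ?_ (sq_nonneg _)
      push_cast
      nlinarith [sq_nonneg ‖d 0 v‖, mul_nonneg hh0.le (sq_nonneg ‖d 0 v‖)]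
    set u := d (k + 1) v
    have hl : ((k : ℝ) + 1) * h * ‖u‖ ≤ ‖T u‖ := by
      have h1 : (1 - q k) u = u := congrArg (fun S : H →L[ℂ] H => S v) (hdr k)
      conv_lhs => rw [← h1]
      conv_rhs => rw [← h1]
      exact hq2 k u
    have hTu : q (k + 1) (T u) = T u := by
      change ((q (k + 1) * T) * d (k + 1)) v = (T * d (k + 1)) v
      rw [← hTq, mul_assoc, hdq]
    have hb : ‖X (T u)‖ ^ 2 ≤ ((k : ℝ) + 1 + 1) * h * ‖T u‖ ^ 2 := by
      have h1 := hup (k + 1) (T u) hTu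
      push_cast at h1
      calc ‖X (T u)‖ ^ 2 = (⟪T u, T (T u)⟫_ℂ).re := by
            rw [inner_star_mul]
            exact (inner_self_eq_norm_sq (𝕜 := ℂ) _).symm
        _ ≤ ‖T u‖ * ‖T (T u)‖ := (Complex.re_le_norm _).trans (norm_inner_le_norm _ _)
        _ ≤ ‖T u‖ * (((k : ℝ) + 1 + 1) * h * ‖T u‖) := mul_le_mul_of_nonneg_left h1 (norm_nonneg _)
        _ = _ := by ring
    have hcs : ‖T u‖ ^ 2 ≤ ‖X (T u)‖ * ‖X u‖ := by
      have h1 : ‖T u‖ ^ 2 = (⟪T u, T u⟫_ℂ).re := (inner_self_eq_norm_sq (𝕜 := ℂ) _).symm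
      have h2 : ⟪T u, T u⟫_ℂ = ⟪X (T u), X u⟫_ℂ := inner_star_mul X (T u) u
      rw [h1, h2]
      exact (Complex.re_le_norm _).trans (norm_inner_le_norm _ _)
    set θ := ((k : ℝ) + 1 + 1) * h with hθ
    have hθ0 : 0 < θ := by positivity
    have hTθ : ‖T u‖ ^ 2 ≤ θ * ‖X u‖ ^ 2 := by
      rcases (norm_nonneg (T u)).eq_or_lt with h0 | h0
      · rw [← h0]
        simpa using mul_nonneg hθ0.le (sq_nonneg ‖X u‖)
      · have h4 := pow_le_pow_left₀ (sq_nonneg _) hcs 2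
        rw [mul_pow] at h4
        refine le_of_mul_le_mul_left ?_ (pow_pos h0 2)
        nlinarith [mul_le_mul_of_nonneg_right hb (sq_nonneg ‖X u‖), h4]
    have h5 := (pow_le_pow_left₀ (by positivity) hl 2).trans hTθ
    rw [mul_pow] at h5
    push_cast
    refine le_of_mul_le_mul_left (le_trans ?_ h5) hθ0
    rw [hθ]
    nlinarith [mul_nonneg (sq_nonneg h) (sq_nonneg ‖u‖), mul_nonneg (mul_nonneg (sq_nonneg h)
      (sq_nonneg ‖u‖)) (sq_nonneg ((k : ℝ) + 1))]
  refine ⟨d, hdp, hfd, fun v => ?_⟩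
  rw [abs_le, hdec v, ← hpy v, Finset.mul_sum, neg_le_iff_add_nonneg, sub_le_iff_le_add]
  constructor
  · rw [← Finset.sum_sub_distrib, ← Finset.sum_add_distrib]
    refine Finset.sum_nonneg fun k _ => ?_
    linarith [hlow k v]
  · rw [← Finset.sum_add_distrib]
    refine Finset.sum_le_sum fun k _ => ?_
    linarith [hup2 k v, mul_nonneg hh0.le (sq_nonneg ‖d k v‖)]

/-- Comparison on subprojections gives comparison on squares. -/
theorem q_le_of_proj (Λ : NormalPos M) {f : H →L[ℂ] H} (hfp : IsStarProjection f) (w : H)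
    (hdom : ∀ g ∈ M, IsStarProjection g → f * g = g → Λ.q g ≤ ‖g w‖ ^ 2) {X : H →L[ℂ] H}
    (hX : X ∈ M) (hXf : X * f = X) : Λ.q X ≤ ‖X w‖ ^ 2 := by
  refine le_of_forall_pos_le_add fun ε hε => ?_
  set C := (‖X‖ ^ 2 + 1) * (3 * Λ.mass + 2 * ‖w‖ ^ 2) with hC
  have hm := Λ.mass_nonneg
  obtain ⟨n, hn⟩ := exists_nat_gt (C / ε)
  obtain ⟨d, hd, hfd, hb⟩ := exists_layers hfp hX hXf n
  set h : ℝ := (‖X‖ ^ 2 + 1) / ((n : ℝ) + 1) with hh
  have hh0 : 0 < h := by positivity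
  set S : H →L[ℂ] H := ∑ k ∈ Finset.range (n + 1), ((((k : ℝ) + 1) * h : ℝ) : ℂ) • d k
  have hSM : S ∈ M := sum_mem fun k _ => M.smul_mem (hd k).1 _
  have hh2 : (((2 * h : ℝ)) : ℂ) • (1 : H →L[ℂ] H) ∈ M := M.smul_mem (one_mem M) _
  have hSs : IsSelfAdjoint S := by
    rw [IsSelfAdjoint, star_sum]
    refine Finset.sum_congr rfl fun k _ => ?_
    rw [star_smul, (hd k).2.isSelfAdjoint.star_eq, Complex.star_def, Complex.conj_ofReal]
  have hle : star X * X ≤ S + (((2 * h : ℝ)) : ℂ) • 1 := by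
    refine le_of_form (IsSelfAdjoint.star_mul_self X)
      (hSs.add (IsSelfAdjoint.smul (Complex.conj_ofReal _) (IsSelfAdjoint.one _))) fun v => ?_
    rw [inner_star_mul, add_apply, inner_add_right, Complex.add_re, smul_apply, one_apply_eq_self,
      inner_smul_right, Complex.re_ofReal_mul]
    simp only [S, sum_apply, inner_sum, smul_apply, inner_smul_right, Complex.re_sum,
      Complex.re_ofReal_mul, ← sq_norm_proj' (hd _).2]
    rw [show (⟪X v, X v⟫_ℂ).re = ‖X v‖ ^ 2 from inner_self_eq_norm_sq (𝕜 := ℂ) _,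
      show (⟪v, v⟫_ℂ).re = ‖v‖ ^ 2 from inner_self_eq_norm_sq (𝕜 := ℂ) _]
    linarith [(abs_le.1 (hb v)).2]
  have h1 : Λ.q X ≤ ∑ k ∈ Finset.range (n + 1), ((k : ℝ) + 1) * h * Λ.q (d k) + 2 * h * Λ.mass := by
    refine (Λ.re_le (mul_mem (star_mem hX) hX) (add_mem hSM hh2) hle).trans (le_of_eq ?_)
    simp only [S, map_add, map_sum, map_smul, smul_eq_mul, Complex.add_re, Complex.re_sum,
      Complex.re_ofReal_mul, ← Λ.q_proj (hd _).2, NormalPos.mass]
  have h2 : ∑ k ∈ Finset.range (n + 1), ((k : ℝ) + 1) * h * Λ.q (d k) ≤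
      h * Λ.mass + ∑ k ∈ Finset.range (n + 1), ((k : ℝ) + 1) * h * ‖d k w‖ ^ 2 := by
    rw [Finset.sum_range_succ', Finset.sum_range_succ' (fun k => ((k : ℝ) + 1) * h * ‖d k w‖ ^ 2)]
    push_cast
    have h0 := Λ.q_mono (hd 0).1 (hd 0).2 (one_mem M) (IsStarProjection.one _) (one_mul _)
    rw [Λ.q_one] at h0
    have := Finset.sum_le_sum (s := Finset.range n) fun k (_ : k ∈ Finset.range n) =>
      mul_le_mul_of_nonneg_left (hdom _ (hd (k + 1)).1 (hd (k + 1)).2 (hfd k))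
        (show (0 : ℝ) ≤ ((k : ℝ) + 1 + 1) * h by positivity)
    push_cast at this
    nlinarith [mul_le_mul_of_nonneg_left h0 hh0.le, mul_nonneg hh0.le (sq_nonneg ‖d 0 w‖)]
  have h3 := (abs_le.1 (hb w)).1
  have h4 : h * (3 * Λ.mass + 2 * ‖w‖ ^ 2) ≤ ε := by
    rw [div_lt_iff₀ hε] at hn
    rw [hh, div_mul_eq_mul_div, div_le_iff₀ (by positivity), ← hC]
    nlinarith
  nlinarith

/-- Comparison on subprojections, the other way round. -/
theorem le_q_of_proj (Λ : NormalPos M) {f : H →L[ℂ] H} (hfp : IsStarProjection f) (w : H)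
    {t : ℝ} (ht : 0 ≤ t)
    (hdom : ∀ g ∈ M, IsStarProjection g → f * g = g → t * ‖g w‖ ^ 2 ≤ Λ.q g) {X : H →L[ℂ] H}
    (hX : X ∈ M) (hXf : X * f = X) : t * ‖X w‖ ^ 2 ≤ Λ.q X := by
  refine le_of_forall_pos_le_add fun ε hε => ?_
  set C := (‖X‖ ^ 2 + 1) * (2 * Λ.mass + 3 * t * ‖w‖ ^ 2) with hC
  have hm := Λ.mass_nonneg
  obtain ⟨n, hn⟩ := exists_nat_gt (C / ε)
  obtain ⟨d, hd, hfd, hb⟩ := exists_layers hfp hX hXf n
  set h : ℝ := (‖X‖ ^ 2 + 1) / ((n : ℝ) + 1) with hh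
  have hh0 : 0 < h := by positivity
  set S : H →L[ℂ] H := ∑ k ∈ Finset.range (n + 1), ((((k : ℝ) + 1) * h : ℝ) : ℂ) • d k
  have hSM : S ∈ M := sum_mem fun k _ => M.smul_mem (hd k).1 _
  have hh2 : (((2 * h : ℝ)) : ℂ) • (1 : H →L[ℂ] H) ∈ M := M.smul_mem (one_mem M) _
  have hTM : star X * X ∈ M := mul_mem (star_mem hX) hX
  have hSs : IsSelfAdjoint S := by
    rw [IsSelfAdjoint, star_sum]
    refine Finset.sum_congr rfl fun k _ => ?_
    rw [star_smul, (hd k).2.isSelfAdjoint.star_eq, Complex.star_def, Complex.conj_ofReal]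
  have hle : S ≤ star X * X + (((2 * h : ℝ)) : ℂ) • 1 := by
    refine le_of_form hSs ((IsSelfAdjoint.star_mul_self X).add
      (IsSelfAdjoint.smul (Complex.conj_ofReal _) (IsSelfAdjoint.one _))) fun v => ?_
    rw [add_apply, inner_add_right, Complex.add_re, inner_star_mul, smul_apply, one_apply_eq_self,
      inner_smul_right, Complex.re_ofReal_mul]
    simp only [S, sum_apply, inner_sum, smul_apply, inner_smul_right, Complex.re_sum,
      Complex.re_ofReal_mul, ← sq_norm_proj' (hd _).2]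
    rw [show (⟪X v, X v⟫_ℂ).re = ‖X v‖ ^ 2 from inner_self_eq_norm_sq (𝕜 := ℂ) _,
      show (⟪v, v⟫_ℂ).re = ‖v‖ ^ 2 from inner_self_eq_norm_sq (𝕜 := ℂ) _]
    linarith [(abs_le.1 (hb v)).1]
  have h1 : ∑ k ∈ Finset.range (n + 1), ((k : ℝ) + 1) * h * Λ.q (d k) ≤ Λ.q X + 2 * h * Λ.mass := by
    refine le_of_eq_of_le ?_
      ((Λ.re_le hSM (add_mem hTM hh2) hle).trans (le_of_eq ?_))
    · simp only [S, map_sum, map_smul, smul_eq_mul, Complex.re_sum, Complex.re_ofReal_mul,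
        ← Λ.q_proj (hd _).2]
    · simp only [map_add, map_smul, smul_eq_mul, Complex.add_re, Complex.re_ofReal_mul,
        NormalPos.q, NormalPos.mass]
  have h2 : t * ∑ k ∈ Finset.range (n + 1), ((k : ℝ) + 1) * h * ‖d k w‖ ^ 2 ≤
      t * h * ‖w‖ ^ 2 + ∑ k ∈ Finset.range (n + 1), ((k : ℝ) + 1) * h * Λ.q (d k) := by
    rw [Finset.sum_range_succ', Finset.sum_range_succ' (fun k => ((k : ℝ) + 1) * h * Λ.q (d k))]
    push_cast
    have h0 := pow_le_pow_left₀ (norm_nonneg _) (norm_proj_apply_le (hd 0).2 w) 2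
    have := Finset.sum_le_sum (s := Finset.range n) fun k (_ : k ∈ Finset.range n) =>
      mul_le_mul_of_nonneg_left (hdom _ (hd (k + 1)).1 (hd (k + 1)).2 (hfd k))
        (show (0 : ℝ) ≤ ((k : ℝ) + 1 + 1) * h by positivity)
    push_cast at this
    rw [mul_add, Finset.mul_sum]
    have e : ∑ k ∈ Finset.range n, t * (((k : ℝ) + 1 + 1) * h * ‖d (k + 1) w‖ ^ 2) =
        ∑ k ∈ Finset.range n, ((k : ℝ) + 1 + 1) * h * (t * ‖d (k + 1) w‖ ^ 2) :=
      Finset.sum_congr rfl fun k _ => by ring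
    rw [e]
    nlinarith [mul_le_mul_of_nonneg_left h0 (mul_nonneg ht hh0.le),
      mul_nonneg hh0.le (Λ.q_nonneg (hd 0).1)]
  have h3 := mul_le_mul_of_nonneg_left (abs_le.1 (hb w)).2 ht
  have h4 : h * (2 * Λ.mass + 3 * t * ‖w‖ ^ 2) ≤ ε := by
    rw [div_lt_iff₀ hε] at hn
    rw [hh, div_mul_eq_mul_div, div_le_iff₀ (by positivity), ← hC]
    nlinarith
  nlinarith

end Vale.Agent.P078.General
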