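import Vale.Agent.P078.General.CentralDefs
import Vale.Agent.P078.General.OrthSum

/-!
Positive normal functionals on a von Neumann algebra.
-/

noncomputable section

open scoped InnerProductSpace
open Filter Vale.Agent.P078.Finite

namespace Vale.Agent.P078.General

universe u

variable {H : Type u} [NormedAddCommGroup H] [InnerProductSpace ℂ H] [CompleteSpace H]
variable {M : VonNeumannAlgebra H}

/-- A positive operator of `M` is a square in `M`. -/
theorem exists_sqrt {X : H →L[ℂ] H} (hX : X ∈ M) (h0 : 0 ≤ X) :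
    ∃ s ∈ M, star s * s = X := by
  refine ⟨CFC.sqrt X, mem_of_comm fun S hS => ?_, ?_⟩
  · have h : Commute X S := (VonNeumannAlgebra.mem_commutant_iff.1 hS X hX)
    rw [CFC.sqrt_eq_real_sqrt X, cfcₙ_eq_cfc]
    exact (h.cfc_real Real.sqrt).eq.symm
  · rw [(CFC.sqrt_nonneg X).isSelfAdjoint.star_eq]
    exact CFC.sqrt_mul_sqrt_self X h0

/-- The quadratic form of an operator. -/
theorem form_le {X Y : H →L[ℂ] H} (h : X ≤ Y) (v : H) :
    (⟪v, X v⟫_ℂ).re ≤ (⟪v, Y v⟫_ℂ).re := by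
  have h0 := (ContinuousLinearMap.le_def X Y).1 h |>.re_inner_nonneg_right v
  rw [sub_apply, inner_sub_right, map_sub] at h0
  exact sub_nonneg.1 h0

/-- A positive normal functional on `M`. -/
structure NormalPos (M : VonNeumannAlgebra H) where
  L : (H →L[ℂ] H) →ₗ[ℂ] ℂ
  pos : ∀ x ∈ M, (L (star x * x)).im = 0 ∧ 0 ≤ (L (star x * x)).re
  normal : IsNormalOn M L

namespace NormalPos

variable (Λ : NormalPos M)

/-- The quadratic form. -/
def q (x : H →L[ℂ] H) : ℝ := (Λ.L (star x * x)).re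

theorem q_nonneg {x : H →L[ℂ] H} (hx : x ∈ M) : 0 ≤ Λ.q x := (Λ.pos x hx).2

theorem L_star_mul {x : H →L[ℂ] H} (hx : x ∈ M) : Λ.L (star x * x) = (Λ.q x : ℂ) :=
  Complex.ext rfl (by rw [(Λ.pos x hx).1, Complex.ofReal_im])

theorem re_le {X Y : H →L[ℂ] H} (hX : X ∈ M) (hY : Y ∈ M) (h : X ≤ Y) :
    (Λ.L X).re ≤ (Λ.L Y).re := by
  obtain ⟨s, hs, he⟩ := exists_sqrt (sub_mem hY hX) (sub_nonneg.2 h)
  have h1 := (Λ.pos s hs).2
  rw [he, map_sub, Complex.sub_re] at h1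
  linarith

theorem q_proj {p : H →L[ℂ] H} (hp : IsStarProjection p) : Λ.q p = (Λ.L p).re := by
  rw [q, hp.isSelfAdjoint.star_eq, hp.isIdempotentElem.eq]

theorem L_proj {p : H →L[ℂ] H} (hpM : p ∈ M) (hp : IsStarProjection p) :
    Λ.L p = (Λ.q p : ℂ) := by
  have h := Λ.L_star_mul hpM
  rwa [hp.isSelfAdjoint.star_eq, hp.isIdempotentElem.eq] at h

/-- Mass. -/
def mass : ℝ := (Λ.L 1).re

theorem q_one : Λ.q 1 = Λ.mass := Λ.q_proj (IsStarProjection.one _)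

theorem mass_nonneg : 0 ≤ Λ.mass := Λ.q_one ▸ Λ.q_nonneg (one_mem M)

theorem q_le {x : H →L[ℂ] H} (hx : x ∈ M) : Λ.q x ≤ ‖x‖ ^ 2 * Λ.mass := by
  have h : star x * x ≤ algebraMap ℝ (H →L[ℂ] H) (‖x‖ ^ 2) := by
    rw [pow_two, ← CStarRing.norm_star_mul_self]
    exact IsSelfAdjoint.le_algebraMap_norm_self (IsSelfAdjoint.star_mul_self x)
  have hM : algebraMap ℝ (H →L[ℂ] H) (‖x‖ ^ 2) ∈ M := by
    rw [Algebra.algebraMap_eq_smul_one, ← Complex.coe_smul]
    exact M.smul_mem (one_mem M) _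
  refine (Λ.re_le (mul_mem (star_mem hx) hx) hM h).trans (le_of_eq ?_)
  rw [Algebra.algebraMap_eq_smul_one, ← Complex.coe_smul, map_smul, smul_eq_mul,
    Complex.re_ofReal_mul, mass]

theorem hermitian {a b : H →L[ℂ] H} (ha : a ∈ M) (hb : b ∈ M) :
    Λ.L (star b * a) = (starRingEnd ℂ) (Λ.L (star a * b)) := by
  have ha' := (Λ.pos a ha).1
  have hb' := (Λ.pos b hb).1
  have h1 := (Λ.pos _ (add_mem ha hb)).1
  have h2 := (Λ.pos _ (add_mem ha (M.smul_mem hb Complex.I))).1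
  simp only [star_add, star_smul, add_mul, mul_add, smul_mul_assoc, mul_smul_comm, smul_smul,
    map_add, map_smul, Complex.star_def, Complex.conj_I, smul_eq_mul] at h1 h2
  refine Complex.ext ?_ ?_
  · simp only [Complex.add_im, Complex.mul_im, Complex.mul_re, Complex.neg_re, Complex.neg_im,
      Complex.I_re, Complex.I_im, Complex.conj_re] at h2 ⊢
    linarith
  · simp only [Complex.add_im, Complex.conj_im] at h1 ⊢
    linarith

theorem q_expand {a b : H →L[ℂ] H} (ha : a ∈ M) (hb : b ∈ M) (c : ℂ) :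
    Λ.q (a + c • b) = Λ.q a + 2 * (c * Λ.L (star a * b)).re + ‖c‖ ^ 2 * Λ.q b := by
  simp only [q, star_add, star_smul, add_mul, mul_add, smul_mul_assoc, mul_smul_comm, smul_smul,
    map_add, map_smul, Complex.star_def, smul_eq_mul, Λ.hermitian ha hb, Complex.add_re]
  rw [← mul_assoc c ((starRingEnd ℂ) c), show c * (starRingEnd ℂ) c = ((‖c‖ ^ 2 : ℝ) : ℂ) by
    rw [Complex.mul_conj, Complex.normSq_eq_norm_sq], Complex.re_ofReal_mul,
    ← map_mul, Complex.conj_re]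
  ring

theorem cauchy_schwarz {a b : H →L[ℂ] H} (ha : a ∈ M) (hb : b ∈ M) :
    ‖Λ.L (star a * b)‖ ^ 2 ≤ Λ.q a * Λ.q b := by
  set z := Λ.L (star a * b) with hz
  have key : ∀ t : ℝ, 0 ≤ Λ.q a - 2 * t * ‖z‖ ^ 2 + t ^ 2 * ‖z‖ ^ 2 * Λ.q b := by
    intro t
    have h := Λ.q_nonneg (add_mem ha (M.smul_mem hb (-(t : ℂ) * (starRingEnd ℂ) z)))
    rw [Λ.q_expand ha hb] at h
    have e1 : (-(t : ℂ) * (starRingEnd ℂ) z * z).re = -(t * ‖z‖ ^ 2) := by
      rw [mul_assoc, mul_comm ((starRingEnd ℂ) z), Complex.mul_conj, Complex.normSq_eq_norm_sq]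
      simp [← Complex.ofReal_pow]
    rw [← hz, e1, norm_mul, norm_neg, Complex.norm_real, RCLike.norm_conj, mul_pow,
      Real.norm_eq_abs, sq_abs] at h
    linarith
  have hzsq := sq_nonneg ‖z‖
  have hqa := Λ.q_nonneg ha
  have hqb := Λ.q_nonneg hb
  rcases hqb.eq_or_lt with h0 | h0
  · have h := key ((Λ.q a + 1) / (2 * (‖z‖ ^ 2 + 1)))
    rw [← h0, mul_zero, add_zero] at h
    rw [← h0, mul_zero]
    by_contra hne
    push Not at hne
    have h2 : Λ.q a / ‖z‖ ^ 2 * ‖z‖ ^ 2 = Λ.q a := div_mul_cancel₀ _ hne.ne'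
    have h3 := key ((Λ.q a + 1) / ‖z‖ ^ 2)
    rw [← h0, mul_zero, add_zero] at h3
    rw [mul_assoc 2, div_mul_cancel₀ _ hne.ne'] at h3
    linarith
  · have h := key (1 / Λ.q b)
    have e : Λ.q a - 2 * (1 / Λ.q b) * ‖z‖ ^ 2 + (1 / Λ.q b) ^ 2 * ‖z‖ ^ 2 * Λ.q b
        = (Λ.q a * Λ.q b - ‖z‖ ^ 2) / Λ.q b := by
      field_simp
      ring
    rw [e, le_div_iff₀ h0, zero_mul] at h
    linarith

theorem hasSum_q {ι : Type u} {e : ι → H →L[ℂ] H} {P : H →L[ℂ] H}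
    (he : ∀ i, e i ∈ M ∧ IsStarProjection (e i)) (ho : ∀ i j, i ≠ j → e i * e j = 0)
    (hP : P ∈ M) (hPp : IsStarProjection P) (hs : ∀ v, HasSum (fun i => e i v) (P v)) :
    HasSum (fun i => Λ.q (e i)) (Λ.q P) := by
  simpa only [Λ.q_proj (he _).2, Λ.q_proj hPp] using
    Complex.hasSum_re (Λ.normal ι e P he ho hP hPp hs)

theorem q_sub {p r : H →L[ℂ] H} (hp : IsStarProjection p) (hr : IsStarProjection r)
    (h : r * p = p) : Λ.q (r - p) = Λ.q r - Λ.q p := by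
  rw [Λ.q_proj (hp.sub_of_mul_eq_right hr h), map_sub, Complex.sub_re, Λ.q_proj hp, Λ.q_proj hr]

theorem q_mono {p r : H →L[ℂ] H} (hpM : p ∈ M) (hp : IsStarProjection p) (hrM : r ∈ M)
    (hr : IsStarProjection r) (h : r * p = p) : Λ.q p ≤ Λ.q r := by
  have := Λ.q_nonneg (sub_mem hrM hpM)
  rw [Λ.q_sub hp hr h] at this
  linarith

end NormalPos

/-- A maximal orthogonal family of projections below `f` with a property leaves a remainder with no
nonzero subprojection with that property. -/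
theorem exhaust {f : H →L[ℂ] H} (hfp : IsStarProjection f) (Q : (H →L[ℂ] H) → Prop) :
    ∃ (G : Set (H →L[ℂ] H)) (P : H →L[ℂ] H),
      (∀ g ∈ G, g ∈ M ∧ IsStarProjection g ∧ f * g = g ∧ Q g) ∧
      (∀ i j : G, i ≠ j → (i : H →L[ℂ] H) * j = 0) ∧ P ∈ M ∧ IsStarProjection P ∧ f * P = P ∧
      (∀ v, HasSum (fun g : G => (g : H →L[ℂ] H) v) (P v)) ∧
      ∀ g ∈ M, IsStarProjection g → (f - P) * g = g → Q g → g = 0 := by
  set G0 : Set (Set (H →L[ℂ] H)) := {G | (∀ g ∈ G, g ∈ M ∧ IsStarProjection g ∧ f * g = g ∧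
    g ≠ 0 ∧ Q g) ∧ G.Pairwise fun a b => a * b = 0}
  obtain ⟨G, hG⟩ := zorn_subset G0 (by
    intro C hC hch
    refine ⟨⋃₀ C, ⟨?_, ?_⟩, fun s hs => Set.subset_sUnion_of_mem hs⟩
    · rintro g ⟨s, hs, hgs⟩
      exact (hC hs).1 g hgs
    · rintro a ⟨s, hs, has⟩ b ⟨t, ht, hbt⟩ hab
      rcases hch.total hs ht with hle | hle
      · exact (hC ht).2 (hle has) hbt hab
      · exact (hC hs).2 has (hle hbt) hab)
  obtain ⟨hGe, hGo⟩ := hG.prop
  have ho : ∀ i j : G, i ≠ j → (i : H →L[ℂ] H) * j = 0 := fun i j hij =>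
    hGo i.2 j.2 fun e => hij (Subtype.ext e)
  obtain ⟨P, hPM, hPp, hPs, hiP, hPf⟩ := exists_orth_sum M (e := fun g : G => (g : H →L[ℂ] H))
    (fun g => (hGe _ g.2).1) (fun g => (hGe _ g.2).2.1) ho
  have hfP : f * P = P := hPf f fun g => (hGe _ g.2).2.2.1
  refine ⟨G, P, fun g hg => ⟨(hGe g hg).1, (hGe g hg).2.1, (hGe g hg).2.2.1, (hGe g hg).2.2.2.2⟩,
    ho, hPM, hPp, hfP, hPs, fun g hgM hgp hg hQ => ?_⟩
  by_contra hg0
  have hfg : f * g = g := by
    rw [← hg, ← mul_assoc, mul_sub, hfp.isIdempotentElem.eq, hfP]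
  have hort : ∀ a ∈ G, a * g = 0 ∧ g * a = 0 := by
    intro a ha
    have haf : a * f = a := by
      have := congrArg star (hGe a ha).2.2.1
      rwa [star_mul, hfp.isSelfAdjoint.star_eq, (hGe a ha).2.1.isSelfAdjoint.star_eq] at this
    have h1 : a * g = 0 := by
      rw [← hg, ← mul_assoc, mul_sub, haf, hiP ⟨a, ha⟩, sub_self, zero_mul]
    refine ⟨h1, ?_⟩
    have := congrArg star h1
    rwa [star_mul, star_zero, hgp.isSelfAdjoint.star_eq,
      (hGe a ha).2.1.isSelfAdjoint.star_eq] at this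
  have hins : insert g G ∈ G0 := by
    refine ⟨?_, Set.pairwise_insert.2 ⟨hGo, fun b hb _ => ⟨(hort b hb).2, (hort b hb).1⟩⟩⟩
    intro a ha
    rcases Set.mem_insert_iff.1 ha with rfl | ha
    · exact ⟨hgM, hgp, hfg, hg0, hQ⟩
    · exact hGe a ha
  have hgG : g ∈ G := hG.2 hins (Set.subset_insert g G) (Set.mem_insert g G)
  exact hg0 (by rw [← hgp.isIdempotentElem.eq]; exact (hort g hgG).1)

end Vale.Agent.P078.General
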