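import Vale.Agent.P078.General.Layers
import Vale.Agent.P078.General.Central

/-!
A positive normal functional is a countable sum of vector functionals.
-/

noncomputable section

open scoped InnerProductSpace
open Filter Vale.Agent.P078.Finite

namespace Vale.Agent.P078.General

universe u

variable {H : Type u} [NormedAddCommGroup H] [InnerProductSpace ℂ H] [CompleteSpace H]
variable {M : VonNeumannAlgebra H}

namespace NormalPos

variable (Λ : NormalPos M)

theorem q_neg (a : H →L[ℂ] H) : Λ.q (-a) = Λ.q a := by simp [q]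

theorem q_zero : Λ.q 0 = 0 := by simp [q]

theorem q_proj_sum {G : Set (H →L[ℂ] H)} {P : H →L[ℂ] H} {f : H →L[ℂ] H}
    (hG : ∀ g ∈ G, g ∈ M ∧ IsStarProjection g ∧ f * g = g)
    (ho : ∀ i j : G, i ≠ j → (i : H →L[ℂ] H) * j = 0) (hPM : P ∈ M) (hPp : IsStarProjection P)
    (hs : ∀ v, HasSum (fun g : G => (g : H →L[ℂ] H) v) (P v)) :
    HasSum (fun g : G => Λ.q g) (Λ.q P) ∧ ∀ w, HasSum (fun g : G => ‖(g : H →L[ℂ] H) w‖ ^ 2)
      (‖P w‖ ^ 2) := by
  refine ⟨Λ.hasSum_q (fun g => ⟨(hG _ g.2).1, (hG _ g.2).2.1⟩) ho hPM hPp hs, fun w => ?_⟩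
  refine (((continuous_norm.pow 2).tendsto _).comp (hs w)).congr fun s => ?_
  simp only [Function.comp_apply, ← sum_apply]
  exact (sum_proj_spec (fun g : G => (hG _ g.2).2.1) ho s).2 w

/-- A nonzero positive normal functional dominates a nonzero vector functional. -/
theorem exists_vector (hne : 0 < Λ.mass) :
    ∃ ζ : H, ζ ≠ 0 ∧ ∀ x ∈ M, ‖x ζ‖ ^ 2 ≤ Λ.q x := by
  obtain ⟨G0, P0, hG0, ho0, hP0M, hP0p, -, hs0, hr0⟩ :=
    exhaust (M := M) (IsStarProjection.one (H →L[ℂ] H)) fun g => Λ.q g = 0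
  have hqP0 : Λ.q P0 = 0 := by
    have h1 := (Λ.q_proj_sum (fun g hg => ⟨(hG0 g hg).1, (hG0 g hg).2.1, (hG0 g hg).2.2.1⟩) ho0
      hP0M hP0p hs0).1
    refine h1.unique ?_
    simp only [(hG0 _ (Subtype.coe_prop _)).2.2.2]
    exact hasSum_zero
  set f0 := 1 - P0 with hf0
  have hf0p : IsStarProjection f0 := hP0p.one_sub
  have hf0M : f0 ∈ M := sub_mem (one_mem M) hP0M
  have hqf0 : Λ.q f0 = Λ.mass := by
    rw [hf0, Λ.q_sub hP0p (IsStarProjection.one _) (one_mul _), Λ.q_one, hqP0, sub_zero]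
  have hpos : ∀ g ∈ M, IsStarProjection g → f0 * g = g → g ≠ 0 → 0 < Λ.q g :=
    fun g hg hgp hfg hg0 => lt_of_le_of_ne (Λ.q_nonneg hg) fun e =>
      hg0 (hr0 g hg hgp hfg e.symm)
  obtain ⟨v, hv⟩ : ∃ v, f0 v ≠ 0 := by
    by_contra hn
    push Not at hn
    have : f0 = 0 := ContinuousLinearMap.ext hn
    rw [this, Λ.q_zero] at hqf0
    linarith
  set w : H := ((Real.sqrt (Λ.mass + 1) / ‖f0 v‖ : ℝ) : ℂ) • f0 v with hw
  have hfw : ‖f0 w‖ ^ 2 = Λ.mass + 1 := by
    rw [hw, map_smul, proj_idem_apply hf0p, norm_smul, Complex.norm_real,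
      Real.norm_of_nonneg (by positivity), div_mul_cancel₀ _ (norm_ne_zero_iff.2 hv),
      Real.sq_sqrt (by linarith)]
  obtain ⟨G1, P1, hG1, ho1, hP1M, hP1p, hfP1, hs1, hr1⟩ :=
    exhaust (M := M) hf0p fun g => ‖g w‖ ^ 2 ≤ Λ.q g
  obtain ⟨hq1, hn1⟩ := Λ.q_proj_sum (fun g hg => ⟨(hG1 g hg).1, (hG1 g hg).2.1, (hG1 g hg).2.2.1⟩)
    ho1 hP1M hP1p hs1
  set f1 := f0 - P1 with hf1
  have hf1M : f1 ∈ M := sub_mem hf0M hP1M
  have hf1p : IsStarProjection f1 := hP1p.sub_of_mul_eq_right hf0p hfP1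
  have hff1 : f0 * f1 = f1 := by rw [hf1, mul_sub, hf0p.isIdempotentElem.eq, hfP1]
  have hf10 : f1 ≠ 0 := by
    intro e
    rw [hf1, sub_eq_zero] at e
    have h1 := hasSum_le (fun g : G1 => (hG1 _ g.2).2.2.2) (hn1 w) hq1
    have h2 := Λ.q_mono hP1M hP1p hf0M hf0p hfP1
    rw [← e, hfw] at h1
    linarith
  have hup : ∀ g ∈ M, IsStarProjection g → f1 * g = g → Λ.q g ≤ ‖g w‖ ^ 2 := by
    intro g hg hgp hfg
    by_contra hlt
    push Not at hlt
    rw [hr1 g hg hgp hfg hlt.le, zero_apply, norm_zero, Λ.q_zero] at hlt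
    simp at hlt
  have hq1pos : 0 < Λ.q f1 := hpos f1 hf1M hf1p hff1 hf10
  set t : ℝ := Λ.q f1 / (2 * (‖f1 w‖ ^ 2 + 1)) with ht
  have ht0 : 0 < t := by positivity
  obtain ⟨G2, P2, hG2, ho2, hP2M, hP2p, hfP2, hs2, hr2⟩ :=
    exhaust (M := M) hf1p fun g => Λ.q g ≤ t * ‖g w‖ ^ 2
  obtain ⟨hq2, hn2⟩ := Λ.q_proj_sum (fun g hg => ⟨(hG2 g hg).1, (hG2 g hg).2.1, (hG2 g hg).2.2.1⟩)
    ho2 hP2M hP2p hs2
  set f := f1 - P2 with hf
  have hfM : f ∈ M := sub_mem hf1M hP2M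
  have hfp : IsStarProjection f := hP2p.sub_of_mul_eq_right hf1p hfP2
  have hff : f1 * f = f := by rw [hf, mul_sub, hf1p.isIdempotentElem.eq, hfP2]
  have hqf : 0 < Λ.q f := by
    have h1 : Λ.q P2 ≤ t * ‖P2 w‖ ^ 2 :=
      hasSum_le (fun g : G2 => (hG2 _ g.2).2.2.2) hq2 ((hn2 w).mul_left t)
    have h2 : ‖P2 w‖ ^ 2 ≤ ‖f1 w‖ ^ 2 := by
      have : P2 * f1 = P2 := by
        have := congrArg star hfP2
        rwa [star_mul, hf1p.isSelfAdjoint.star_eq, hP2p.isSelfAdjoint.star_eq] at this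
      conv_lhs => rw [← this]
      exact pow_le_pow_left₀ (norm_nonneg _) (norm_proj_apply_le hP2p _) 2
    have h3 : t * ‖f1 w‖ ^ 2 < Λ.q f1 := by
      rw [ht, div_mul_eq_mul_div, div_lt_iff₀ (by positivity)]
      nlinarith
    rw [hf, Λ.q_sub hP2p hf1p hfP2]
    linarith [mul_le_mul_of_nonneg_left h2 ht0.le]
  have hlow : ∀ g ∈ M, IsStarProjection g → f * g = g → t * ‖g w‖ ^ 2 ≤ Λ.q g := by
    intro g hg hgp hfg
    by_contra hlt
    push Not at hlt
    rw [hr2 g hg hgp hfg hlt.le, zero_apply, norm_zero, Λ.q_zero] at hlt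
    simp at hlt
  have bUp : ∀ X ∈ M, X * f = X → Λ.q X ≤ ‖X w‖ ^ 2 := fun X hX hXf =>
    q_le_of_proj Λ hfp w (fun g hg hgp hfg => hup g hg hgp (by rw [← hfg, ← mul_assoc, hff])) hX hXf
  have bLow : ∀ X ∈ M, X * f = X → t * ‖X w‖ ^ 2 ≤ Λ.q X := fun X hX hXf =>
    le_q_of_proj Λ hfp w ht0.le hlow hX hXf
  set N : Set (H →L[ℂ] H) := {y | y ∈ M ∧ y * f = y}
  set S : Set ℝ := {s | ∃ y ∈ N, Λ.q (1 - y) = s}
  have hsub : ∀ {a b}, a ∈ M → b ∈ M → a - b ∈ M := fun ha hb => sub_mem ha hb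
  have hSb : BddBelow S := ⟨0, by rintro s ⟨y, hy, rfl⟩; exact Λ.q_nonneg (sub_mem (one_mem M) hy.1)⟩
  have hfN : f ∈ N := ⟨hfM, hfp.isIdempotentElem⟩
  have hSne : S.Nonempty := ⟨_, f, hfN, rfl⟩
  set m := sInf S
  have hlowm : ∀ {y}, y ∈ N → m ≤ Λ.q (1 - y) := fun hy => csInf_le hSb ⟨_, hy, rfl⟩
  have hmlt : m < Λ.mass := by
    refine (hlowm hfN).trans_lt ?_
    rw [Λ.q_sub hfp (IsStarProjection.one _) (one_mul _), Λ.q_one]
    linarith
  have hdiff : ∀ {y y'}, y ∈ N → y' ∈ N →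
      Λ.q (y - y') ≤ 2 * (Λ.q (1 - y) - m) + 2 * (Λ.q (1 - y') - m) := by
    intro y y' hy hy'
    have ha := sub_mem (one_mem M) hy.1
    have hb := sub_mem (one_mem M) hy'.1
    have h1 := Λ.q_expand ha hb 1
    have h2 := Λ.q_expand ha hb (-1)
    have hmid : (1 / 2 : ℂ) • (y + y') ∈ N :=
      ⟨M.smul_mem (add_mem hy.1 hy'.1) _, by rw [smul_mul_assoc, add_mul, hy.2, hy'.2]⟩
    have h3 := Λ.q_expand (zero_mem M) (sub_mem (one_mem M) hmid.1) 2
    rw [show (1 - y) + (1 : ℂ) • (1 - y') = 0 + (2 : ℂ) • (1 - (1 / 2 : ℂ) • (y + y')) by module,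
      h3] at h1
    rw [show (1 - y) + (-1 : ℂ) • (1 - y') = -(y - y') by module, Λ.q_neg] at h2
    simp [Λ.q_zero] at h1 h2
    have h4 := hlowm hmid
    norm_num at h4
    linarith
  have horth : ∀ {y z}, y ∈ N → z ∈ N →
      ‖Λ.L (star (1 - y) * z)‖ ^ 2 ≤ (Λ.q z + 1) * (Λ.q (1 - y) - m) := by
    intro y z hy hz
    set B := Λ.L (star (1 - y) * z)
    have hq := Λ.q_nonneg hz.1
    set s : ℝ := 1 / (Λ.q z + 1) with hs
    have hs0 : 0 < s := by positivity
    set c : ℂ := -(s : ℂ) * (starRingEnd ℂ) B with hc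
    have hN : y - c • z ∈ N :=
      ⟨sub_mem hy.1 (M.smul_mem hz.1 _), by rw [sub_mul, smul_mul_assoc, hy.2, hz.2]⟩
    have h1 := hlowm hN
    rw [show 1 - (y - c • z) = (1 - y) + c • z by abel,
      Λ.q_expand (sub_mem (one_mem M) hy.1) hz.1] at h1
    have e1 : (c * B).re = -(s * ‖B‖ ^ 2) := by
      rw [hc, mul_assoc, mul_comm ((starRingEnd ℂ) B), Complex.mul_conj, Complex.normSq_eq_norm_sq]
      simp [← Complex.ofReal_pow]
    rw [e1, hc, norm_mul, norm_neg, Complex.norm_real, RCLike.norm_conj, mul_pow,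
      Real.norm_eq_abs, sq_abs] at h1
    have e2 : s * Λ.q z ≤ 1 := by
      rw [hs, div_mul_eq_mul_div, div_le_one (by positivity)]
      linarith
    have h2 : s * ‖B‖ ^ 2 ≤ Λ.q (1 - y) - m := by
      have h3 : s ^ 2 * ‖B‖ ^ 2 * Λ.q z ≤ s * ‖B‖ ^ 2 := by
        have := mul_le_mul_of_nonneg_left e2 (mul_nonneg hs0.le (sq_nonneg ‖B‖))
        linarith [show s ^ 2 * ‖B‖ ^ 2 * Λ.q z = s * ‖B‖ ^ 2 * (s * Λ.q z) by ring]
      linarith
    rw [hs, div_mul_eq_mul_div, div_le_iff₀ (by positivity), one_mul] at h2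
    linarith
  have hex : ∀ n : ℕ, ∃ y ∈ N, Λ.q (1 - y) < m + 1 / ((n : ℝ) + 1) := by
    intro n
    obtain ⟨s, ⟨y, hy, rfl⟩, hlt⟩ := exists_lt_of_csInf_lt hSne
      (show m < m + 1 / ((n : ℝ) + 1) by
        have : (0 : ℝ) < 1 / ((n : ℝ) + 1) := by positivity
        linarith)
    exact ⟨y, hy, hlt⟩
  choose y hy hy' using hex
  have hinv : Tendsto (fun n : ℕ => 1 / ((n : ℝ) + 1)) atTop (nhds 0) :=
    tendsto_one_div_add_atTop_nhds_zero_nat
  obtain ⟨z, hz⟩ := cauchySeq_tendsto_of_complete (u := fun n => y n w)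
    (Metric.cauchySeq_iff'.2 fun ε hε => by
      obtain ⟨K, hK⟩ := exists_nat_gt (4 / (t * ε ^ 2))
      refine ⟨K, fun n hn => ?_⟩
      rw [dist_eq_norm]
      have hd : (y n - y K) * f = y n - y K := by rw [sub_mul, (hy n).2, (hy K).2]
      have h1 := (bLow _ (sub_mem (hy n).1 (hy K).1) hd).trans (hdiff (hy n) (hy K))
      have h2 : 1 / ((n : ℝ) + 1) ≤ 1 / ((K : ℝ) + 1) := by
        refine one_div_le_one_div_of_le (by positivity) ?_
        have : (K : ℝ) ≤ n := by exact_mod_cast hn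
        linarith
      have h3 : 4 * (1 / ((K : ℝ) + 1)) < t * ε ^ 2 := by
        rw [div_lt_iff₀ (by positivity)] at hK
        rw [mul_one_div, div_lt_iff₀ (by positivity)]
        nlinarith
      have h4 : t * ‖(y n - y K) w‖ ^ 2 < t * ε ^ 2 := by linarith [hy' n, hy' K]
      have h5 := lt_of_mul_lt_mul_left h4 ht0.le
      rw [sub_apply] at h5
      exact (pow_lt_pow_iff_left₀ (norm_nonneg _) hε.le two_ne_zero).1 h5)
  have hsqrt : ∀ {c : ℝ}, Tendsto (fun n : ℕ => Real.sqrt (c * (1 / ((n : ℝ) + 1)))) atTop (nhds 0) :=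
    fun {c} => by simpa using ((hinv.const_mul c).sqrt)
  have hyq : ∀ n, Λ.q (y n) ≤ 4 * Λ.mass + 2 := by
    intro n
    have h0 := hdiff (hy n) (show (0 : H →L[ℂ] H) ∈ N from ⟨zero_mem M, zero_mul f⟩)
    rw [sub_zero, sub_zero, Λ.q_one] at h0
    have h1 : (1 : ℝ) / ((n : ℝ) + 1) ≤ 1 := by
      rw [div_le_one (by positivity)]
      linarith [(Nat.cast_nonneg n : (0 : ℝ) ≤ n)]
    have h2 : 0 ≤ m := le_csInf hSne (by
      rintro s ⟨y, hy, rfl⟩; exact Λ.q_nonneg (sub_mem (one_mem M) hy.1))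
    linarith [hy' n]
  have hbound : ∀ x ∈ M, t * ‖x z‖ ^ 2 ≤ Λ.q x := by
    intro x hx
    set K := ‖star x * x‖ ^ 2 * (4 * Λ.mass + 2) + 1
    have hlim : Tendsto (fun n : ℕ => Λ.q x + 2 * Real.sqrt (K * (1 / ((n : ℝ) + 1))) +
        2 * (‖x‖ ^ 2 * 0)) atTop (nhds (Λ.q x)) := by
      simpa using (hsqrt (c := K)).const_mul 2 |>.const_add (Λ.q x)
    refine le_of_tendsto_of_tendsto
      ((((continuous_norm.pow 2).tendsto _).comp ((x.continuous.tendsto _).comp hz)).const_mul t)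
      hlim (Eventually.of_forall fun n => ?_)
    simp only [Function.comp_apply, mul_zero, add_zero]
    have hxy : x * y n * f = x * y n := by rw [mul_assoc, (hy n).2]
    have h1 := bLow _ (mul_mem hx (hy n).1) hxy
    rw [mul_apply_eq_comp] at h1
    refine h1.trans ?_
    set Z := star x * x * y n
    have hZN : Z ∈ N := ⟨mul_mem (mul_mem (star_mem hx) hx) (hy n).1, by
      change star x * x * y n * f = _
      rw [mul_assoc _ (y n), (hy n).2]⟩
    have hsplit : Λ.q x = Λ.q (x * (1 - y n)) + 2 * (Λ.L (star (1 - y n) * Z)).re + Λ.q (x * y n) := by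
      have h := Λ.q_expand (mul_mem hx (sub_mem (one_mem M) (hy n).1)) (mul_mem hx (hy n).1) 1
      rw [one_smul, ← mul_add, sub_add_cancel, mul_one, norm_one, one_pow, one_mul, one_mul] at h
      rw [h, star_mul]
      simp only [Z, mul_assoc]
    have hZq : Λ.q Z + 1 ≤ K := by
      have h2 : Λ.q Z ≤ ‖star x * x‖ ^ 2 * Λ.q (y n) := by
        have hc : star Z * Z ≤ ((‖star x * x‖ ^ 2 : ℝ) : ℂ) • (star (y n) * y n) := by
          refine le_of_form (IsSelfAdjoint.star_mul_self Z)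
            (IsSelfAdjoint.smul (Complex.conj_ofReal _) (IsSelfAdjoint.star_mul_self _)) fun v => ?_
          rw [inner_star_mul, smul_apply, inner_smul_right, Complex.re_ofReal_mul, inner_star_mul,
            show (⟪Z v, Z v⟫_ℂ).re = ‖Z v‖ ^ 2 from inner_self_eq_norm_sq (𝕜 := ℂ) _,
            show (⟪y n v, y n v⟫_ℂ).re = ‖y n v‖ ^ 2 from inner_self_eq_norm_sq (𝕜 := ℂ) _,
            ← mul_pow]
          exact pow_le_pow_left₀ (norm_nonneg _) ((star x * x).le_opNorm _) 2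
        refine (Λ.re_le (mul_mem (star_mem hZN.1) hZN.1)
          (M.smul_mem (mul_mem (star_mem (hy n).1) (hy n).1) _) hc).trans (le_of_eq ?_)
        rw [map_smul, smul_eq_mul, Complex.re_ofReal_mul]
        rfl
      have := mul_le_mul_of_nonneg_left (hyq n) (sq_nonneg ‖star x * x‖)
      simp only [K]
      linarith
    have hB : -(Λ.L (star (1 - y n) * Z)).re ≤ Real.sqrt (K * (1 / ((n : ℝ) + 1))) := by
      refine (neg_le_abs _).trans ((Complex.abs_re_le_norm _).trans (Real.le_sqrt_of_sq_le ?_))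
      refine (horth (hy n) hZN).trans (mul_le_mul hZq (by linarith [hy' n]) ?_ ?_)
      · linarith [hlowm (hy n)]
      · linarith [Λ.q_nonneg hZN.1]
    linarith [Λ.q_nonneg (mul_mem hx (sub_mem (one_mem M) (hy n).1))]
  have hz0 : z ≠ 0 := by
    intro e
    subst e
    have hq0 : Tendsto (fun n => ‖y n w‖ ^ 2) atTop (nhds 0) := by
      simpa [Function.comp_def] using (((continuous_norm.pow 2).tendsto _).comp hz)
    set K := 4 * Λ.mass + 3
    have hle : ∀ n : ℕ, Λ.mass ≤ m + 1 / ((n : ℝ) + 1) +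
        2 * Real.sqrt (K * (1 / ((n : ℝ) + 1))) + ‖y n w‖ ^ 2 := by
      intro n
      have h := Λ.q_expand (sub_mem (one_mem M) (hy n).1) (hy n).1 1
      rw [one_smul, sub_add_cancel, Λ.q_one, norm_one, one_pow, one_mul, one_mul] at h
      have hB : (Λ.L (star (1 - y n) * y n)).re ≤ Real.sqrt (K * (1 / ((n : ℝ) + 1))) := by
        refine (Complex.re_le_norm _).trans (Real.le_sqrt_of_sq_le ?_)
        refine (horth (hy n) (hy n)).trans (mul_le_mul ?_ (by linarith [hy' n]) ?_ ?_)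
        · linarith [hyq n]
        · linarith [hlowm (hy n)]
        · linarith [Λ.mass_nonneg]
      linarith [bUp _ (hy n).1 (hy n).2, hy' n]
    have hr := ((hinv.const_add m).add ((hsqrt (c := K)).const_mul 2)).add hq0
    rw [mul_zero, add_zero, add_zero, add_zero] at hr
    linarith [ge_of_tendsto hr (Eventually.of_forall hle)]
  refine ⟨((Real.sqrt t : ℝ) : ℂ) • z,
    smul_ne_zero (by simpa using (Real.sqrt_pos.2 ht0).ne') hz0, fun x hx => ?_⟩
  rw [map_smul, norm_smul, mul_pow, Complex.norm_real, Real.norm_of_nonneg (Real.sqrt_nonneg _),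
    Real.sq_sqrt ht0.le]
  exact hbound x hx

/-- Every positive normal functional is given by a family of vectors. -/
theorem exists_repr : ∃ (J : Type u) (ξ : J → H), Summable (fun j => ‖ξ j‖ ^ 2) ∧
    ∀ x ∈ M, HasSum (fun j => ⟪ξ j, x (ξ j)⟫_ℂ) (Λ.L x) := by
  classical
  set C : Set (Set (H × ℕ)) := {V | ∀ (s : Finset (H × ℕ)), (s : Set (H × ℕ)) ⊆ V →
    ∀ x ∈ M, ∑ v ∈ s, ‖x v.1‖ ^ 2 ≤ Λ.q x}
  obtain ⟨V, hV⟩ := zorn_subset C (by
    intro c hc hch
    refine ⟨⋃₀ c, fun s hs x hx => ?_, fun t ht => Set.subset_sUnion_of_mem ht⟩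
    rcases s.eq_empty_or_nonempty with rfl | hne
    · simpa using Λ.q_nonneg hx
    have hcne : c.Nonempty := by
      obtain ⟨a, ha⟩ := hne
      obtain ⟨t, ht, -⟩ := hs ha
      exact ⟨t, ht⟩
    obtain ⟨t, ht, hst⟩ := hch.directedOn.exists_mem_subset_of_finset_subset_biUnion hcne
      (f := id) (s := s) (by simpa [Set.sUnion_eq_biUnion] using hs)
    exact hc ht s hst x hx)
  have hmem := hV.prop
  set ξ : V → H := fun v => v.1.1
  have hfin : ∀ x ∈ M, ∀ s : Finset V, ∑ v ∈ s, ‖x (ξ v)‖ ^ 2 ≤ Λ.q x := by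
    intro x hx s
    have := hmem (s.map (Function.Embedding.subtype _)) (by
      intro a ha
      obtain ⟨b, -, rfl⟩ := Finset.mem_map.1 ha
      exact b.2) x hx
    rwa [Finset.sum_map] at this
  have hsumx : ∀ x ∈ M, Summable fun v : V => ‖x (ξ v)‖ ^ 2 := fun x hx =>
    summable_of_sum_le (fun v => sq_nonneg _) (hfin x hx)
  have hsum : Summable fun v : V => ‖ξ v‖ ^ 2 := by simpa using hsumx 1 (one_mem M)
  have hsX : ∀ x : H →L[ℂ] H, Summable fun v : V => ⟪ξ v, x (ξ v)⟫_ℂ := fun x =>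
    (hsum.mul_left ‖x‖).of_norm_bounded fun v => (norm_inner_le_norm _ _).trans (by
      refine (mul_le_mul_of_nonneg_left (x.le_opNorm _) (norm_nonneg _)).trans (le_of_eq ?_)
      ring)
  let Ψ : (H →L[ℂ] H) →ₗ[ℂ] ℂ :=
    { toFun := fun x => ∑' v : V, ⟪ξ v, x (ξ v)⟫_ℂ
      map_add' := fun a b => by simp only [add_apply, inner_add_right, (hsX a).tsum_add (hsX b)]
      map_smul' := fun c a => by
        simp only [smul_apply, inner_smul_right, RingHom.id_apply, smul_eq_mul, tsum_mul_left] }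
  have hΨq : ∀ x, Ψ (star x * x) = ((∑' v : V, ‖x (ξ v)‖ ^ 2 : ℝ) : ℂ) := fun x => by
    rw [Complex.ofReal_tsum]
    refine tsum_congr fun v => ?_
    rw [inner_star_mul, inner_self_eq_norm_sq_to_K]
    norm_num
  have hnorm : IsNormalOn M Ψ := by
    intro ι e P he ho hP hPp hs
    change Tendsto (fun s : Finset ι => ∑ i ∈ s, Ψ (e i)) atTop (nhds (Ψ P))
    set R : Finset ι → H →L[ℂ] H := fun s => P - ∑ i ∈ s, e i
    have hR : ∀ s, IsStarProjection (R s) := rest_proj (fun i => (he i).2) ho hPp hs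
    have hR0 : Tendsto (fun s => Ψ (R s)) atTop (nhds 0) := by
      rw [tendsto_zero_iff_norm_tendsto_zero]
      refine tendsto_order.2 ⟨fun b hb => Eventually.of_forall fun s =>
        hb.trans_le (norm_nonneg _), fun b hb => ?_⟩
      obtain ⟨G, hG⟩ := summable_iff_vanishing_norm.1 hsum (b / 4) (by positivity)
      have hlim : Tendsto (fun s => ∑ v ∈ G, ‖R s (ξ v)‖ ^ 2) atTop (nhds 0) := by
        have h : ∀ v, Tendsto (fun s : Finset ι => ‖R s (ξ v)‖ ^ 2) atTop (nhds 0) := fun v => by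
          have h1 := ((continuous_norm.pow 2).tendsto _).comp
            ((tendsto_const_nhds (x := P (ξ v))).sub (hs (ξ v)))
          rw [sub_self] at h1
          simpa [Function.comp_def, R, sum_apply] using h1
        simpa using tendsto_finsetSum G fun v _ => h v
      filter_upwards [hlim.eventually (eventually_lt_nhds (show (0 : ℝ) < b / 4 by positivity))]
        with s hs'
      have hval : Ψ (R s) = ((∑' v : V, ‖R s (ξ v)‖ ^ 2 : ℝ) : ℂ) := by
        rw [← hΨq, (hR s).isSelfAdjoint.star_eq, (hR s).isIdempotentElem.eq]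
      rw [hval, Complex.norm_real, Real.norm_of_nonneg (tsum_nonneg fun v => sq_nonneg _)]
      refine lt_of_le_of_lt (Real.tsum_le_of_sum_le (c := b / 2) (fun v => sq_nonneg _) fun T => ?_)
        (half_lt_self hb)
      rw [← Finset.sum_filter_add_sum_filter_not T (· ∈ G)]
      have h1 : ∑ v ∈ T with v ∈ G, ‖R s (ξ v)‖ ^ 2 ≤ ∑ v ∈ G, ‖R s (ξ v)‖ ^ 2 :=
        Finset.sum_le_sum_of_subset_of_nonneg (fun v hv => (Finset.mem_filter.1 hv).2)
          fun v _ _ => sq_nonneg _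
      have h2 : ∑ v ∈ T with v ∉ G, ‖R s (ξ v)‖ ^ 2 ≤ ∑ v ∈ T with v ∉ G, ‖ξ v‖ ^ 2 :=
        Finset.sum_le_sum fun v _ =>
          pow_le_pow_left₀ (norm_nonneg _) (norm_proj_apply_le (hR s) _) 2
      have h3 := hG (T.filter (· ∉ G)) (Finset.disjoint_left.2 fun v hv hvG =>
        (Finset.mem_filter.1 hv).2 hvG)
      rw [Real.norm_of_nonneg (Finset.sum_nonneg fun v _ => sq_nonneg _)] at h3
      linarith
    have hf := (tendsto_const_nhds (x := Ψ P)).sub hR0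
    rw [sub_zero] at hf
    refine hf.congr fun s => ?_
    simp [R, map_sum]
  let R : NormalPos M :=
    { L := Λ.L - Ψ
      pos := fun x hx => by
        rw [LinearMap.sub_apply, Λ.L_star_mul hx, hΨq, ← Complex.ofReal_sub, Complex.ofReal_im,
          Complex.ofReal_re]
        exact ⟨rfl, sub_nonneg.2 ((hsumx x hx).tsum_le_of_sum_le (hfin x hx))⟩
      normal := fun ι e P he ho hP hPp hs => by
        simpa only [LinearMap.sub_apply] using
          (Λ.normal ι e P he ho hP hPp hs).sub (hnorm ι e P he ho hP hPp hs) }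
  have hR0 : R.mass = 0 := by
    by_contra hne
    obtain ⟨ζ, hζ, hζb⟩ := R.exists_vector (lt_of_le_of_ne R.mass_nonneg (Ne.symm hne))
    obtain ⟨k, hk⟩ : ∃ k, (ζ, k) ∉ V := by
      by_contra hall
      push Not at hall
      obtain ⟨n, hn⟩ := exists_nat_gt (Λ.q 1 / ‖ζ‖ ^ 2)
      have := hmem ((Finset.range n).image fun k => (ζ, k)) (by
        intro a ha
        obtain ⟨k, -, rfl⟩ := Finset.mem_image.1 ha
        exact hall k) 1 (one_mem M)
      rw [Finset.sum_image (fun a _ b _ h => (Prod.ext_iff.1 h).2)] at this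
      simp only [one_apply_eq_self, Finset.sum_const, Finset.card_range, nsmul_eq_mul] at this
      rw [div_lt_iff₀ (pow_pos (norm_pos_iff.2 hζ) 2)] at hn
      linarith
    have hins : insert (ζ, k) V ∈ C := by
      intro s hs x hx
      have hsub : ((s.erase (ζ, k) : Finset (H × ℕ)) : Set (H × ℕ)) ⊆ V := by
        intro a ha
        obtain ⟨h1, h2⟩ := Finset.mem_erase.1 ha
        exact (hs h2).resolve_left h1
      have h2 : R.q x = Λ.q x - ∑' v : V, ‖x (ξ v)‖ ^ 2 := by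
        simp only [NormalPos.q, R, LinearMap.sub_apply, hΨq, Complex.sub_re, Complex.ofReal_re]
      have h3 : ∑ v ∈ s.erase (ζ, k), ‖x v.1‖ ^ 2 ≤ ∑' v : V, ‖x (ξ v)‖ ^ 2 := by
        have h4 : ∑ v ∈ s.erase (ζ, k), ‖x v.1‖ ^ 2 =
            ∑ v ∈ (s.erase (ζ, k)).subtype (· ∈ V), ‖x (ξ v)‖ ^ 2 := by
          rw [← Finset.sum_subtype_of_mem (fun v => ‖x v.1‖ ^ 2) fun v hv => hsub hv]
        rw [h4]
        exact (hsumx x hx).sum_le_tsum _ fun v _ => sq_nonneg _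
      have h5 := hζb x hx
      have h6 : ∑ v ∈ s, ‖x v.1‖ ^ 2 ≤ ‖x ζ‖ ^ 2 + ∑ v ∈ s.erase (ζ, k), ‖x v.1‖ ^ 2 := by
        by_cases hm : (ζ, k) ∈ s
        · rw [← Finset.add_sum_erase _ _ hm]
        · rw [Finset.erase_eq_of_notMem hm]
          exact le_add_of_nonneg_left (sq_nonneg _)
      linarith
    exact hk (hV.2 hins (Set.subset_insert _ _) (Set.mem_insert _ _))
  refine ⟨V, ξ, hsum, fun x hx => ?_⟩
  have h := R.cauchy_schwarz (one_mem M) hx
  rw [R.q_one, hR0, zero_mul, star_one, one_mul] at h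
  have hz : R.L x = 0 :=
    norm_eq_zero.1 (pow_eq_zero_iff two_ne_zero |>.1 (le_antisymm h (sq_nonneg _)))
  rw [LinearMap.sub_apply, sub_eq_zero] at hz
  rw [hz]
  exact (hsX x).hasSum

end NormalPos

end Vale.Agent.P078.General
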