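import Vale.Agent.P078.General.Defs

/-!
Spectral cuts, closedness of the algebra, and elementary facts on pinchings.
-/

noncomputable section

open scoped InnerProductSpace ENNReal NNReal
open Filter Vale.Agent.P078.Finite

namespace Vale.Agent.P078.General

universe u

variable {H : Type u} [NormedAddCommGroup H] [InnerProductSpace ℂ H] [CompleteSpace H]
variable {M : VonNeumannAlgebra H} {A : StarSubalgebra ℂ (H →L[ℂ] H)}

/-- An operator commuting with the commutant of `M` belongs to `M`. -/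
theorem mem_of_comm {T : H →L[ℂ] H} (h : ∀ s ∈ M.commutant, s * T = T * s) : T ∈ M := by
  suffices h' : T ∈ M.commutant.commutant by
    rwa [VonNeumannAlgebra.commutant_commutant] at h'
  exact VonNeumannAlgebra.mem_commutant_iff.2 h

theorem inner_sa {T : H →L[ℂ] H} (hT : IsSelfAdjoint T) (u v : H) : ⟪T u, v⟫_ℂ = ⟪u, T v⟫_ℂ := by
  conv_rhs => rw [← ContinuousLinearMap.adjoint_inner_left]
  rw [← ContinuousLinearMap.star_eq_adjoint, hT.star_eq]

theorem proj_idem_apply {p : H →L[ℂ] H} (hp : IsStarProjection p) (v : H) : p (p v) = p v :=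
  congrArg (fun T : H →L[ℂ] H => T v) hp.isIdempotentElem

theorem sq_norm_proj' {p : H →L[ℂ] H} (hp : IsStarProjection p) (v : H) :
    ‖p v‖ ^ 2 = (⟪v, p v⟫_ℂ).re := by
  have h := inner_self_eq_norm_sq (𝕜 := ℂ) (p v)
  rw [inner_sa hp.isSelfAdjoint, proj_idem_apply hp] at h
  exact h.symm

theorem norm_proj_apply_le {p : H →L[ℂ] H} (hp : IsStarProjection p) (v : H) : ‖p v‖ ≤ ‖v‖ :=
  (p.le_opNorm v).trans (mul_le_of_le_one_left (norm_nonneg _) (norm_starProjection_le_one hp))

/-- Spectral cut: a projection of `M` on whose range `T` is at most `θ` and on whose complement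
`T` is at least `θ`. -/
theorem exists_cut {T : H →L[ℂ] H} (hT : T ∈ M) (hs : IsSelfAdjoint T) {θ : ℝ} (hθ : 0 < θ) :
    ∃ q ∈ M, IsStarProjection q ∧
      (∀ S : H →L[ℂ] H, S * T = T * S → star S * T = T * star S → S * q = q * S) ∧
      (∀ v, T v = 0 → q v = v) ∧ ‖T * q‖ ≤ θ ∧ (∀ v, θ * ‖(1 - q) v‖ ≤ ‖T v‖) ∧
      ∀ v, θ * ‖(1 - q) v‖ ≤ ‖T ((1 - q) v)‖ := by
  set g : ℝ → ℝ := fun t => max 0 (|t| - θ) with hg
  set G : H →L[ℂ] H := cfc g T with hGdef
  have hgc : Continuous g := by fun_prop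
  have hGs : IsSelfAdjoint G := cfc_predicate g T
  set K : Submodule ℂ H := LinearMap.ker (G : H →ₗ[ℂ] H) with hK
  have : CompleteSpace K := G.isClosed_ker.completeSpace_coe
  set q := K.starProjection with hq
  have hmem : ∀ {v}, v ∈ K ↔ G v = 0 := LinearMap.mem_ker
  have hcG : ∀ S : H →L[ℂ] H, S * T = T * S → S * G = G * S := fun S h =>
    ((show Commute T S from h.symm).cfc_real g).eq.symm
  have hinv : ∀ S : H →L[ℂ] H, S * T = T * S → ∀ v ∈ K, S v ∈ K := fun S h v hv => by
    rw [hmem] at hv ⊢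
    change (G * S) v = 0
    rw [← hcG S h]
    change S (G v) = 0
    rw [hv, map_zero]
  have hcomm : ∀ S : H →L[ℂ] H, S * T = T * S → star S * T = T * star S → S * q = q * S := by
    intro S h1 h2
    ext v
    change S (q v) = q (S v)
    symm
    refine Submodule.eq_starProjection_of_mem_orthogonal
      (hinv S h1 _ (K.starProjection_apply_mem v)) ?_
    rw [Submodule.mem_orthogonal']
    intro w hw
    rw [← map_sub, ← ContinuousLinearMap.adjoint_inner_right, ← ContinuousLinearMap.star_eq_adjoint]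
    exact Submodule.starProjection_inner_eq_zero v _ (hinv _ h2 w hw)
  have hqM : q ∈ M := mem_of_comm fun s hs' => by
    refine hcomm s (VonNeumannAlgebra.mem_commutant_iff.1 hs' T hT).symm ?_
    exact (VonNeumannAlgebra.mem_commutant_iff.1 (star_mem hs') T hT).symm
  have hqp : IsStarProjection q := isStarProjection_starProjection
  have hTq : T * q = q * T := hcomm T rfl (by rw [hs.star_eq])
  set h : ℝ → ℝ := fun t => |t| + θ with hhdef
  have hsq : T * T = cfc (fun t : ℝ => t * t) T := by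
    rw [cfc_mul (fun t : ℝ => t) (fun t : ℝ => t) T, cfc_id' ℝ T hs]
  have hup : T * T ≤ algebraMap ℝ (H →L[ℂ] H) (θ ^ 2) + cfc h T * G := by
    rw [hsq, hGdef, ← cfc_mul h g T (by fun_prop) (by fun_prop), ← cfc_const_add _ _ T
      (by fun_prop) hs]
    refine cfc_mono (fun t _ => ?_) (by fun_prop) (by fun_prop)
    simp only [hg, hhdef]
    rcases le_total (|t| - θ) 0 with h1 | h1
    · rw [max_eq_left h1]
      nlinarith [abs_mul_abs_self t, abs_nonneg t]
    · rw [max_eq_right h1]
      nlinarith [abs_mul_abs_self t]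
  have hlow : algebraMap ℝ (H →L[ℂ] H) (θ ^ 2) * (G * G) ≤ G * (T * T) * G := by
    rw [hsq, hGdef, ← cfc_mul g g T (by fun_prop) (by fun_prop), ← cfc_const (θ ^ 2) T hs,
      ← cfc_mul _ _ T (by fun_prop) (by fun_prop), ← cfc_mul _ _ T (by fun_prop) (by fun_prop),
      ← cfc_mul _ _ T (by fun_prop) (by fun_prop)]
    refine cfc_mono (fun t _ => ?_) (by fun_prop) (by fun_prop)
    simp only [hg]
    rcases le_total (|t| - θ) 0 with h1 | h1
    · rw [max_eq_left h1]
      simp
    · rw [max_eq_right h1]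
      nlinarith [mul_nonneg (mul_self_nonneg (|t| - θ))
        (show 0 ≤ t * t - θ ^ 2 by nlinarith [abs_mul_abs_self t])]
  have hTT : ∀ w, (⟪w, (T * T) w⟫_ℂ).re = ‖T w‖ ^ 2 := fun w => by
    change (⟪w, T (T w)⟫_ℂ).re = _
    rw [← inner_sa hs]
    exact inner_self_eq_norm_sq (𝕜 := ℂ) (T w)
  have hre : ∀ {X Y : H →L[ℂ] H}, X ≤ Y → ∀ w, (⟪w, X w⟫_ℂ).re ≤ (⟪w, Y w⟫_ℂ).re := by
    intro X Y hXY w
    have h0 := (ContinuousLinearMap.le_def X Y).1 hXY |>.re_inner_nonneg_right w
    rw [sub_apply, inner_sub_right, map_sub] at h0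
    exact sub_nonneg.1 h0
  refine ⟨q, hqM, hqp, hcomm, fun v hv => ?_, ?_, ?_⟩
  · refine Submodule.starProjection_eq_self_iff.2 (hmem.2 ?_)
    have hfac : ∃ k : ℝ → ℝ, Continuous k ∧ ∀ t, g t = k t * t := by
      refine ⟨fun t => g t / max θ |t| * (max (-θ) (min θ t) / θ), ?_, fun t => ?_⟩
      · exact (hgc.div (by fun_prop) fun t => (lt_max_of_lt_left hθ).ne').mul (by fun_prop)
      · simp only [hg]
        rcases le_total (|t| - θ) 0 with h1 | h1
        · simp [max_eq_left h1]
        · rw [max_eq_right h1, max_eq_right (sub_nonneg.1 h1)]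
          rcases le_total 0 t with h2 | h2
          · rw [abs_of_nonneg h2] at h1 ⊢
            rw [min_eq_left (by linarith), max_eq_right (by linarith)]
            field_simp [show t ≠ 0 by linarith]
          · rw [abs_of_nonpos h2] at h1 ⊢
            rw [min_eq_right (by linarith), max_eq_left (by linarith)]
            field_simp [show t ≠ 0 by linarith]
    obtain ⟨k, hkc, hk⟩ := hfac
    have : G = cfc k T * T := by
      conv_rhs => arg 2; rw [← cfc_id' ℝ T hs]
      rw [← cfc_mul k _ T (by fun_prop) (by fun_prop), hGdef]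
      exact cfc_congr fun t _ => hk t
    rw [this]
    change cfc k T (T v) = 0
    rw [hv, map_zero]
  · refine ContinuousLinearMap.opNorm_le_bound _ hθ.le fun v => ?_
    change ‖T (q v)‖ ≤ θ * ‖v‖
    have h1 := hre hup (q v)
    have h2 : G (q v) = 0 := hmem.1 (K.starProjection_apply_mem v)
    have h3 : (cfc h T * G) (q v) = 0 := by
      change cfc h T (G (q v)) = 0
      rw [h2, map_zero]
    rw [hTT, add_apply, h3, add_zero, Algebra.algebraMap_eq_smul_one, smul_apply, one_apply_eq_self,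
      ← Complex.coe_smul, inner_smul_right, Complex.re_ofReal_mul] at h1
    have h4 : (⟪q v, q v⟫_ℂ).re = ‖q v‖ ^ 2 := inner_self_eq_norm_sq (𝕜 := ℂ) _
    rw [h4, ← mul_pow] at h1
    exact ((pow_le_pow_iff_left₀ (norm_nonneg _) (by positivity) two_ne_zero).1 h1).trans
      (mul_le_mul_of_nonneg_left (norm_proj_apply_le hqp v) hθ.le)
  · have hlow' : ∀ v, θ * ‖(1 - q) v‖ ≤ ‖T ((1 - q) v)‖ := by
      intro v
      have hr : (1 - q) v ∈ Kᗮ := by
        change v - q v ∈ Kᗮ
        exact K.sub_starProjection_mem_orthogonal v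
      have hK' : Kᗮ = (LinearMap.range ((star G : H →L[ℂ] H) : H →ₗ[ℂ] H)).topologicalClosure :=
        ContinuousLinearMap.orthogonal_ker G
      rw [hK', hGs.star_eq] at hr
      have hcl : IsClosed {w : H | θ * ‖w‖ ≤ ‖T w‖} :=
        isClosed_le (by fun_prop) (by fun_prop)
      suffices hsub : (LinearMap.range (G : H →ₗ[ℂ] H) : Set H) ⊆ {w : H | θ * ‖w‖ ≤ ‖T w‖} from
        closure_minimal hsub hcl hr
      rintro w ⟨u, rfl⟩
      change θ * ‖G u‖ ≤ ‖T (G u)‖
      have h1 := hre hlow u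
      refine (pow_le_pow_iff_left₀ (by positivity) (norm_nonneg _) two_ne_zero).1 ?_
      rw [mul_pow]
      rw [Algebra.algebraMap_eq_smul_one, smul_mul_assoc, one_mul, smul_apply,
        ← Complex.coe_smul, inner_smul_right, Complex.re_ofReal_mul] at h1
      change θ ^ 2 * (⟪u, G (G u)⟫_ℂ).re ≤ (⟪u, G ((T * T) (G u))⟫_ℂ).re at h1
      rw [← inner_sa hGs u (G u), ← inner_sa hGs u ((T * T) (G u)), hTT,
        show (⟪G u, G u⟫_ℂ).re = ‖G u‖ ^ 2 from inner_self_eq_norm_sq (𝕜 := ℂ) _] at h1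
      exact h1
    refine ⟨fun v => (hlow' v).trans ?_, hlow'⟩
    have e : T ((1 - q) v) = (1 - q) (T v) := by
      change (T * (1 - q)) v = ((1 - q) * T) v
      rw [mul_sub, sub_mul, hTq, mul_one, one_mul]
    rw [e]
    exact norm_proj_apply_le hqp.one_sub _

end Vale.Agent.P078.General
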